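import Claimed.Agent.R316.Pack007

/-!
# Row 316, CW-2: calculus of the Levi matrix `levi` and of `grad10`

`levi f z j k = ∂²f/∂z̄_j∂z_k`, `grad10 f z k = ∂f/∂z_k` for REAL `f : CE ι → ℝ`
(`Core/Basic.lean`).  `conj = starRingEnd ℂ`.  "Holomorphic near `z`" is
`∀ᶠ w in 𝓝 z, DifferentiableAt ℂ F w` (get it from `hol_eventually_of_differentiableOn`).

Owner: helper16.
-/

set_option autoImplicit false
set_option linter.unusedSectionVars false
open scoped ContDiff ComplexOrder ComplexConjugate Topology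

namespace Claimed.Agent.R316

section levi

variable {ι : Type} [Fintype ι] [DecidableEq ι]
variable {f g : CE ι → ℝ} {z : CE ι} {j k : ι}

/-! ### regularity of the coercion -/

theorem contDiffAt_ofReal {n : WithTop ℕ∞} (hf : ContDiffAt ℝ n f z) :
    ContDiffAt ℝ n (fun w => ((f w : ℝ) : ℂ)) z :=
  Complex.ofRealCLM.contDiff.contDiffAt.comp z hf

theorem contDiffAt_grad10 {m n : WithTop ℕ∞} (hf : ContDiffAt ℝ n f z) (hmn : m + 1 ≤ n) :
    ContDiffAt ℝ m (fun w => grad10 f w k) z :=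
  contDiffAt_dz (contDiffAt_ofReal hf) hmn

theorem contDiffAt_levi {m n : WithTop ℕ∞} (hf : ContDiffAt ℝ n f z) (hmn : m + 2 ≤ n) :
    ContDiffAt ℝ m (fun w => levi f w j k) z := by
  have h1 : ContDiffAt ℝ (m + 1) (dz k (fun y => ((f y : ℝ) : ℂ))) z :=
    contDiffAt_dz (contDiffAt_ofReal hf) (by rw [add_assoc]; exact hmn)
  exact contDiffAt_dzb h1 le_rfl

/-! ### helper facts for complex valued `C²` functions -/

theorem lv_eventually_contDiffAt {F : CE ι → ℂ} (hF : ContDiffAt ℝ 2 F z) :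
    ∀ᶠ w in 𝓝 z, ContDiffAt ℝ 2 F w := hF.eventually (by simp)

theorem lv_eventually_differentiableAt {F : CE ι → ℂ} (hF : ContDiffAt ℝ 2 F z) :
    ∀ᶠ w in 𝓝 z, DifferentiableAt ℝ F w :=
  (lv_eventually_contDiffAt hF).mono fun _ h => h.differentiableAt (by norm_num)

theorem lv_differentiableAt_dz {F : CE ι → ℂ} (hF : ContDiffAt ℝ 2 F z) :
    DifferentiableAt ℝ (dz k F) z :=
  (contDiffAt_dz (m := 1) hF (by norm_num)).differentiableAt (by norm_num)

theorem lv_differentiableAt_dzb {F : CE ι → ℂ} (hF : ContDiffAt ℝ 2 F z) :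
    DifferentiableAt ℝ (dzb k F) z :=
  (contDiffAt_dzb (m := 1) hF (by norm_num)).differentiableAt (by norm_num)

theorem lv_differentiableAt (hf : ContDiffAt ℝ 2 f z) : DifferentiableAt ℝ f z :=
  hf.differentiableAt (by norm_num)

theorem lv_differentiableAt_grad10 (hf : ContDiffAt ℝ 2 f z) :
    DifferentiableAt ℝ (fun w => grad10 f w k) z :=
  lv_differentiableAt_dz (contDiffAt_ofReal hf)

theorem lv_eventually_differentiableAt_real (hf : ContDiffAt ℝ 2 f z) :
    ∀ᶠ w in 𝓝 z, DifferentiableAt ℝ f w :=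
  (hf.eventually (by simp)).mono fun _ h => h.differentiableAt (by norm_num)

/-! ### basic shape -/

theorem levi_apply : levi f z j k = dzb j (dz k (fun y => ((f y : ℝ) : ℂ))) z := rfl

theorem levi_eq_dzb_grad10 : levi f z j k = dzb j (fun w => grad10 f w k) z := rfl

theorem levi_eq_dz_dzb (hf : ContDiffAt ℝ 2 f z) :
    levi f z j k = dz k (dzb j (fun y => ((f y : ℝ) : ℂ))) z :=
  (dz_dzb_comm (contDiffAt_ofReal hf)).symm

theorem levi_conj (hf : ContDiffAt ℝ 2 f z) : conj (levi f z j k) = levi f z k j := by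
  rw [levi_apply, ← dz_conj, levi_eq_dz_dzb hf]
  congr 1
  funext w
  exact (dzb_ofReal f).symm

theorem levi_isHermitian (hf : ContDiffAt ℝ 2 f z) : (levi f z).IsHermitian := by
  ext j k
  rw [Matrix.conjTranspose_apply]
  exact levi_conj hf

/-! ### congruence -/

theorem lv_ofReal_eventuallyEq (h : f =ᶠ[𝓝 z] g) :
    (fun w => ((f w : ℝ) : ℂ)) =ᶠ[𝓝 z] fun w => ((g w : ℝ) : ℂ) :=
  h.mono fun w hw => by simp only [hw]

theorem grad10_congr (h : f =ᶠ[𝓝 z] g) : grad10 f z = grad10 g z := by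
  funext k
  exact dz_congr (lv_ofReal_eventuallyEq h)

theorem levi_congr (h : f =ᶠ[𝓝 z] g) : levi f z = levi g z := by
  ext j k
  exact dzb_congr (dz_eventuallyEq (lv_ofReal_eventuallyEq h))

theorem grad10_eqOn {U : Set (CE ι)} (hU : IsOpen U) (h : Set.EqOn f g U) :
    Set.EqOn (grad10 f) (grad10 g) U := fun _ hw =>
  grad10_congr (h.eventuallyEq_of_mem (hU.mem_nhds hw))

theorem levi_eqOn {U : Set (CE ι)} (hU : IsOpen U) (h : Set.EqOn f g U) :
    Set.EqOn (levi f) (levi g) U := fun _ hw =>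
  levi_congr (h.eventuallyEq_of_mem (hU.mem_nhds hw))

/-! ### algebra of `grad10` -/

theorem grad10_const (c : ℝ) : grad10 (fun _ : CE ι => c) z = 0 := by
  funext k
  exact dz_const _

theorem grad10_add (hf : DifferentiableAt ℝ f z) (hg : DifferentiableAt ℝ g z) :
    grad10 (fun w => f w + g w) z = grad10 f z + grad10 g z := by
  funext k
  simp only [grad10, Complex.ofReal_add, Pi.add_apply]
  exact dz_add (differentiableAt_ofReal hf) (differentiableAt_ofReal hg)

theorem grad10_sub (hf : DifferentiableAt ℝ f z) (hg : DifferentiableAt ℝ g z) :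
    grad10 (fun w => f w - g w) z = grad10 f z - grad10 g z := by
  funext k
  simp only [grad10, Complex.ofReal_sub, Pi.sub_apply]
  exact dz_sub (differentiableAt_ofReal hf) (differentiableAt_ofReal hg)

theorem grad10_neg : grad10 (fun w => - f w) z = - grad10 f z := by
  funext k
  simp only [grad10, Complex.ofReal_neg, Pi.neg_apply]
  exact dz_neg

theorem grad10_const_mul (c : ℝ) (hf : DifferentiableAt ℝ f z) :
    grad10 (fun w => c * f w) z = (c : ℂ) • grad10 f z := by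
  funext k
  simp only [grad10, Complex.ofReal_mul, Pi.smul_apply, smul_eq_mul]
  exact dz_const_mul _ (differentiableAt_ofReal hf)

theorem grad10_mul (hf : DifferentiableAt ℝ f z) (hg : DifferentiableAt ℝ g z) :
    grad10 (fun w => f w * g w) z = (f z : ℂ) • grad10 g z + (g z : ℂ) • grad10 f z := by
  funext k
  simp only [grad10, Complex.ofReal_mul, Pi.smul_apply, Pi.add_apply, smul_eq_mul]
  rw [dz_mul (differentiableAt_ofReal hf) (differentiableAt_ofReal hg)]
  ring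

theorem grad10_sum {α : Type} (s : Finset α) (F : α → CE ι → ℝ)
    (h : ∀ a ∈ s, DifferentiableAt ℝ (F a) z) :
    grad10 (fun w => ∑ a ∈ s, F a w) z = ∑ a ∈ s, grad10 (F a) z := by
  funext k
  simp only [grad10, Complex.ofReal_sum, Finset.sum_apply]
  exact dz_sum s (fun a w => ((F a w : ℝ) : ℂ)) fun a ha => differentiableAt_ofReal (h a ha)

/-! ### algebra of `levi` -/

theorem levi_const (c : ℝ) : levi (fun _ : CE ι => c) z = 0 := by
  ext j k
  have h : dz k (fun _ : CE ι => ((c : ℝ) : ℂ)) = fun _ => 0 := by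
    funext w; exact dz_const _
  rw [levi_apply, h]
  exact dzb_const _

theorem levi_add (hf : ContDiffAt ℝ 2 f z) (hg : ContDiffAt ℝ 2 g z) :
    levi (fun w => f w + g w) z = levi f z + levi g z := by
  ext j k
  have h : (fun w => grad10 (fun y => f y + g y) w k)
      =ᶠ[𝓝 z] fun w => grad10 f w k + grad10 g w k := by
    filter_upwards [lv_eventually_differentiableAt_real hf,
      lv_eventually_differentiableAt_real hg] with w h1 h2
    rw [grad10_add h1 h2]; rfl
  rw [levi_eq_dzb_grad10, dzb_congr h,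
    dzb_add (lv_differentiableAt_grad10 hf) (lv_differentiableAt_grad10 hg)]
  rfl

theorem levi_neg : levi (fun w => - f w) z = - levi f z := by
  ext j k
  have h : (fun w => grad10 (fun y => - f y) w k) = fun w => - grad10 f w k := by
    funext w; rw [grad10_neg]; rfl
  rw [levi_eq_dzb_grad10, h, dzb_neg]
  rfl

theorem levi_sub (hf : ContDiffAt ℝ 2 f z) (hg : ContDiffAt ℝ 2 g z) :
    levi (fun w => f w - g w) z = levi f z - levi g z := by
  have h := levi_add hf hg.neg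
  simp only [sub_eq_add_neg]
  have h2 : levi (fun w => - g w) z = - levi g z := levi_neg
  rw [← h2]
  exact h

theorem levi_const_mul (c : ℝ) (hf : ContDiffAt ℝ 2 f z) :
    levi (fun w => c * f w) z = (c : ℂ) • levi f z := by
  ext j k
  have h : (fun w => grad10 (fun y => c * f y) w k)
      =ᶠ[𝓝 z] fun w => (c : ℂ) * grad10 f w k := by
    filter_upwards [lv_eventually_differentiableAt_real hf] with w h1
    rw [grad10_const_mul c h1]; rfl
  rw [levi_eq_dzb_grad10, dzb_congr h, dzb_const_mul _ (lv_differentiableAt_grad10 hf)]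
  rfl

theorem levi_add_const (c : ℝ) : levi (fun w => f w + c) z = levi f z := by
  ext j k
  have h : dz k (fun y => ((f y + c : ℝ) : ℂ)) = dz k (fun y => ((f y : ℝ) : ℂ)) := by
    funext w
    simp only [dz_def, Complex.ofReal_add]
    rw [fderiv_add_const]
  rw [levi_apply, h]
  rfl

theorem levi_sum {α : Type} (s : Finset α) (F : α → CE ι → ℝ)
    (h : ∀ a ∈ s, ContDiffAt ℝ 2 (F a) z) :
    levi (fun w => ∑ a ∈ s, F a w) z = ∑ a ∈ s, levi (F a) z := by
  classical
  induction s using Finset.induction_on with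
  | empty => simpa using levi_const (ι := ι) (z := z) 0
  | insert a s ha ih =>
    have h1 : ContDiffAt ℝ 2 (F a) z := h a (Finset.mem_insert_self a s)
    have h2 : ∀ b ∈ s, ContDiffAt ℝ 2 (F b) z := fun b hb => h b (Finset.mem_insert_of_mem hb)
    have h3 : ContDiffAt ℝ 2 (fun w => ∑ b ∈ s, F b w) z := ContDiffAt.sum h2
    simp only [Finset.sum_insert ha]
    rw [levi_add h1 h3, ih h2]

/-- Leibniz rule. -/
theorem levi_mul (hf : ContDiffAt ℝ 2 f z) (hg : ContDiffAt ℝ 2 g z) :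
    levi (fun w => f w * g w) z j k =
      (f z : ℂ) * levi g z j k + (g z : ℂ) * levi f z j k
        + conj (grad10 f z j) * grad10 g z k + conj (grad10 g z j) * grad10 f z k := by
  have h : (fun w => grad10 (fun y => f y * g y) w k)
      =ᶠ[𝓝 z] fun w => ((f w : ℝ) : ℂ) * grad10 g w k + ((g w : ℝ) : ℂ) * grad10 f w k := by
    filter_upwards [lv_eventually_differentiableAt_real hf,
      lv_eventually_differentiableAt_real hg] with w h1 h2
    rw [grad10_mul h1 h2]; rfl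
  have hf1 := differentiableAt_ofReal (lv_differentiableAt hf)
  have hg1 := differentiableAt_ofReal (lv_differentiableAt hg)
  have hA : DifferentiableAt ℝ (fun w => ((f w : ℝ) : ℂ) * grad10 g w k) z :=
    hf1.mul (lv_differentiableAt_grad10 hg)
  have hB : DifferentiableAt ℝ (fun w => ((g w : ℝ) : ℂ) * grad10 f w k) z :=
    hg1.mul (lv_differentiableAt_grad10 hf)
  rw [levi_eq_dzb_grad10, dzb_congr h, dzb_add hA hB,
    dzb_mul hf1 (lv_differentiableAt_grad10 hg), dzb_mul hg1 (lv_differentiableAt_grad10 hf),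
    dzb_ofReal_eq_grad10, dzb_ofReal_eq_grad10, levi_eq_dzb_grad10, levi_eq_dzb_grad10]
  ring

/-! ### outer real functions -/

theorem levi_comp_real (χ : ℝ → ℝ) (hχ : ContDiffAt ℝ 2 χ (f z)) (hf : ContDiffAt ℝ 2 f z) :
    levi (fun w => χ (f w)) z j k =
      ((deriv χ (f z) : ℝ) : ℂ) * levi f z j k
        + ((deriv (deriv χ) (f z) : ℝ) : ℂ) * (conj (grad10 f z j) * grad10 f z k) := by
  have hfc : ContinuousAt f z := hf.continuousAt
  have hχev : ∀ᶠ w in 𝓝 z, DifferentiableAt ℝ χ (f w) :=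
    hfc.eventually ((hχ.eventually (by simp)).mono fun _ h => h.differentiableAt (by norm_num))
  have h : (fun w => grad10 (fun y => χ (f y)) w k)
      =ᶠ[𝓝 z] fun w => ((deriv χ (f w) : ℝ) : ℂ) * grad10 f w k := by
    filter_upwards [lv_eventually_differentiableAt_real hf, hχev] with w h1 h2
    exact grad10_comp_real χ f h2 h1
  have hdχ : DifferentiableAt ℝ (deriv χ) (f z) := by
    have h1 : ContDiffAt ℝ 1 (deriv χ) (f z) := by
      have := hχ.fderiv_right (m := 1) (by norm_num)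
      have h2 : deriv χ = fun x => fderiv ℝ χ x 1 := by funext x; simp
      rw [h2]
      exact this.clm_apply contDiffAt_const
    exact h1.differentiableAt (by norm_num)
  have hf1 := lv_differentiableAt hf
  have hA : DifferentiableAt ℝ (fun w => ((deriv χ (f w) : ℝ) : ℂ)) z :=
    differentiableAt_ofReal (u := fun w => deriv χ (f w)) (hdχ.comp z hf1)
  rw [levi_eq_dzb_grad10, dzb_congr h, dzb_mul hA (lv_differentiableAt_grad10 hf),
    dzb_comp_real (deriv χ) f hdχ hf1, dzb_ofReal_eq_grad10, levi_eq_dzb_grad10]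
  ring

theorem levi_exp (hf : ContDiffAt ℝ 2 f z) :
    levi (fun w => Real.exp (f w)) z j k =
      ((Real.exp (f z) : ℝ) : ℂ) * (levi f z j k + conj (grad10 f z j) * grad10 f z k) := by
  rw [levi_comp_real Real.exp Real.contDiff_exp.contDiffAt hf]
  simp only [Real.deriv_exp]
  ring

theorem levi_log (hf : ContDiffAt ℝ 2 f z) (h0 : f z ≠ 0) :
    levi (fun w => Real.log (f w)) z j k =
      levi f z j k / (f z : ℂ) - conj (grad10 f z j) * grad10 f z k / (f z : ℂ) ^ 2 := by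
  rw [levi_comp_real Real.log (Real.contDiffAt_log.2 h0) hf]
  have h1 : deriv Real.log = fun x => x⁻¹ := by funext x; exact Real.deriv_log x
  have h2 : deriv (fun x : ℝ => x⁻¹) (f z) = -((f z) ^ 2)⁻¹ := (hasDerivAt_inv h0).deriv
  rw [h1, h2]
  have h3 : ((f z : ℝ) : ℂ) ≠ 0 := Complex.ofReal_ne_zero.2 h0
  push_cast
  field_simp
  ring

theorem levi_pow (m : ℕ) (hf : ContDiffAt ℝ 2 f z) :
    levi (fun w => f w ^ m) z j k =
      (m : ℂ) * (f z : ℂ) ^ (m - 1) * levi f z j k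
        + (m : ℂ) * ((m : ℂ) - 1) * (f z : ℂ) ^ (m - 2)
          * (conj (grad10 f z j) * grad10 f z k) := by
  rw [levi_comp_real (fun x => x ^ m) (contDiff_id.pow m).contDiffAt hf]
  have h1 : deriv (fun x : ℝ => x ^ m) = fun x => (m : ℝ) * x ^ (m - 1) := by
    funext x; simp
  have h2 : deriv (fun x : ℝ => (m : ℝ) * x ^ (m - 1)) (f z)
      = (m : ℝ) * (((m - 1 : ℕ) : ℝ) * (f z) ^ (m - 1 - 1)) := by
    simp
  rw [h1, h2]
  have h3 : (((m - 1 : ℕ) : ℝ) : ℂ) * (m : ℂ) = ((m : ℂ) - 1) * (m : ℂ) := by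
    rcases Nat.eq_zero_or_pos m with h | h
    · simp [h]
    · rw [Nat.cast_sub h]; push_cast; ring
  have h4 : m - 1 - 1 = m - 2 := by omega
  rw [h4]
  push_cast
  linear_combination ((f z : ℂ) ^ (m - 2) * (conj (grad10 f z j) * grad10 f z k)) * h3

theorem levi_sq (hf : ContDiffAt ℝ 2 f z) :
    levi (fun w => f w ^ 2) z j k =
      2 * (f z : ℂ) * levi f z j k + 2 * (conj (grad10 f z j) * grad10 f z k) := by
  rw [levi_pow 2 hf]
  norm_num

theorem levi_inv (hf : ContDiffAt ℝ 2 f z) (h0 : f z ≠ 0) :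
    levi (fun w => (f w)⁻¹) z j k =
      - levi f z j k / (f z : ℂ) ^ 2
        + 2 * (conj (grad10 f z j) * grad10 f z k) / (f z : ℂ) ^ 3 := by
  rw [levi_comp_real (fun x => x⁻¹) (contDiffAt_inv ℝ h0) hf]
  have h1 : deriv (fun x : ℝ => x⁻¹) = fun x => -(x ^ 2)⁻¹ := by
    funext x; simp
  have h2 : deriv (fun x : ℝ => -(x ^ 2)⁻¹) (f z) = 2 * ((f z) ^ 3)⁻¹ := by
    have h3 : HasDerivAt (fun x : ℝ => x ^ 2) (2 * f z) (f z) := by
      simpa using hasDerivAt_pow 2 (f z)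
    have h4 : HasDerivAt (fun x : ℝ => -(x ^ 2)⁻¹) (-(-(2 * f z) / (f z ^ 2) ^ 2)) (f z) :=
      (h3.inv (pow_ne_zero 2 h0)).neg
    rw [h4.deriv]
    field_simp
  rw [h1, h2]
  have h3 : ((f z : ℝ) : ℂ) ≠ 0 := Complex.ofReal_ne_zero.2 h0
  push_cast
  field_simp

theorem levi_rpow (p : ℝ) (hf : ContDiffAt ℝ 2 f z) (h0 : 0 < f z) :
    levi (fun w => f w ^ p) z j k =
      ((p * f z ^ (p - 1) : ℝ) : ℂ) * levi f z j k
        + ((p * (p - 1) * f z ^ (p - 2) : ℝ) : ℂ) * (conj (grad10 f z j) * grad10 f z k) := by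
  rw [levi_comp_real (fun x => x ^ p) (Real.contDiffAt_rpow_const_of_ne h0.ne') hf]
  have h1 : deriv (fun x : ℝ => x ^ p) (f z) = p * f z ^ (p - 1) :=
    (Real.hasDerivAt_rpow_const (Or.inl h0.ne')).deriv
  have h2 : deriv (fun x : ℝ => x ^ p) =ᶠ[𝓝 (f z)] fun x => p * x ^ (p - 1) := by
    filter_upwards [lt_mem_nhds h0] with x hx
    exact (Real.hasDerivAt_rpow_const (Or.inl hx.ne')).deriv
  have h3 : deriv (deriv (fun x : ℝ => x ^ p)) (f z) = p * (p - 1) * f z ^ (p - 2) := by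
    rw [h2.deriv_eq]
    have := ((Real.hasDerivAt_rpow_const (p := p - 1) (Or.inl h0.ne')).const_mul p).deriv
    rw [this]
    have e : p - 1 - 1 = p - 2 := by ring
    rw [e]; ring
  rw [h1, h3]

theorem levi_sqrt (hf : ContDiffAt ℝ 2 f z) (h0 : 0 < f z) :
    levi (fun w => Real.sqrt (f w)) z j k =
      levi f z j k / (2 * (Real.sqrt (f z) : ℂ))
        - conj (grad10 f z j) * grad10 f z k / (4 * (f z : ℂ) * (Real.sqrt (f z) : ℂ)) := by
  have h1 : (fun w => Real.sqrt (f w)) = fun w => f w ^ (1 / 2 : ℝ) := by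
    funext w; exact Real.sqrt_eq_rpow (f w) ▸ rfl
  rw [h1, levi_rpow (1 / 2) hf h0]
  set s := Real.sqrt (f z) with hs
  have hs0 : 0 < s := Real.sqrt_pos.2 h0
  have hss : s * s = f z := Real.mul_self_sqrt h0.le
  have e1 : f z ^ ((1 / 2 : ℝ) - 1) = s⁻¹ := by
    have : (1 / 2 : ℝ) - 1 = -(1 / 2) := by norm_num
    rw [this, Real.rpow_neg h0.le, ← Real.sqrt_eq_rpow]
  have e2 : f z ^ ((1 / 2 : ℝ) - 2) = (f z * s)⁻¹ := by
    have : (1 / 2 : ℝ) - 2 = -(1 + 1 / 2) := by norm_num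
    rw [this, Real.rpow_neg h0.le, Real.rpow_add h0, Real.rpow_one, ← Real.sqrt_eq_rpow]
  rw [e1, e2]
  have hsc : ((s : ℝ) : ℂ) ≠ 0 := Complex.ofReal_ne_zero.2 hs0.ne'
  have hfc : ((f z : ℝ) : ℂ) ≠ 0 := Complex.ofReal_ne_zero.2 h0.ne'
  push_cast
  field_simp
  ring

theorem qf_grad10_outer (a v : ι → ℂ) :
    qf (Matrix.of fun j k => conj (a j) * a k) v = ‖∑ k, a k * v k‖ ^ 2 := by
  have h : star v ⬝ᵥ (Matrix.of fun j k => conj (a j) * a k).mulVec v
      = conj (∑ k, a k * v k) * ∑ k, a k * v k := by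
    simp only [dotProduct, Matrix.mulVec, Matrix.of_apply, Pi.star_apply, map_sum, map_mul]
    rw [Finset.sum_mul]
    refine Finset.sum_congr rfl fun j _ => ?_
    rw [Finset.mul_sum, Finset.mul_sum]
    refine Finset.sum_congr rfl fun k _ => ?_
    simp only [Complex.star_def]
    ring
  unfold qf
  rw [h, Complex.conj_mul', ← Complex.ofReal_pow, Complex.ofReal_re]

/-- the rank one matrix `conj (∂_j f) ∂_k f` is positive semidefinite. -/
theorem posSemidef_grad10_outer (a : ι → ℂ) :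
    (Matrix.of fun j k => conj (a j) * a k : Matrix ι ι ℂ).PosSemidef := by
  have h : (Matrix.of fun j k => conj (a j) * a k : Matrix ι ι ℂ)
      = Matrix.vecMulVec (star a) (star (star a)) := by
    ext j k
    simp [Matrix.vecMulVec_apply]
  rw [h]
  exact Matrix.posSemidef_vecMulVec_self_star (star a)

/-- convex increasing outer functions preserve `levi ≥ 0`. -/
theorem levi_comp_real_posSemidef (χ : ℝ → ℝ) (hχ : ContDiffAt ℝ 2 χ (f z))
    (hf : ContDiffAt ℝ 2 f z) (h1 : 0 ≤ deriv χ (f z)) (h2 : 0 ≤ deriv (deriv χ) (f z))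
    (h : (levi f z).PosSemidef) : (levi (fun w => χ (f w)) z).PosSemidef := by
  have e : levi (fun w => χ (f w)) z = ((deriv χ (f z) : ℝ) : ℂ) • levi f z
      + ((deriv (deriv χ) (f z) : ℝ) : ℂ) •
        (Matrix.of fun j k => conj (grad10 f z j) * grad10 f z k) := by
    ext j k
    rw [levi_comp_real χ hχ hf]
    simp
  rw [e]
  refine Matrix.PosSemidef.add (h.smul ?_) ((posSemidef_grad10_outer _).smul ?_)
  · exact_mod_cast h1
  · exact_mod_cast h2

end levi

/-! ### inner holomorphic maps -/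

section hol

variable {ι κ : Type} [Fintype ι] [DecidableEq ι] [Fintype κ] [DecidableEq κ]
variable {z : CE ι} {j k : ι}

theorem grad10_comp_hol (τ : CE ι → CE κ) (f : CE κ → ℝ) (hτ : DifferentiableAt ℂ τ z)
    (hf : DifferentiableAt ℝ f (τ z)) :
    grad10 (fun w => f (τ w)) z j = ∑ a, grad10 f (τ z) a * jac τ z a j :=
  dz_comp_hol τ (fun y => ((f y : ℝ) : ℂ)) hτ (differentiableAt_ofReal hf)

theorem grad10_comp_hol' (τ : CE ι → CE κ) (f : CE κ → ℝ) (hτ : DifferentiableAt ℂ τ z)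
    (hf : DifferentiableAt ℝ f (τ z)) :
    grad10 (fun w => f (τ w)) z = (jac τ z).transpose.mulVec (grad10 f (τ z)) := by
  funext j
  rw [grad10_comp_hol τ f hτ hf]
  simp only [Matrix.mulVec, dotProduct, Matrix.transpose_apply]
  exact Finset.sum_congr rfl fun a _ => mul_comm _ _

/-- transformation law of the Levi matrix. -/
theorem levi_comp_hol (τ : CE ι → CE κ) (f : CE κ → ℝ)
    (hτ : ∀ᶠ w in 𝓝 z, DifferentiableAt ℂ τ w) (hf : ContDiffAt ℝ 2 f (τ z)) :
    levi (fun w => f (τ w)) z = (jac τ z).conjTranspose * levi f (τ z) * jac τ z := by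
  ext j k
  have hτz : DifferentiableAt ℂ τ z := hτ.self_of_nhds
  have hfev : ∀ᶠ w in 𝓝 z, DifferentiableAt ℝ f (τ w) :=
    hτz.continuousAt.eventually (lv_eventually_differentiableAt_real hf)
  have h : (fun w => grad10 (fun y => f (τ y)) w k)
      =ᶠ[𝓝 z] fun w => ∑ a, grad10 f (τ w) a * jac τ w a k := by
    filter_upwards [hτ, hfev] with w h1 h2
    exact grad10_comp_hol τ f h1 h2
  have hA : ∀ a, DifferentiableAt ℝ (fun w => grad10 f (τ w) a) z := fun a =>
    (lv_differentiableAt_grad10 (k := a) hf).comp z (hτz.restrictScalars ℝ)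
  have hBc : ∀ a, DifferentiableAt ℂ (fun w => jac τ w a k) z := fun a =>
    differentiableAt_jac hτ a k
  have hB : ∀ a, DifferentiableAt ℝ (fun w => jac τ w a k) z := fun a =>
    (hBc a).restrictScalars ℝ
  rw [levi_eq_dzb_grad10, dzb_congr h,
    dzb_sum Finset.univ (fun a w => grad10 f (τ w) a * jac τ w a k) fun a _ => (hA a).mul (hB a)]
  have hterm : ∀ a, dzb j (fun w => grad10 f (τ w) a * jac τ w a k) z
      = (∑ b, levi f (τ z) b a * conj (jac τ z b j)) * jac τ z a k := by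
    intro a
    rw [dzb_mul (hA a) (hB a), dzb_of_differentiableAt (hBc a), mul_zero, add_zero,
      dzb_comp_hol τ (fun y => grad10 f y a) hτz (lv_differentiableAt_grad10 hf)]
    rfl
  rw [Finset.sum_congr rfl fun a _ => hterm a]
  simp only [Matrix.mul_apply, Matrix.conjTranspose_apply]
  refine Finset.sum_congr rfl fun a _ => ?_
  congr 1
  refine Finset.sum_congr rfl fun b _ => ?_
  rw [mul_comm]
  rfl

theorem levi_comp_holOn (τ : CE ι → CE κ) (f : CE κ → ℝ) {U : Set (CE ι)} (hU : IsOpen U)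
    (hτ : DifferentiableOn ℂ τ U) (hz : z ∈ U) (hf : ContDiffAt ℝ 2 f (τ z)) :
    levi (fun w => f (τ w)) z = (jac τ z).conjTranspose * levi f (τ z) * jac τ z :=
  levi_comp_hol τ f (hol_eventually_of_differentiableOn hU hτ hz) hf

theorem lv_qf_conjTranspose_mul_mul (A : Matrix κ κ ℂ) (T : Matrix κ ι ℂ) (v : ι → ℂ) :
    qf (T.conjTranspose * A * T) v = qf A (T.mulVec v) := by
  unfold qf
  congr 1
  rw [← Matrix.mulVec_mulVec, ← Matrix.mulVec_mulVec, Matrix.dotProduct_mulVec,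
    Matrix.star_mulVec, Matrix.vecMul_conjTranspose]

theorem qf_levi_comp_hol (τ : CE ι → CE κ) (f : CE κ → ℝ)
    (hτ : ∀ᶠ w in 𝓝 z, DifferentiableAt ℂ τ w) (hf : ContDiffAt ℝ 2 f (τ z)) (v : ι → ℂ) :
    qf (levi (fun w => f (τ w)) z) v = qf (levi f (τ z)) ((jac τ z).mulVec v) := by
  rw [levi_comp_hol τ f hτ hf, lv_qf_conjTranspose_mul_mul]

theorem levi_comp_hol_posSemidef (τ : CE ι → CE κ) (f : CE κ → ℝ)
    (hτ : ∀ᶠ w in 𝓝 z, DifferentiableAt ℂ τ w) (hf : ContDiffAt ℝ 2 f (τ z))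
    (h : (levi f (τ z)).PosSemidef) : (levi (fun w => f (τ w)) z).PosSemidef := by
  rw [levi_comp_hol τ f hτ hf]
  exact h.conjTranspose_mul_mul_same _

/-- translations. -/
theorem levi_comp_add_const (f : CE ι → ℝ) (a : CE ι) :
    levi (fun w => f (w + a)) z = levi f (z + a) := by
  ext j k
  have h : dz k (fun y => ((f (y + a) : ℝ) : ℂ))
      = fun w => dz k (fun y => ((f y : ℝ) : ℂ)) (w + a) := by
    funext w
    exact dz_comp_add_const (f := fun y => ((f y : ℝ) : ℂ)) a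
  rw [levi_apply, h, dzb_comp_add_const]
  rfl

theorem grad10_comp_add_const (f : CE ι → ℝ) (a : CE ι) :
    grad10 (fun w => f (w + a)) z = grad10 f (z + a) := by
  funext k
  exact dz_comp_add_const (f := fun y => ((f y : ℝ) : ℂ)) a

/-- hypothesis free version of `dzb_const_mul`. -/
theorem lv_dzb_const_mul (c : ℂ) (G : CE ι → ℂ) :
    dzb j (fun w => c * G w) z = c * dzb j G z := by
  have h : fderiv ℝ (fun w => c * G w) z = c • fderiv ℝ G z := by
    have := congrFun (fderiv_const_smul_field (𝕜 := ℝ) (f := G) c) z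
    exact this
  simp only [dzb_def, h, _root_.smul_apply, smul_eq_mul]
  ring

/-- real dilations. -/
theorem levi_comp_smul (f : CE ι → ℝ) (t : ℝ) :
    levi (fun w => f (t • w)) z = ((t ^ 2 : ℝ) : ℂ) • levi f (t • z) := by
  ext j k
  have h : dz k (fun y => ((f (t • y) : ℝ) : ℂ))
      = fun w => (t : ℂ) * dz k (fun y => ((f y : ℝ) : ℂ)) (t • w) := by
    funext w
    exact dz_comp_smul (f := fun y => ((f y : ℝ) : ℂ)) t
  rw [levi_apply, h, lv_dzb_const_mul,
    dzb_comp_smul (f := dz k (fun y => ((f y : ℝ) : ℂ))) t]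
  simp only [Matrix.smul_apply, smul_eq_mul, levi_apply]
  push_cast
  ring

theorem grad10_comp_smul (f : CE ι → ℝ) (t : ℝ) :
    grad10 (fun w => f (t • w)) z = (t : ℂ) • grad10 f (t • z) := by
  funext k
  exact dz_comp_smul (f := fun y => ((f y : ℝ) : ℂ)) t

end hol

/-! ### the Levi form as an average of real second derivatives -/

section qf

variable {ι : Type} [Fintype ι] [DecidableEq ι]
variable {f : CE ι → ℝ} {z : CE ι}

/-- `vᴴ (levi f z) v` is real. -/
theorem levi_quadratic_im (hf : ContDiffAt ℝ 2 f z) (v : ι → ℂ) :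
    (star v ⬝ᵥ (levi f z).mulVec v).im = 0 :=
  (levi_isHermitian hf).im_star_dotProduct_mulVec_self v

/-- the second real derivative in Wirtinger form. -/
theorem lv_snd {F : CE ι → ℂ} (hF : ContDiffAt ℝ 2 F z) (v : CE ι) :
    fderiv ℝ (fun w => fderiv ℝ F w v) z v = ∑ j, ∑ k,
      (dz j (dz k F) z * v k * v j + dz j (dzb k F) z * conj (v k) * v j
        + dzb j (dz k F) z * v k * conj (v j) + dzb j (dzb k F) z * conj (v k) * conj (v j)) := by
  have h1 : (fun w => fderiv ℝ F w v)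
      = fun w => ∑ k, (dz k F w * v k + dzb k F w * conj (v k)) := by
    funext w; exact fderiv_eq_sum v
  have hd1 : ∀ k, DifferentiableAt ℝ (fun w => dz k F w * v k) z := fun k =>
    (lv_differentiableAt_dz hF).mul_const _
  have hd2 : ∀ k, DifferentiableAt ℝ (fun w => dzb k F w * conj (v k)) z := fun k =>
    (lv_differentiableAt_dzb hF).mul_const _
  rw [h1, fderiv_eq_sum]
  refine Finset.sum_congr rfl fun j _ => ?_
  rw [dz_sum Finset.univ (fun k w => dz k F w * v k + dzb k F w * conj (v k))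
      fun k _ => (hd1 k).add (hd2 k),
    dzb_sum Finset.univ (fun k w => dz k F w * v k + dzb k F w * conj (v k))
      fun k _ => (hd1 k).add (hd2 k), Finset.sum_mul, Finset.sum_mul, ← Finset.sum_add_distrib]
  refine Finset.sum_congr rfl fun k _ => ?_
  rw [dz_add (hd1 k) (hd2 k), dzb_add (hd1 k) (hd2 k),
    dz_mul_const _ (lv_differentiableAt_dz hF), dz_mul_const _ (lv_differentiableAt_dzb hF),
    dzb_mul_const _ (lv_differentiableAt_dz hF), dzb_mul_const _ (lv_differentiableAt_dzb hF)]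
  ring

/-- complex form of `qf_levi`. -/
theorem lv_snd_add {F : CE ι → ℂ} (hF : ContDiffAt ℝ 2 F z) (v : CE ι) :
    fderiv ℝ (fun w => fderiv ℝ F w v) z v
      + fderiv ℝ (fun w => fderiv ℝ F w (Complex.I • v)) z (Complex.I • v)
      = 4 * ∑ j, ∑ k, conj (v j) * (dzb j (dz k F) z * v k) := by
  rw [lv_snd hF v, lv_snd hF (Complex.I • v), ← Finset.sum_add_distrib]
  have h1 : ∀ j k, dz j (dzb k F) z = dzb k (dz j F) z := fun j k => dz_dzb_comm hF
  have h2 : ∑ j, ∑ k, conj (v j) * (dzb j (dz k F) z * v k)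
      = ∑ j, ∑ k, conj (v k) * (dzb k (dz j F) z * v j) := Finset.sum_comm
  have h3 : (4 : ℂ) * ∑ j, ∑ k, conj (v j) * (dzb j (dz k F) z * v k)
      = ∑ j, ∑ k, (2 * (conj (v j) * (dzb j (dz k F) z * v k))
        + 2 * (conj (v k) * (dzb k (dz j F) z * v j))) := by
    have h4 : ∑ j, ∑ k, (2 * (conj (v j) * (dzb j (dz k F) z * v k))
        + 2 * (conj (v k) * (dzb k (dz j F) z * v j)))
        = 2 * ∑ j, ∑ k, conj (v j) * (dzb j (dz k F) z * v k)
          + 2 * ∑ j, ∑ k, conj (v k) * (dzb k (dz j F) z * v j) := by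
      simp only [Finset.sum_add_distrib, Finset.mul_sum]
    rw [h4, ← h2]; ring
  rw [h3]
  refine Finset.sum_congr rfl fun j _ => ?_
  rw [← Finset.sum_add_distrib]
  refine Finset.sum_congr rfl fun k _ => ?_
  simp only [PiLp.smul_apply, smul_eq_mul, map_mul, Complex.conj_I, h1]
  linear_combination (dz j (dz k F) z * v k * v j
    + dzb j (dzb k F) z * conj (v k) * conj (v j)
    - dzb k (dz j F) z * conj (v k) * v j - dzb j (dz k F) z * v k * conj (v j))
      * Complex.I_sq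

/-- real second derivatives of the coercion. -/
theorem lv_snd_ofReal (hf : ContDiffAt ℝ 2 f z) (v : CE ι) :
    fderiv ℝ (fun w => fderiv ℝ (fun y => ((f y : ℝ) : ℂ)) w v) z v
      = ((fderiv ℝ (fun w => fderiv ℝ f w v) z v : ℝ) : ℂ) := by
  have h1 : (fun w => fderiv ℝ (fun y => ((f y : ℝ) : ℂ)) w v)
      =ᶠ[𝓝 z] fun w => ((fderiv ℝ f w v : ℝ) : ℂ) := by
    filter_upwards [lv_eventually_differentiableAt_real hf] with w hw
    exact fderiv_ofReal_apply hw v
  have h2 : DifferentiableAt ℝ (fun w => fderiv ℝ f w v) z := by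
    have h3 : DifferentiableAt ℝ (fderiv ℝ f) z :=
      (hf.fderiv_right (m := 1) (by norm_num)).differentiableAt (by norm_num)
    exact h3.clm_apply (differentiableAt_const v)
  rw [h1.fderiv_eq]
  exact fderiv_ofReal_apply (u := fun w => fderiv ℝ f w v) h2 v

/-- `L(v,v) = ¼ (D²f(v,v) + D²f(iv,iv))`. -/
theorem qf_levi (hf : ContDiffAt ℝ 2 f z) (v : CE ι) :
    qf (levi f z) (fun j => v j) =
      (1 / 4) * (fderiv ℝ (fun w => fderiv ℝ f w v) z v
        + fderiv ℝ (fun w => fderiv ℝ f w (Complex.I • v)) z (Complex.I • v)) := by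
  have h := lv_snd_add (contDiffAt_ofReal hf) v
  rw [lv_snd_ofReal hf, lv_snd_ofReal hf] at h
  have h2 : star (fun j => v j) ⬝ᵥ (levi f z).mulVec (fun j => v j)
      = ∑ j, ∑ k, conj (v j) * (dzb j (dz k (fun y => ((f y : ℝ) : ℂ))) z * v k) := by
    simp only [dotProduct, Matrix.mulVec, Pi.star_apply, Finset.mul_sum]
    rfl
  unfold qf
  rw [h2]
  set S := ∑ j, ∑ k, conj (v j) * (dzb j (dz k (fun y => ((f y : ℝ) : ℂ))) z * v k) with hS
  have h4 : ((4 : ℝ) : ℂ) * S = 4 * S := by norm_num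
  rw [← h4] at h
  have h3 := congrArg Complex.re h
  rw [Complex.re_ofReal_mul, Complex.add_re, Complex.ofReal_re, Complex.ofReal_re] at h3
  linarith

/-- second derivative along a real line, general normed space. -/
theorem lv_snd_line {X : Type} [NormedAddCommGroup X] [NormedSpace ℝ X] {g : X → ℝ} {x : X}
    (hg : ContDiffAt ℝ 2 g x) (a : X) :
    fderiv ℝ (fderiv ℝ g) x a a = deriv (deriv fun s : ℝ => g (x + s • a)) 0 := by
  have hline : ∀ s : ℝ, HasDerivAt (fun s : ℝ => x + s • a) a s := fun s => by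
    simpa using ((hasDerivAt_id s).smul_const a).const_add x
  have hc : ContinuousAt (fun s : ℝ => x + s • a) 0 := (hline 0).continuousAt
  have hev : ∀ᶠ y in 𝓝 (x + (0 : ℝ) • a), DifferentiableAt ℝ g y := by
    rw [zero_smul, add_zero]
    exact (hg.eventually (by simp)).mono fun _ h => h.differentiableAt (by norm_num)
  have h1 : deriv (fun s : ℝ => g (x + s • a)) =ᶠ[𝓝 0] fun s => fderiv ℝ g (x + s • a) a := by
    filter_upwards [hc.eventually hev] with s hs
    exact (hs.hasFDerivAt.comp_hasDerivAt s (hline s)).deriv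
  have h3 : DifferentiableAt ℝ (fderiv ℝ g) (x + (0 : ℝ) • a) := by
    rw [zero_smul, add_zero]
    exact (hg.fderiv_right (m := 1) (by norm_num)).differentiableAt (by norm_num)
  have h4 : HasDerivAt (fun s : ℝ => fderiv ℝ g (x + s • a))
      (fderiv ℝ (fderiv ℝ g) (x + (0 : ℝ) • a) a) 0 :=
    h3.hasFDerivAt.comp_hasDerivAt 0 (hline 0)
  have h5 : HasDerivAt (fun s : ℝ => fderiv ℝ g (x + s • a) a)
      (fderiv ℝ (fderiv ℝ g) (x + (0 : ℝ) • a) a a) 0 := by
    have := h4.clm_apply (hasDerivAt_const (0 : ℝ) a)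
    simpa using this
  rw [h1.deriv_eq, h5.deriv, zero_smul, add_zero]

theorem lv_fderiv_apply_eq {X : Type} [NormedAddCommGroup X] [NormedSpace ℝ X] {g : X → ℝ} {x : X}
    (hg : ContDiffAt ℝ 2 g x) (a b : X) :
    fderiv ℝ (fun w => fderiv ℝ g w a) x b = fderiv ℝ (fderiv ℝ g) x b a := by
  have h3 : DifferentiableAt ℝ (fderiv ℝ g) x :=
    (hg.fderiv_right (m := 1) (by norm_num)).differentiableAt (by norm_num)
  have h4 := h3.hasFDerivAt.clm_apply (hasFDerivAt_const a x)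
  rw [h4.fderiv]
  simp

/-- second derivatives along real lines. -/
theorem fderiv_fderiv_eq_deriv_deriv (hf : ContDiffAt ℝ 2 f z) (v : CE ι) :
    fderiv ℝ (fun w => fderiv ℝ f w v) z v = deriv (deriv fun s : ℝ => f (z + s • v)) 0 := by
  rw [lv_fderiv_apply_eq hf, lv_snd_line hf]

theorem qf_levi_line (hf : ContDiffAt ℝ 2 f z) (v : CE ι) :
    qf (levi f z) (fun j => v j) =
      (1 / 4) * (deriv (deriv fun s : ℝ => f (z + s • v)) 0
        + deriv (deriv fun s : ℝ => f (z + s • (Complex.I • v))) 0) := by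
  rw [qf_levi hf, fderiv_fderiv_eq_deriv_deriv hf, fderiv_fderiv_eq_deriv_deriv hf]

/-- restriction to a complex line: a quarter of the Laplacian. -/
theorem qf_levi_eq_laplacian (hf : ContDiffAt ℝ 2 f z) (v : CE ι) :
    qf (levi f z) (fun j => v j) =
      (1 / 4) * Laplacian.laplacian (fun ζ : ℂ => f (z + ζ • v)) 0 := by
  have hA : ContDiff ℝ 2 (fun ζ : ℂ => z + ζ • v) :=
    contDiff_const.add (contDiff_id.smul contDiff_const)
  have hg : ContDiffAt ℝ 2 (fun ζ : ℂ => f (z + ζ • v)) 0 := by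
    have hf' : ContDiffAt ℝ 2 f (z + (0 : ℂ) • v) := by simpa using hf
    exact hf'.comp (0 : ℂ) hA.contDiffAt
  rw [qf_levi_line hf, InnerProductSpace.laplacian_eq_iteratedFDeriv_complexPlane]
  simp only [iteratedFDeriv_two_apply, Matrix.cons_val_zero, Matrix.cons_val_one]
  rw [lv_snd_line hg, lv_snd_line hg]
  simp only [zero_add, smul_assoc, one_smul]

theorem lv_posSemidef_iff_qf {A : Matrix ι ι ℂ} (hA : A.IsHermitian) :
    A.PosSemidef ↔ ∀ v : ι → ℂ, 0 ≤ qf A v := by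
  rw [Matrix.posSemidef_iff_dotProduct_mulVec]
  constructor
  · rintro ⟨-, h⟩ v
    exact (Complex.le_def.1 (h v)).1
  · intro h
    refine ⟨hA, fun v => ?_⟩
    rw [Complex.le_def]
    exact ⟨h v, (hA.im_star_dotProduct_mulVec_self v).symm⟩

theorem lv_qf_neg (A : Matrix ι ι ℂ) (v : ι → ℂ) : qf (-A) v = - qf A v := by
  unfold qf
  rw [Matrix.neg_mulVec, dotProduct_neg, Complex.neg_re]

/-- for Hermitian matrices positivity is positivity of `qf`; here for `levi`. -/
theorem levi_posSemidef_iff (hf : ContDiffAt ℝ 2 f z) :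
    (levi f z).PosSemidef ↔ ∀ v : ι → ℂ, 0 ≤ qf (levi f z) v :=
  lv_posSemidef_iff_qf (levi_isHermitian hf)

theorem neg_levi_posSemidef_iff (hf : ContDiffAt ℝ 2 f z) :
    (- levi f z).PosSemidef ↔ ∀ v : ι → ℂ, qf (levi f z) v ≤ 0 := by
  rw [lv_posSemidef_iff_qf (levi_isHermitian hf).neg]
  refine forall_congr' fun v => ?_
  rw [lv_qf_neg, neg_nonneg]

end qf

/-! ### examples -/

section examples

variable {ι : Type} [Fintype ι] [DecidableEq ι]
variable {z : CE ι} {j k : ι}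

theorem lv_two_le_infty : (2 : WithTop ℕ∞) ≤ ((⊤ : ℕ∞) : WithTop ℕ∞) := by
  have : ((2 : ℕ∞) : WithTop ℕ∞) ≤ ((⊤ : ℕ∞) : WithTop ℕ∞) := by exact_mod_cast le_top
  exact this

theorem lv_differentiableAt_conj {G : CE ι → ℂ} (h : DifferentiableAt ℝ G z) :
    DifferentiableAt ℝ (fun w => conj (G w)) z :=
  (Complex.conjCLE : ℂ →L[ℝ] ℂ).differentiableAt.comp z h

theorem lv_normSq_eq (F : CE ι → ℂ) :
    (fun w => ((‖F w‖ ^ 2 : ℝ) : ℂ)) = fun w => conj (F w) * F w := by
  funext w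
  rw [Complex.conj_mul']
  push_cast
  rfl

theorem grad10_normSq_hol (F : CE ι → ℂ) (hF : DifferentiableAt ℂ F z) :
    grad10 (fun w => ‖F w‖ ^ 2) z k = conj (F z) * dz k F z := by
  have hr : DifferentiableAt ℝ F z := hF.restrictScalars ℝ
  rw [grad10_apply, lv_normSq_eq, dz_mul (lv_differentiableAt_conj hr) hr, dz_conj,
    dzb_of_differentiableAt hF]
  simp

theorem lv_contDiffAt_normSq (F : CE ι → ℂ) (hF : ∀ᶠ w in 𝓝 z, DifferentiableAt ℂ F w) :
    ContDiffAt ℝ 2 (fun w => ‖F w‖ ^ 2) z :=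
  ((hol_contDiffAt_real hF).of_le lv_two_le_infty).norm_sq ℂ

theorem levi_normSq_hol (F : CE ι → ℂ) (hF : ∀ᶠ w in 𝓝 z, DifferentiableAt ℂ F w) :
    levi (fun w => ‖F w‖ ^ 2) z j k = conj (dz j F z) * dz k F z := by
  have h : (fun w => grad10 (fun y => ‖F y‖ ^ 2) w k) =ᶠ[𝓝 z] fun w => conj (F w) * dz k F w := by
    filter_upwards [hF] with w hw
    exact grad10_normSq_hol F hw
  have hz : DifferentiableAt ℂ F z := hF.self_of_nhds
  have hr : DifferentiableAt ℝ F z := hz.restrictScalars ℝ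
  have hd : DifferentiableAt ℂ (dz k F) z := (eventually_differentiableAt_dz hF k).self_of_nhds
  rw [levi_eq_dzb_grad10, dzb_congr h,
    dzb_mul (lv_differentiableAt_conj hr) (hd.restrictScalars ℝ), dzb_conj,
    dzb_of_differentiableAt hd]
  simp

theorem levi_normSq_hol_posSemidef (F : CE ι → ℂ) (hF : ∀ᶠ w in 𝓝 z, DifferentiableAt ℂ F w) :
    (levi (fun w => ‖F w‖ ^ 2) z).PosSemidef := by
  have h : levi (fun w => ‖F w‖ ^ 2) z = Matrix.of fun j k => conj (dz j F z) * dz k F z := by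
    ext j k
    exact levi_normSq_hol F hF
  rw [h]
  exact posSemidef_grad10_outer fun j => dz j F z

theorem levi_sum_normSq_hol {α : Type} (s : Finset α) (F : α → CE ι → ℂ)
    (hF : ∀ a ∈ s, ∀ᶠ w in 𝓝 z, DifferentiableAt ℂ (F a) w) :
    levi (fun w => ∑ a ∈ s, ‖F a w‖ ^ 2) z j k = ∑ a ∈ s, conj (dz j (F a) z) * dz k (F a) z := by
  rw [levi_sum s (fun a w => ‖F a w‖ ^ 2) fun a ha => lv_contDiffAt_normSq (F a) (hF a ha),
    Matrix.sum_apply]
  exact Finset.sum_congr rfl fun a ha => levi_normSq_hol (F a) (hF a ha)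

theorem levi_sum_normSq_hol_posSemidef {α : Type} (s : Finset α) (F : α → CE ι → ℂ)
    (hF : ∀ a ∈ s, ∀ᶠ w in 𝓝 z, DifferentiableAt ℂ (F a) w) :
    (levi (fun w => ∑ a ∈ s, ‖F a w‖ ^ 2) z).PosSemidef := by
  rw [levi_sum s (fun a w => ‖F a w‖ ^ 2) fun a ha => lv_contDiffAt_normSq (F a) (hF a ha)]
  exact Matrix.posSemidef_sum s fun a ha => levi_normSq_hol_posSemidef (F a) (hF a ha)

theorem lv_qf_add (A B : Matrix ι ι ℂ) (v : ι → ℂ) : qf (A + B) v = qf A v + qf B v := by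
  unfold qf
  rw [Matrix.add_mulVec, dotProduct_add, Complex.add_re]

theorem lv_qf_sub (A B : Matrix ι ι ℂ) (v : ι → ℂ) : qf (A - B) v = qf A v - qf B v := by
  unfold qf
  rw [Matrix.sub_mulVec, dotProduct_sub, Complex.sub_re]

theorem lv_qf_smul (c : ℝ) (A : Matrix ι ι ℂ) (v : ι → ℂ) :
    qf ((c : ℂ) • A) v = c * qf A v := by
  unfold qf
  rw [Matrix.smul_mulVec, dotProduct_smul, smul_eq_mul, Complex.re_ofReal_mul]

theorem lv_qf_zero (v : ι → ℂ) : qf (0 : Matrix ι ι ℂ) v = 0 := by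
  unfold qf
  simp

theorem lv_qf_sum {α : Type} (s : Finset α) (A : α → Matrix ι ι ℂ) (v : ι → ℂ) :
    qf (∑ a ∈ s, A a) v = ∑ a ∈ s, qf (A a) v := by
  classical
  induction s using Finset.induction_on with
  | empty => simp [lv_qf_zero]
  | insert a s ha ih => rw [Finset.sum_insert ha, Finset.sum_insert ha, lv_qf_add, ih]

/-- Cauchy-Schwarz for finite complex sums. -/
theorem lv_cauchy_schwarz {α : Type} (s : Finset α) (a b : α → ℂ) :
    ‖∑ i ∈ s, conj (a i) * b i‖ ^ 2 ≤ (∑ i ∈ s, ‖a i‖ ^ 2) * ∑ i ∈ s, ‖b i‖ ^ 2 := by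
  have h1 : ‖∑ i ∈ s, conj (a i) * b i‖ ≤ ∑ i ∈ s, ‖a i‖ * ‖b i‖ := by
    refine (norm_sum_le _ _).trans (le_of_eq ?_)
    refine Finset.sum_congr rfl fun i _ => ?_
    rw [norm_mul, RCLike.norm_conj]
  calc ‖∑ i ∈ s, conj (a i) * b i‖ ^ 2 ≤ (∑ i ∈ s, ‖a i‖ * ‖b i‖) ^ 2 :=
        pow_le_pow_left₀ (norm_nonneg _) h1 2
    _ ≤ (∑ i ∈ s, ‖a i‖ ^ 2) * ∑ i ∈ s, ‖b i‖ ^ 2 := Finset.sum_mul_sq_le_sq_mul_sq _ _ _

/-- `log ∑ |F_a|²` is plurisubharmonic (Cauchy-Schwarz). -/
theorem levi_log_sum_normSq_hol_posSemidef {α : Type} (s : Finset α) (F : α → CE ι → ℂ)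
    (hF : ∀ a ∈ s, ∀ᶠ w in 𝓝 z, DifferentiableAt ℂ (F a) w) (h0 : 0 < ∑ a ∈ s, ‖F a z‖ ^ 2) :
    (levi (fun w => Real.log (∑ a ∈ s, ‖F a w‖ ^ 2)) z).PosSemidef := by
  set S : CE ι → ℝ := fun w => ∑ a ∈ s, ‖F a w‖ ^ 2 with hS
  have hSc : ContDiffAt ℝ 2 S z :=
    ContDiffAt.sum fun a ha => lv_contDiffAt_normSq (F a) (hF a ha)
  have hlog : ContDiffAt ℝ 2 (fun w => Real.log (S w)) z := hSc.log h0.ne'
  rw [levi_posSemidef_iff hlog]
  intro v
  set G : α → ℂ := fun a => ∑ k, dz k (F a) z * v k with hG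
  have hgrad : ∀ k, grad10 S z k = ∑ a ∈ s, conj (F a z) * dz k (F a) z := by
    intro k
    rw [hS, grad10_sum s (fun a w => ‖F a w‖ ^ 2) fun a ha =>
      (lv_contDiffAt_normSq (F a) (hF a ha)).differentiableAt (by norm_num), Finset.sum_apply]
    exact Finset.sum_congr rfl fun a ha => grad10_normSq_hol (F a) (hF a ha).self_of_nhds
  have hT : ∑ k, grad10 S z k * v k = ∑ a ∈ s, conj (F a z) * G a := by
    simp only [hgrad, hG, Finset.sum_mul, Finset.mul_sum]
    rw [Finset.sum_comm]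
    exact Finset.sum_congr rfl fun a _ => Finset.sum_congr rfl fun k _ => by ring
  have hmat : levi (fun w => Real.log (S w)) z
      = (((S z)⁻¹ : ℝ) : ℂ) • (∑ a ∈ s, Matrix.of fun j k => conj (dz j (F a) z) * dz k (F a) z)
        - ((((S z) ^ 2)⁻¹ : ℝ) : ℂ) • (Matrix.of fun j k => conj (grad10 S z j) * grad10 S z k) := by
    ext j k
    rw [levi_log hSc h0.ne', hS, levi_sum_normSq_hol s F hF]
    simp only [Matrix.sub_apply, Matrix.smul_apply, Matrix.sum_apply, Matrix.of_apply, smul_eq_mul]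
    push_cast
    ring
  rw [hmat, lv_qf_sub, lv_qf_smul, lv_qf_smul, lv_qf_sum, qf_grad10_outer, hT]
  simp only [qf_grad10_outer]
  have hcs := lv_cauchy_schwarz s (fun a => F a z) G
  have hSz : S z = ∑ a ∈ s, ‖F a z‖ ^ 2 := rfl
  rw [← hSz] at hcs
  have hpos : 0 < S z := h0
  have e : (S z)⁻¹ * ∑ a ∈ s, ‖G a‖ ^ 2 - ((S z) ^ 2)⁻¹ * ‖∑ a ∈ s, conj (F a z) * G a‖ ^ 2
      = ((S z) ^ 2)⁻¹ * (S z * ∑ a ∈ s, ‖G a‖ ^ 2 - ‖∑ a ∈ s, conj (F a z) * G a‖ ^ 2) := by
    field_simp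
  rw [e]
  exact mul_nonneg (by positivity) (sub_nonneg.2 hcs)

theorem levi_log_normSq_hol (F : CE ι → ℂ) (hF : ∀ᶠ w in 𝓝 z, DifferentiableAt ℂ F w)
    (h0 : F z ≠ 0) : levi (fun w => Real.log (‖F w‖ ^ 2)) z = 0 := by
  ext j k
  have hn : ‖F z‖ ^ 2 ≠ 0 := pow_ne_zero 2 (norm_ne_zero_iff.2 h0)
  rw [levi_log (lv_contDiffAt_normSq F hF) hn, levi_normSq_hol F hF,
    grad10_normSq_hol F hF.self_of_nhds, grad10_normSq_hol F hF.self_of_nhds]
  have e : (((‖F z‖ ^ 2 : ℝ)) : ℂ) = conj (F z) * F z := congrFun (lv_normSq_eq F) z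
  have hc : conj (F z) ≠ 0 := (map_ne_zero _).2 h0
  rw [e]
  simp only [map_mul, Complex.conj_conj, Matrix.zero_apply]
  field_simp
  ring

theorem levi_log_norm_hol (F : CE ι → ℂ) (hF : ∀ᶠ w in 𝓝 z, DifferentiableAt ℂ F w)
    (h0 : F z ≠ 0) : levi (fun w => Real.log ‖F w‖) z = 0 := by
  have h : (fun w => Real.log ‖F w‖) = fun w => (1 / 2 : ℝ) * Real.log (‖F w‖ ^ 2) := by
    funext w
    rw [Real.log_pow]
    push_cast
    ring
  have hn : ‖F z‖ ^ 2 ≠ 0 := pow_ne_zero 2 (norm_ne_zero_iff.2 h0)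
  rw [h, levi_const_mul _ ((lv_contDiffAt_normSq F hF).log hn), levi_log_normSq_hol F hF h0,
    smul_zero]

theorem grad10_re_hol (F : CE ι → ℂ) (hF : DifferentiableAt ℂ F z) :
    grad10 (fun w => (F w).re) z k = (1 / 2 : ℂ) * dz k F z := by
  have h : (fun w => (((F w).re : ℝ) : ℂ)) = fun w => (1 / 2 : ℂ) * (F w + conj (F w)) := by
    funext w
    rw [Complex.re_eq_add_conj]
    ring
  have hr : DifferentiableAt ℝ F z := hF.restrictScalars ℝ
  have hs : DifferentiableAt ℝ (fun w => F w + conj (F w)) z :=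
    hr.add (lv_differentiableAt_conj hr)
  rw [grad10_apply, h, dz_const_mul _ hs,
    dz_add hr (lv_differentiableAt_conj hr), dz_conj, dzb_of_differentiableAt hF]
  simp

theorem levi_re_hol (F : CE ι → ℂ) (hF : ∀ᶠ w in 𝓝 z, DifferentiableAt ℂ F w) :
    levi (fun w => (F w).re) z = 0 := by
  ext j k
  have h : (fun w => grad10 (fun y => (F y).re) w k) =ᶠ[𝓝 z] fun w => (1 / 2 : ℂ) * dz k F w := by
    filter_upwards [hF] with w hw
    exact grad10_re_hol F hw
  have hd : DifferentiableAt ℂ (dz k F) z := (eventually_differentiableAt_dz hF k).self_of_nhds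
  rw [levi_eq_dzb_grad10, dzb_congr h, dzb_const_mul _ (hd.restrictScalars ℝ),
    dzb_of_differentiableAt hd]
  simp

theorem levi_im_hol (F : CE ι → ℂ) (hF : ∀ᶠ w in 𝓝 z, DifferentiableAt ℂ F w) :
    levi (fun w => (F w).im) z = 0 := by
  have h : (fun w => (F w).im) = fun w => (-Complex.I * F w).re := by
    funext w
    simp
  rw [h]
  exact levi_re_hol (fun w => -Complex.I * F w) (hF.mono fun w hw => hw.const_mul _)

theorem levi_normSq : levi (fun w : CE ι => ‖w‖ ^ 2) z = 1 := by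
  ext j k
  have h : (fun w : CE ι => ‖w‖ ^ 2) = fun w => ∑ a ∈ Finset.univ, ‖(fun y : CE ι => y a) w‖ ^ 2 := by
    funext w
    exact EuclideanSpace.norm_sq_eq w
  rw [h, levi_sum_normSq_hol Finset.univ (fun a (y : CE ι) => y a)
    fun a _ => Filter.Eventually.of_forall fun w => differentiableAt_coord_complex]
  simp only [dz_coord]
  rw [Matrix.one_apply]
  by_cases hjk : j = k
  · subst hjk
    simp
  · simp only [hjk, if_false]
    refine Finset.sum_eq_zero fun a _ => ?_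
    by_cases hja : j = a
    · subst hja
      simp [Ne.symm hjk]
    · simp [hja]

theorem levi_normSq_sub (a : CE ι) : levi (fun w : CE ι => ‖w - a‖ ^ 2) z = 1 := by
  have h := levi_comp_add_const (z := z) (fun w : CE ι => ‖w‖ ^ 2) (-a)
  simp only [← sub_eq_add_neg] at h
  rw [h, levi_normSq]

theorem contDiff_normSq_CE : ContDiff ℝ ∞ (fun w : CE ι => ‖w‖ ^ 2) := contDiff_norm_sq ℂ

theorem lv_dot_eq (A : Matrix ι ι ℂ) (v : ι → ℂ) :
    star v ⬝ᵥ A.mulVec v = ∑ j, ∑ k, conj (v j) * (A j k * v k) := by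
  simp only [dotProduct, Matrix.mulVec, Pi.star_apply, Finset.mul_sum]
  rfl

theorem lv_contDiff_conj_coord (j : ι) : ContDiff ℝ ∞ (fun w : CE ι => conj (w j)) :=
  (Complex.conjCLE : ℂ →L[ℝ] ℂ).contDiff.comp contDiff_coord

theorem contDiff_qf (A : Matrix ι ι ℂ) : ContDiff ℝ ∞ (fun w : CE ι => qf A (fun j => w j)) := by
  have h : (fun w : CE ι => qf A (fun j => w j))
      = fun w : CE ι => Complex.reCLM (∑ j, ∑ k, conj (w j) * (A j k * w k)) := by
    funext w
    unfold qf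
    rw [lv_dot_eq]
    rfl
  rw [h]
  refine Complex.reCLM.contDiff.comp ?_
  refine ContDiff.sum fun j _ => ContDiff.sum fun k _ => ?_
  exact (lv_contDiff_conj_coord j).mul (contDiff_const.mul contDiff_coord)

/-- Hermitian quadratic forms: `levi (w ↦ wᴴ A w) = A`. -/
theorem levi_qf (A : Matrix ι ι ℂ) (hA : A.IsHermitian) :
    levi (fun w : CE ι => qf A (fun j => w j)) z = A := by
  ext j' k'
  have hQ : (fun w : CE ι => ((qf A (fun j => w j) : ℝ) : ℂ))
      = fun w : CE ι => ∑ j, ∑ k, conj (w j) * (A j k * w k) := by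
    funext w
    rw [← lv_dot_eq]
    apply Complex.ext
    · simp [qf]
    · rw [Complex.ofReal_im]
      exact (hA.im_star_dotProduct_mulVec_self _).symm
  have hc : ∀ (j : ι) (w : CE ι), DifferentiableAt ℝ (fun y : CE ι => conj (y j)) w := fun j w =>
    (lv_contDiff_conj_coord j).differentiable (by simp) w
  have hk : ∀ (j k : ι) (w : CE ι), DifferentiableAt ℝ (fun y : CE ι => A j k * y k) w :=
    fun j k w => differentiableAt_coord.const_mul _
  have h1 : dz k' (fun w : CE ι => ∑ j, ∑ k, conj (w j) * (A j k * w k))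
      = fun w => ∑ j, conj (w j) * A j k' := by
    funext w
    rw [dz_sum Finset.univ (fun j (w : CE ι) => ∑ k, conj (w j) * (A j k * w k)) fun j _ =>
      DifferentiableAt.fun_sum fun k _ => (hc j w).mul (hk j k w)]
    refine Finset.sum_congr rfl fun j _ => ?_
    rw [dz_sum Finset.univ (fun k (w : CE ι) => conj (w j) * (A j k * w k)) fun k _ =>
      (hc j w).mul (hk j k w)]
    rw [Finset.sum_eq_single k']
    · rw [dz_mul (hc j w) (hk j k' w), dz_conj_coord, dz_const_mul _ differentiableAt_coord,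
        dz_coord]
      simp
    · intro k _ hkk
      rw [dz_mul (hc j w) (hk j k w), dz_conj_coord, dz_const_mul _ differentiableAt_coord,
        dz_coord]
      simp [Ne.symm hkk]
    · intro h; exact absurd (Finset.mem_univ _) h
  rw [levi_apply, hQ, h1,
    dzb_sum Finset.univ (fun j (w : CE ι) => conj (w j) * A j k') fun j _ =>
      (hc j z).mul_const _]
  rw [Finset.sum_eq_single j']
  · rw [dzb_mul_const _ (hc j' z), dzb_conj_coord]
    simp
  · intro j _ hjj
    rw [dzb_mul_const _ (hc j z), dzb_conj_coord]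
    simp [Ne.symm hjj]
  · intro h; exact absurd (Finset.mem_univ _) h

end examples

/-! ### extrema -/

section extrema

variable {ι : Type} [Fintype ι] [DecidableEq ι]
variable {f : CE ι → ℝ} {z : CE ι}

/-- hypothesis free version of `fderiv_ofReal_apply`. -/
theorem lv_fderiv_ofReal (f : CE ι → ℝ) (z v : CE ι) :
    fderiv ℝ (fun w => ((f w : ℝ) : ℂ)) z v = ((fderiv ℝ f z v : ℝ) : ℂ) := by
  by_cases h : DifferentiableAt ℝ f z
  · exact fderiv_ofReal_apply h v
  · have h' : ¬ DifferentiableAt ℝ (fun w => ((f w : ℝ) : ℂ)) z := by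
      intro hF
      apply h
      have := Complex.reCLM.differentiableAt.comp z hF
      exact this
    rw [fderiv_zero_of_not_differentiableAt h, fderiv_zero_of_not_differentiableAt h']
    simp

theorem lv_grad10_eq_zero_of_fderiv (h : fderiv ℝ f z = 0) : grad10 f z = 0 := by
  funext k
  rw [grad10_apply, dz_def, lv_fderiv_ofReal, lv_fderiv_ofReal, h]
  simp

theorem grad10_eq_zero_of_isLocalMax (h : IsLocalMax f z) : grad10 f z = 0 :=
  lv_grad10_eq_zero_of_fderiv h.fderiv_eq_zero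

theorem grad10_eq_zero_of_isLocalMin (h : IsLocalMin f z) : grad10 f z = 0 :=
  lv_grad10_eq_zero_of_fderiv h.fderiv_eq_zero

theorem deriv_deriv_nonneg_of_isLocalMin {φ : ℝ → ℝ} {s : ℝ} (hφ : ContDiffAt ℝ 2 φ s)
    (h : IsLocalMin φ s) : 0 ≤ deriv (deriv φ) s := by
  by_contra hneg
  push Not at hneg
  have hmax : IsLocalMax φ s :=
    isLocalMax_of_deriv_deriv_neg hneg h.deriv_eq_zero hφ.continuousAt
  have hconst : φ =ᶠ[𝓝 s] fun _ => φ s := by
    filter_upwards [h, hmax] with x h1 h2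
    exact le_antisymm h2 h1
  have h2 : deriv (deriv φ) s = 0 := by
    rw [hconst.deriv.deriv_eq]
    simp
  linarith

/-- one variable necessary second order condition. -/
theorem deriv_deriv_nonpos_of_isLocalMax {φ : ℝ → ℝ} {s : ℝ} (hφ : ContDiffAt ℝ 2 φ s)
    (h : IsLocalMax φ s) : deriv (deriv φ) s ≤ 0 := by
  by_contra hpos
  push Not at hpos
  have hmin : IsLocalMin φ s :=
    isLocalMin_of_deriv_deriv_pos hpos h.deriv_eq_zero hφ.continuousAt
  have hconst : φ =ᶠ[𝓝 s] fun _ => φ s := by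
    filter_upwards [h, hmin] with x h1 h2
    exact le_antisymm h1 h2
  have h2 : deriv (deriv φ) s = 0 := by
    rw [hconst.deriv.deriv_eq]
    simp
  linarith

theorem lv_line_contDiffAt (hf : ContDiffAt ℝ 2 f z) (a : CE ι) :
    ContDiffAt ℝ 2 (fun s : ℝ => f (z + s • a)) 0 := by
  have hA : ContDiff ℝ 2 (fun s : ℝ => z + s • a) :=
    contDiff_const.add (contDiff_id.smul contDiff_const)
  have hf' : ContDiffAt ℝ 2 f (z + (0 : ℝ) • a) := by simpa using hf
  exact hf'.comp (0 : ℝ) hA.contDiffAt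

theorem lv_line_tendsto (z a : CE ι) : Filter.Tendsto (fun s : ℝ => z + s • a) (𝓝 0) (𝓝 z) := by
  have hc : Continuous fun s : ℝ => z + s • a := by fun_prop
  simpa using hc.tendsto 0

theorem lv_line_isLocalMin (h : IsLocalMin f z) (a : CE ι) :
    IsLocalMin (fun s : ℝ => f (z + s • a)) 0 := by
  have := (lv_line_tendsto z a).eventually h
  filter_upwards [this] with s hs
  simpa using hs

theorem levi_posSemidef_of_isLocalMin (hf : ContDiffAt ℝ 2 f z) (h : IsLocalMin f z) :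
    (levi f z).PosSemidef := by
  rw [levi_posSemidef_iff hf]
  intro v
  have h1 := qf_levi_line hf (WithLp.toLp 2 v)
  have h2 : (fun j => (WithLp.toLp 2 v : CE ι) j) = v := rfl
  rw [h2] at h1
  rw [h1]
  have h3 := deriv_deriv_nonneg_of_isLocalMin (lv_line_contDiffAt hf (WithLp.toLp 2 v))
    (lv_line_isLocalMin h _)
  have h4 := deriv_deriv_nonneg_of_isLocalMin
    (lv_line_contDiffAt hf (Complex.I • (WithLp.toLp 2 v : CE ι))) (lv_line_isLocalMin h _)
  linarith

theorem neg_levi_posSemidef_of_isLocalMax (hf : ContDiffAt ℝ 2 f z) (h : IsLocalMax f z) :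
    (- levi f z).PosSemidef := by
  have h1 : IsLocalMin (fun w => - f w) z := h.neg
  have h2 := levi_posSemidef_of_isLocalMin hf.neg h1
  rwa [levi_neg] at h2

/-- touching from above: `f ≤ g` near `z`, `f z = g z` ⟹ same gradient, `levi f ≤ levi g`. -/
theorem grad10_eq_of_touching {g : CE ι → ℝ} (hf : DifferentiableAt ℝ f z)
    (hg : DifferentiableAt ℝ g z) (h : ∀ᶠ w in 𝓝 z, f w ≤ g w) (h0 : f z = g z) :
    grad10 f z = grad10 g z := by
  have hmin : IsLocalMin (fun w => g w - f w) z := by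
    filter_upwards [h] with w hw
    simp only [h0, sub_self]
    linarith
  have h1 := grad10_eq_zero_of_isLocalMin hmin
  rw [grad10_sub hg hf] at h1
  exact (sub_eq_zero.1 h1).symm

theorem levi_le_of_touching {g : CE ι → ℝ} (hf : ContDiffAt ℝ 2 f z) (hg : ContDiffAt ℝ 2 g z)
    (h : ∀ᶠ w in 𝓝 z, f w ≤ g w) (h0 : f z = g z) : (levi g z - levi f z).PosSemidef := by
  have hmin : IsLocalMin (fun w => g w - f w) z := by
    filter_upwards [h] with w hw
    simp only [h0, sub_self]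
    linarith
  have h1 := levi_posSemidef_of_isLocalMin (hg.sub hf) hmin
  rwa [levi_sub hg hf] at h1

/-- time derivative at a maximum over `(-∞, t₀]`. -/
theorem deriv_nonneg_of_max_left {φ : ℝ → ℝ} {t₀ a : ℝ}
    (h : HasDerivWithinAt φ a (Set.Iic t₀) t₀) (hmax : ∀ᶠ t in 𝓝[≤] t₀, φ t ≤ φ t₀) : 0 ≤ a := by
  have h1 : Filter.Tendsto (slope φ t₀) (𝓝[<] t₀) (𝓝 a) := by
    have := hasDerivWithinAt_iff_tendsto_slope.1 h
    rwa [Set.Iic_sdiff_right] at this
  have h2 : ∀ᶠ t in 𝓝[<] t₀, 0 ≤ slope φ t₀ t := by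
    have h3 : ∀ᶠ t in 𝓝[<] t₀, φ t ≤ φ t₀ := hmax.filter_mono (nhdsWithin_mono _ Set.Iio_subset_Iic_self)
    filter_upwards [h3, self_mem_nhdsWithin] with t ht hlt
    rw [slope_def_field]
    exact div_nonneg_of_nonpos (by linarith) (by linarith [Set.mem_Iio.1 hlt])
  exact ge_of_tendsto h1 h2

theorem deriv_nonpos_of_min_left {φ : ℝ → ℝ} {t₀ a : ℝ}
    (h : HasDerivWithinAt φ a (Set.Iic t₀) t₀) (hmin : ∀ᶠ t in 𝓝[≤] t₀, φ t₀ ≤ φ t) : a ≤ 0 := by
  have h1 := deriv_nonneg_of_max_left (φ := fun t => - φ t) h.neg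
    (hmin.mono fun t ht => neg_le_neg ht)
  linarith

theorem lv_tendsto_time (t₀ : ℝ) (z₀ : CE ι) :
    Filter.Tendsto (fun t : ℝ => ((t, z₀) : ℝ × CE ι)) (𝓝[≤] t₀)
      (𝓝[Set.Iic t₀ ×ˢ Set.univ] ((t₀, z₀) : ℝ × CE ι)) := by
  refine tendsto_nhdsWithin_of_tendsto_nhds_of_eventually_within _ ?_ ?_
  · have hc : Continuous fun t : ℝ => ((t, z₀) : ℝ × CE ι) := by fun_prop
    exact (hc.tendsto t₀).mono_left nhdsWithin_le_nhds
  · filter_upwards [self_mem_nhdsWithin] with t ht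
    exact ⟨ht, Set.mem_univ _⟩

theorem lv_tendsto_space (t₀ : ℝ) (z₀ : CE ι) :
    Filter.Tendsto (fun w : CE ι => ((t₀, w) : ℝ × CE ι)) (𝓝 z₀)
      (𝓝[Set.Iic t₀ ×ˢ Set.univ] ((t₀, z₀) : ℝ × CE ι)) := by
  refine tendsto_nhdsWithin_of_tendsto_nhds_of_eventually_within _ ?_ ?_
  · have hc : Continuous fun w : CE ι => ((t₀, w) : ℝ × CE ι) := by fun_prop
    exact hc.tendsto z₀
  · exact Filter.Eventually.of_forall fun w => ⟨Set.mem_Iic.2 le_rfl, Set.mem_univ _⟩

/-- space-time maximum over `{t ≤ t₀}` (TIME FIRST): `∂_t u ≥ 0`, `∂u = 0`, `levi u ≤ 0`. -/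
theorem spacetime_max {u : ℝ → CE ι → ℝ} {t₀ a : ℝ} {z₀ : CE ι}
    (hmax : ∀ᶠ q in 𝓝[Set.Iic t₀ ×ˢ Set.univ] ((t₀, z₀) : ℝ × CE ι), u q.1 q.2 ≤ u t₀ z₀)
    (ht : HasDerivWithinAt (fun t => u t z₀) a (Set.Iic t₀) t₀)
    (hz : ContDiffAt ℝ 2 (u t₀) z₀) :
    0 ≤ a ∧ grad10 (u t₀) z₀ = 0 ∧ (- levi (u t₀) z₀).PosSemidef := by
  have h1 : ∀ᶠ t in 𝓝[≤] t₀, u t z₀ ≤ u t₀ z₀ := (lv_tendsto_time t₀ z₀).eventually hmax
  have h2 : IsLocalMax (u t₀) z₀ := (lv_tendsto_space t₀ z₀).eventually hmax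
  exact ⟨deriv_nonneg_of_max_left ht h1, grad10_eq_zero_of_isLocalMax h2,
    neg_levi_posSemidef_of_isLocalMax hz h2⟩

theorem spacetime_min {u : ℝ → CE ι → ℝ} {t₀ a : ℝ} {z₀ : CE ι}
    (hmin : ∀ᶠ q in 𝓝[Set.Iic t₀ ×ˢ Set.univ] ((t₀, z₀) : ℝ × CE ι), u t₀ z₀ ≤ u q.1 q.2)
    (ht : HasDerivWithinAt (fun t => u t z₀) a (Set.Iic t₀) t₀)
    (hz : ContDiffAt ℝ 2 (u t₀) z₀) :
    a ≤ 0 ∧ grad10 (u t₀) z₀ = 0 ∧ (levi (u t₀) z₀).PosSemidef := by
  have h1 : ∀ᶠ t in 𝓝[≤] t₀, u t₀ z₀ ≤ u t z₀ := (lv_tendsto_time t₀ z₀).eventually hmin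
  have h2 : IsLocalMin (u t₀) z₀ := (lv_tendsto_space t₀ z₀).eventually hmin
  exact ⟨deriv_nonpos_of_min_left ht h1, grad10_eq_zero_of_isLocalMin h2,
    levi_posSemidef_of_isLocalMin hz h2⟩

end extrema

end Claimed.Agent.R316
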