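import Claimed.Agent.R316.Pack007

/-!
# Row 316, CW-4: Hermitian matrix algebra (pure algebra over `Matrix ι ι ℂ`)

Owner: helper193.  Imports only `Core/Basic.lean` (for `qf`).

CONVENTIONS.
* Loewner order `A ≤ B` is always written `(B - A).PosSemidef` (= `leM A B` of `Core/Psh.lean`, = the clause of `leF`).
* real multiples are written `((c : ℝ) : ℂ) • A` (as in `smulF`, `cI`).
* traces and determinants of Hermitian data are used through `.re` (as in `trF`); `det K / det H` is written `K.det.re / H.det.re`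
  (`det_div_re` of `CW/MatFun.lean` converts from `detF`).
* "relative eigenvalues of `A` with respect to `H`": any `T`, `d` with `Tᴴ * H * T = 1` and
  `Tᴴ * A * T = diagonal (fun i => (d i : ℂ))` (`exists_simDiag`); all `simDiag_*` lemmas take these two equations as hypotheses.

CONTENTS.
1. algebra of `qf`                                   2. positivity through `qf`
3. Loewner order                                     4. unitary and simultaneous diagonalisation, square roots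
5. traces                                            6. inverse and determinant monotonicity
7. AM-GM, `log det ≤ tr - n`                         8. cofactor inequality (`flow:cofactor`)
9. transposes, dual norm, Cauchy-Schwarz             10. Schur complements
11. Frobenius norm, positive and negative parts (clipping), Lipschitz
-/

set_option autoImplicit false
set_option linter.unusedSectionVars false
open scoped ComplexOrder ComplexConjugate Matrix

namespace Claimed.Agent.R316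

variable {ι κ : Type} [Fintype ι] [DecidableEq ι] [Fintype κ] [DecidableEq κ]

/-! ## 1. algebra of `qf` -/

section qfAlg

variable (A B : Matrix ι ι ℂ) (v w : ι → ℂ)

theorem qf_def : qf A v = (star v ⬝ᵥ (A *ᵥ v)).re := rfl

theorem qf_eq_sum : qf A v = (∑ j, ∑ k, conj (v j) * A j k * v k).re := by
  simp only [qf, dotProduct, Matrix.mulVec, Pi.star_apply, Complex.star_def, Finset.mul_sum,
    mul_assoc]

theorem qf_add : qf (A + B) v = qf A v + qf B v := by
  simp [qf, Matrix.add_mulVec, dotProduct_add]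

theorem qf_sub : qf (A - B) v = qf A v - qf B v := by
  simp [qf, Matrix.sub_mulVec, dotProduct_sub]

theorem qf_neg : qf (-A) v = - qf A v := by
  simp [qf, Matrix.neg_mulVec, dotProduct_neg]

theorem qf_zero : qf (0 : Matrix ι ι ℂ) v = 0 := by
  simp [qf]

theorem qf_zero_vec : qf A 0 = 0 := by
  simp [qf]

theorem qf_smul (c : ℝ) : qf (((c : ℝ) : ℂ) • A) v = c * qf A v := by
  simp [qf, Matrix.smul_mulVec, dotProduct_smul]

theorem qf_real_smul (c : ℝ) : qf (c • A) v = c * qf A v := by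
  simp [qf, Matrix.smul_mulVec, dotProduct_smul]

theorem qf_sum {α : Type} (s : Finset α) (F : α → Matrix ι ι ℂ) :
    qf (∑ a ∈ s, F a) v = ∑ a ∈ s, qf (F a) v := by
  classical
  induction s using Finset.induction_on with
  | empty => simp [qf_zero]
  | insert a s ha ih => rw [Finset.sum_insert ha, Finset.sum_insert ha, qf_add, ih]

theorem qf_smul_vec (c : ℂ) : qf A (c • v) = ‖c‖ ^ 2 * qf A v := by
  simp only [qf, Matrix.mulVec_smul, star_smul, smul_dotProduct, dotProduct_smul, smul_eq_mul]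
  rw [← mul_assoc, Complex.star_def, Complex.mul_conj, Complex.re_ofReal_mul,
    Complex.normSq_eq_norm_sq]

theorem qf_neg_vec : qf A (-v) = qf A v := by
  simp [qf, Matrix.mulVec_neg]

theorem qf_one : qf (1 : Matrix ι ι ℂ) v = ∑ j, ‖v j‖ ^ 2 := by
  simp only [qf, Matrix.one_mulVec, dotProduct, Pi.star_apply, Complex.re_sum]
  refine Finset.sum_congr rfl fun j _ => ?_
  rw [Complex.star_def, ← Complex.normSq_eq_conj_mul_self, Complex.ofReal_re,
    Complex.normSq_eq_norm_sq]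

theorem qf_diagonal (d : ι → ℝ) :
    qf (Matrix.diagonal fun i => ((d i : ℝ) : ℂ)) v = ∑ i, d i * ‖v i‖ ^ 2 := by
  simp only [qf, Matrix.mulVec_diagonal, dotProduct, Pi.star_apply, Complex.re_sum]
  refine Finset.sum_congr rfl fun j _ => ?_
  rw [Complex.star_def, mul_left_comm, ← Complex.normSq_eq_conj_mul_self, ← Complex.ofReal_mul,
    Complex.ofReal_re, Complex.normSq_eq_norm_sq]

/-- change of frame: `qf (Tᴴ A T) v = qf A (T v)` (rectangular `T` allowed). -/
theorem qf_conj (T : Matrix κ ι ℂ) (A : Matrix κ κ ℂ) (v : ι → ℂ) :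
    qf (Tᴴ * A * T) v = qf A (T *ᵥ v) := by
  simp only [qf]
  rw [← Matrix.mulVec_mulVec, ← Matrix.mulVec_mulVec, Matrix.dotProduct_mulVec,
    Matrix.star_mulVec]

theorem qf_single (j : ι) : qf A (Pi.single j 1) = (A j j).re := by
  simp [qf]

theorem qf_transpose : qf Aᵀ v = qf A (star v) := by
  simp only [qf, star_star]
  rw [Matrix.mulVec_transpose, Matrix.dotProduct_mulVec, dotProduct_comm]

theorem qf_conjTranspose : qf Aᴴ v = qf A v := by
  simp only [qf]
  rw [← Complex.conj_re, ← Complex.star_def, Matrix.star_dotProduct, star_star,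
    Matrix.star_mulVec, Matrix.conjTranspose_conjTranspose, ← Matrix.dotProduct_mulVec,
    dotProduct_comm]

/-- rank one form `a aᴴ`. -/
theorem qf_vecMulVec (a : ι → ℂ) : qf (Matrix.vecMulVec a (star a)) v = ‖star a ⬝ᵥ v‖ ^ 2 := by
  simp only [qf, Matrix.vecMulVec_mulVec, dotProduct_smul]
  have h : star v ⬝ᵥ a = conj (star a ⬝ᵥ v) := by
    rw [← Complex.star_def, ← Matrix.star_dotProduct]
  rw [h, MulOpposite.smul_eq_mul_unop, MulOpposite.unop_op, ← Complex.normSq_eq_conj_mul_self,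
    Complex.ofReal_re, Complex.normSq_eq_norm_sq]

theorem qf_eq_trace : qf A v = (A * Matrix.vecMulVec v (star v)).trace.re := by
  rw [Matrix.mul_vecMulVec, Matrix.trace_vecMulVec, dotProduct_comm]
  rfl

variable {A}

/-- for a Hermitian matrix `vᴴ A v` is real. -/
theorem qf_ofReal (hA : A.IsHermitian) : ((qf A v : ℝ) : ℂ) = star v ⬝ᵥ (A *ᵥ v) := by
  have h : conj (star v ⬝ᵥ (A *ᵥ v)) = star v ⬝ᵥ (A *ᵥ v) := by
    rw [← Complex.star_def, ← Matrix.star_dotProduct, Matrix.star_mulVec, hA.eq,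
      ← Matrix.dotProduct_mulVec]
  exact (Complex.conj_eq_iff_real.1 h).elim fun r hr => by rw [qf, hr, Complex.ofReal_re]

theorem qf_add_vec (hA : A.IsHermitian) :
    qf A (v + w) = qf A v + qf A w + 2 * (star v ⬝ᵥ (A *ᵥ w)).re := by
  have h : (star w ⬝ᵥ (A *ᵥ v)).re = (star v ⬝ᵥ (A *ᵥ w)).re := by
    rw [← Complex.conj_re, ← Complex.star_def, ← Matrix.star_dotProduct,
      Matrix.star_mulVec, hA.eq, ← Matrix.dotProduct_mulVec]
  simp only [qf, Matrix.mulVec_add, star_add, add_dotProduct, dotProduct_add, Complex.add_re]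
  rw [h]
  ring

/-- trace as a sum of quadratic values. -/
theorem trace_re_eq_sum_qf (A : Matrix ι ι ℂ) : A.trace.re = ∑ j, qf A (Pi.single j 1) := by
  simp [qf_single, Matrix.trace]

end qfAlg

/-! ## 2. positivity through `qf` -/

section qfPos

variable {A B : Matrix ι ι ℂ}

theorem posSemidef_iff_qf (hA : A.IsHermitian) : A.PosSemidef ↔ ∀ v, 0 ≤ qf A v := by
  rw [Matrix.posSemidef_iff_dotProduct_mulVec]
  constructor
  · intro h v
    have := h.2 v
    rw [← qf_ofReal v hA] at this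
    exact_mod_cast this
  · intro h
    refine ⟨hA, fun v => ?_⟩
    rw [← qf_ofReal v hA]
    exact_mod_cast h v

theorem posDef_iff_qf (hA : A.IsHermitian) : A.PosDef ↔ ∀ v, v ≠ 0 → 0 < qf A v := by
  rw [Matrix.posDef_iff_dotProduct_mulVec]
  constructor
  · intro h v hv
    have := h.2 hv
    rw [← qf_ofReal v hA] at this
    exact_mod_cast this
  · intro h
    refine ⟨hA, fun v hv => ?_⟩
    rw [← qf_ofReal v hA]
    exact_mod_cast h v hv

theorem qf_nonneg (hA : A.PosSemidef) (v : ι → ℂ) : 0 ≤ qf A v :=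
  (posSemidef_iff_qf hA.isHermitian).1 hA v

theorem qf_pos (hA : A.PosDef) {v : ι → ℂ} (hv : v ≠ 0) : 0 < qf A v :=
  (posDef_iff_qf hA.isHermitian).1 hA v hv

theorem qf_mono (h : (B - A).PosSemidef) (v : ι → ℂ) : qf A v ≤ qf B v := by
  have := qf_nonneg h v
  rw [qf_sub] at this
  linarith

theorem posSemidef_sub_iff_qf (hA : A.IsHermitian) (hB : B.IsHermitian) :
    (B - A).PosSemidef ↔ ∀ v, qf A v ≤ qf B v := by
  rw [posSemidef_iff_qf (hB.sub hA)]
  simp only [qf_sub, sub_nonneg]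

theorem loewner_antisymm (h₁ : (B - A).PosSemidef) (h₂ : (A - B).PosSemidef) : A = B := by
  open scoped MatrixOrder in
  exact le_antisymm (Matrix.le_iff.2 h₁) (Matrix.le_iff.2 h₂)

/-- a Hermitian matrix is determined by its quadratic form. -/
theorem eq_of_qf_eq (hA : A.IsHermitian) (hB : B.IsHermitian) (h : ∀ v, qf A v = qf B v) :
    A = B :=
  loewner_antisymm ((posSemidef_sub_iff_qf hA hB).2 fun v => (h v).le)
    ((posSemidef_sub_iff_qf hB hA).2 fun v => (h v).ge)

theorem qf_eq_zero_iff (hA : A.PosSemidef) (v : ι → ℂ) : qf A v = 0 ↔ A *ᵥ v = 0 := by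
  rw [← hA.dotProduct_mulVec_zero_iff, ← qf_ofReal v hA.isHermitian]
  exact_mod_cast Iff.rfl

/-- Cauchy-Schwarz for a positive semidefinite form. -/
theorem qf_cauchy_schwarz (hA : A.PosSemidef) (v w : ι → ℂ) :
    ‖star v ⬝ᵥ (A *ᵥ w)‖ ^ 2 ≤ qf A v * qf A w := by
  have hsymm : ∀ x y : ι → ℂ, conj (star y ⬝ᵥ (A *ᵥ x)) = star x ⬝ᵥ (A *ᵥ y) := by
    intro x y
    rw [← Complex.star_def, ← Matrix.star_dotProduct, Matrix.star_mulVec, hA.isHermitian.eq,
      ← Matrix.dotProduct_mulVec]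
  let c : PreInnerProductSpace.Core ℂ (ι → ℂ) :=
    { inner := fun x y => star x ⬝ᵥ (A *ᵥ y)
      conj_inner_symm := hsymm
      re_inner_nonneg := fun x => hA.re_dotProduct_nonneg x
      add_left := fun x y z => by simp only [star_add, add_dotProduct]
      smul_left := fun x y r => by
        simp only [star_smul, smul_dotProduct, smul_eq_mul, Complex.star_def] }
  have h := @InnerProductSpace.Core.inner_mul_inner_self_le ℂ (ι → ℂ) _ _ _ c v w
  have h' : ‖star v ⬝ᵥ (A *ᵥ w)‖ * ‖star w ⬝ᵥ (A *ᵥ v)‖ ≤ qf A v * qf A w := h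
  rw [← hsymm v w, Complex.norm_conj] at h'
  rw [sq]
  rw [← hsymm v w, Complex.norm_conj]
  exact h'

end qfPos

/-! ## 3. Loewner order -/

section loewner

variable {A B C D : Matrix ι ι ℂ}

theorem isHermitian_smul_real (c : ℝ) (hA : A.IsHermitian) : (((c : ℝ) : ℂ) • A).IsHermitian := by
  rw [Matrix.IsHermitian, Matrix.conjTranspose_smul, hA.eq]
  simp

theorem posSemidef_smul_real {c : ℝ} (hc : 0 ≤ c) (hA : A.PosSemidef) :
    (((c : ℝ) : ℂ) • A).PosSemidef :=
  hA.smul (by exact_mod_cast hc)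

theorem posDef_smul_real {c : ℝ} (hc : 0 < c) (hA : A.PosDef) : (((c : ℝ) : ℂ) • A).PosDef :=
  hA.smul (by exact_mod_cast hc)

theorem loewner_refl (A : Matrix ι ι ℂ) : (A - A).PosSemidef := by
  rw [sub_self]
  exact Matrix.PosSemidef.zero

theorem loewner_trans (h₁ : (B - A).PosSemidef) (h₂ : (C - B).PosSemidef) :
    (C - A).PosSemidef := by
  have := h₁.add h₂
  rwa [add_comm, sub_add_sub_cancel] at this

theorem loewner_add (h₁ : (B - A).PosSemidef) (h₂ : (D - C).PosSemidef) :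
    ((B + D) - (A + C)).PosSemidef := by
  have := h₁.add h₂
  rwa [← add_sub_add_comm] at this

theorem loewner_neg (h : (B - A).PosSemidef) : (-A - -B).PosSemidef := by
  rwa [neg_sub_neg]

theorem loewner_smul {c : ℝ} (hc : 0 ≤ c) (h : (B - A).PosSemidef) :
    (((c : ℝ) : ℂ) • B - ((c : ℝ) : ℂ) • A).PosSemidef := by
  rw [← smul_sub]
  exact posSemidef_smul_real hc h

theorem loewner_smul_le {c c' : ℝ} (hc : c ≤ c') (hA : A.PosSemidef) :
    (((c' : ℝ) : ℂ) • A - ((c : ℝ) : ℂ) • A).PosSemidef := by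
  rw [← sub_smul, ← Complex.ofReal_sub]
  exact posSemidef_smul_real (sub_nonneg.2 hc) hA

theorem loewner_sum {α : Type} (s : Finset α) (F G : α → Matrix ι ι ℂ)
    (h : ∀ a ∈ s, (G a - F a).PosSemidef) : (∑ a ∈ s, G a - ∑ a ∈ s, F a).PosSemidef := by
  rw [← Finset.sum_sub_distrib]
  exact Matrix.posSemidef_sum s h

theorem loewner_conj (h : (B - A).PosSemidef) (T : Matrix ι κ ℂ) :
    (Tᴴ * B * T - Tᴴ * A * T).PosSemidef := by
  have := h.conjTranspose_mul_mul_same T
  rwa [Matrix.mul_sub, Matrix.sub_mul] at this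

theorem isUnit_of_det_ne_zero {T : Matrix ι ι ℂ} (hT : T.det ≠ 0) : IsUnit T :=
  (Matrix.isUnit_iff_isUnit_det T).2 (isUnit_iff_ne_zero.2 hT)

theorem posSemidef_conj_iff {T : Matrix ι ι ℂ} (hT : T.det ≠ 0) :
    (Tᴴ * A * T).PosSemidef ↔ A.PosSemidef :=
  Matrix.IsUnit.posSemidef_star_left_conjugate_iff (isUnit_of_det_ne_zero hT)

theorem posDef_conj_iff {T : Matrix ι ι ℂ} (hT : T.det ≠ 0) :
    (Tᴴ * A * T).PosDef ↔ A.PosDef :=
  Matrix.IsUnit.posDef_star_left_conjugate_iff (isUnit_of_det_ne_zero hT)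

theorem loewner_conj_iff {T : Matrix ι ι ℂ} (hT : T.det ≠ 0) :
    (Tᴴ * B * T - Tᴴ * A * T).PosSemidef ↔ (B - A).PosSemidef := by
  rw [← posSemidef_conj_iff hT (A := B - A), Matrix.mul_sub, Matrix.sub_mul]

theorem isHermitian_conj (hA : A.IsHermitian) (T : Matrix ι κ ℂ) : (Tᴴ * A * T).IsHermitian :=
  Matrix.isHermitian_conjTranspose_mul_mul T hA

theorem posSemidef_of_loewner (hA : A.PosSemidef) (h : (B - A).PosSemidef) : B.PosSemidef := by
  have := hA.add h
  rwa [add_sub_cancel] at this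

theorem posDef_of_loewner (hA : A.PosDef) (h : (B - A).PosSemidef) : B.PosDef := by
  have := hA.add_posSemidef h
  rwa [add_sub_cancel] at this

theorem isHermitian_of_loewner_left (hA : A.IsHermitian) (h : (B - A).PosSemidef) :
    B.IsHermitian := by
  have := hA.add h.isHermitian
  rwa [add_sub_cancel] at this

theorem isHermitian_of_loewner_right (hB : B.IsHermitian) (h : (B - A).PosSemidef) :
    A.IsHermitian := by
  have := hB.sub h.isHermitian
  rwa [sub_sub_cancel] at this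

/-- diagonal entries are monotone. -/
theorem loewner_diag_le (h : (B - A).PosSemidef) (j : ι) : (A j j).re ≤ (B j j).re := by
  have := qf_mono h (Pi.single j 1)
  rwa [qf_single, qf_single] at this

theorem loewner_trace_le (h : (B - A).PosSemidef) : A.trace.re ≤ B.trace.re := by
  simp only [Matrix.trace, Matrix.diag_apply, Complex.re_sum]
  exact Finset.sum_le_sum fun j _ => loewner_diag_le h j

theorem posSemidef_diag_re_nonneg (hA : A.PosSemidef) (j : ι) : 0 ≤ (A j j).re := by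
  have := qf_nonneg hA (Pi.single j 1)
  rwa [qf_single] at this

theorem norm_entry_sq_le (hA : A.PosSemidef) (j k : ι) :
    ‖A j k‖ ^ 2 ≤ (A j j).re * (A k k).re := by
  have := qf_cauchy_schwarz hA (Pi.single j 1) (Pi.single k 1)
  rw [qf_single, qf_single] at this
  simpa using this

theorem posSemidef_diag_le_trace (hA : A.PosSemidef) (j : ι) : (A j j).re ≤ A.trace.re := by
  simp only [Matrix.trace, Matrix.diag_apply, Complex.re_sum]
  exact Finset.single_le_sum (f := fun j => (A j j).re)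
    (fun i _ => posSemidef_diag_re_nonneg hA i) (Finset.mem_univ j)

/-- entries of a positive semidefinite matrix are bounded by its trace. -/
theorem norm_entry_le_trace (hA : A.PosSemidef) (j k : ι) : ‖A j k‖ ≤ A.trace.re := by
  have h1 := norm_entry_sq_le hA j k
  have h2 := posSemidef_diag_le_trace hA j
  have h3 := posSemidef_diag_le_trace hA k
  have h4 := posSemidef_diag_re_nonneg hA j
  have h5 := posSemidef_diag_re_nonneg hA k
  have h6 : ‖A j k‖ ^ 2 ≤ A.trace.re ^ 2 := by nlinarith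
  exact (abs_le_of_sq_le_sq' h6 (h4.trans h2)).2

/-- entries of `-c ≤ A ≤ c`. -/
theorem norm_entry_le_of_loewner {c : ℝ}
    (h₁ : (((c : ℝ) : ℂ) • (1 : Matrix ι ι ℂ) - A).PosSemidef)
    (h₂ : (A + ((c : ℝ) : ℂ) • (1 : Matrix ι ι ℂ)).PosSemidef) (j k : ι) : ‖A j k‖ ≤ c := by
  have e1 : ∀ i, ((((c : ℝ) : ℂ) • (1 : Matrix ι ι ℂ) - A) i i).re = c - (A i i).re := by
    intro i
    simp
  have e2 : ∀ i, ((A + ((c : ℝ) : ℂ) • (1 : Matrix ι ι ℂ)) i i).re = (A i i).re + c := by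
    intro i
    simp
  have p1 : ∀ i, 0 ≤ c - (A i i).re := fun i => e1 i ▸ posSemidef_diag_re_nonneg h₁ i
  have p2 : ∀ i, 0 ≤ (A i i).re + c := fun i => e2 i ▸ posSemidef_diag_re_nonneg h₂ i
  have hc : 0 ≤ c := by linarith [p1 j, p2 j]
  have hA : A.IsHermitian := by
    have := (isHermitian_smul_real c (Matrix.isHermitian_one (n := ι) (α := ℂ))).sub h₁.isHermitian
    rwa [sub_sub_cancel] at this
  by_cases hjk : j = k
  · subst hjk
    have him : (A j j).im = 0 := by
      have := hA.apply j j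
      exact Complex.conj_eq_iff_im.1 this
    have : A j j = (((A j j).re : ℝ) : ℂ) := by
      apply Complex.ext <;> simp [him]
    rw [this, Complex.norm_real, Real.norm_eq_abs, abs_le]
    constructor <;> linarith [p1 j, p2 j]
  · have q1 := norm_entry_sq_le h₁ j k
    have q2 := norm_entry_sq_le h₂ j k
    rw [e1, e1] at q1
    rw [e2, e2] at q2
    have f1 : (((c : ℝ) : ℂ) • (1 : Matrix ι ι ℂ) - A) j k = - A j k := by
      simp [Matrix.one_apply_ne hjk]
    have f2 : (A + ((c : ℝ) : ℂ) • (1 : Matrix ι ι ℂ)) j k = A j k := by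
      simp [Matrix.one_apply_ne hjk]
    rw [f1, norm_neg] at q1
    rw [f2] at q2
    set x := ‖A j k‖
    set a := (A j j).re
    set b := (A k k).re
    have hx : 0 ≤ x := norm_nonneg _
    have ha1 := p1 j
    have ha2 := p2 j
    have hb1 := p1 k
    have hb2 := p2 k
    by_contra hcon
    push Not at hcon
    have hxc : c ^ 2 < x ^ 2 := by nlinarith
    rcases le_total 0 a with ha | ha
    · rcases le_total 0 b with hb | hb
      · nlinarith
      · nlinarith
    · rcases le_total 0 b with hb | hb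
      · nlinarith
      · nlinarith

/-- the positive semidefinite cone is closed under entrywise limits. -/
theorem posSemidef_of_tendsto {α : Type} {l : Filter α} [l.NeBot] {F : α → Matrix ι ι ℂ}
    (hF : ∀ᶠ a in l, (F a).PosSemidef)
    (hlim : ∀ j k, Filter.Tendsto (fun a => F a j k) l (nhds (A j k))) : A.PosSemidef := by
  have hA : A.IsHermitian := by
    refine Matrix.IsHermitian.ext fun i j => ?_
    have h1 : Filter.Tendsto (fun a => star (F a j i)) l (nhds (star (A j i))) :=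
      (continuous_star.tendsto _).comp (hlim j i)
    have h2 : (fun a => star (F a j i)) =ᶠ[l] fun a => F a i j := by
      filter_upwards [hF] with a ha
      exact ha.isHermitian.apply i j
    exact tendsto_nhds_unique (h1.congr' h2) (hlim i j)
  rw [posSemidef_iff_qf hA]
  intro v
  have h3 : Filter.Tendsto (fun a => qf (F a) v) l (nhds (qf A v)) := by
    simp only [qf_eq_sum]
    refine (Complex.continuous_re.tendsto _).comp ?_
    refine tendsto_finsetSum _ fun j _ => tendsto_finsetSum _ fun k _ => ?_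
    exact (tendsto_const_nhds.mul (hlim j k)).mul tendsto_const_nhds
  refine ge_of_tendsto h3 ?_
  filter_upwards [hF] with a ha
  exact qf_nonneg ha v

end loewner

/-! ## 4. diagonalisation -/

section diag

variable {A H T : Matrix ι ι ℂ} {d : ι → ℝ}

/-- spectral theorem in matrix form. -/
theorem exists_unitary_diag (hA : A.IsHermitian) :
    ∃ (U : Matrix ι ι ℂ) (d : ι → ℝ), Uᴴ * U = 1 ∧ U * Uᴴ = 1 ∧
      Uᴴ * A * U = Matrix.diagonal fun i => ((d i : ℝ) : ℂ) := by
  refine ⟨(hA.eigenvectorUnitary : Matrix ι ι ℂ), hA.eigenvalues, ?_, ?_, ?_⟩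
  · exact Unitary.coe_star_mul_self hA.eigenvectorUnitary
  · exact Unitary.coe_mul_star_self hA.eigenvectorUnitary
  · have := hA.conjStarAlgAut_star_eigenvectorUnitary
    rw [Unitary.conjStarAlgAut_star_apply] at this
    exact this

theorem eq_of_unitary_diag {U D : Matrix ι ι ℂ} (h2 : U * Uᴴ = 1) (h3 : Uᴴ * A * U = D) :
    A = U * D * Uᴴ := by
  rw [← h3]
  calc A = (U * Uᴴ) * A * (U * Uᴴ) := by rw [h2, Matrix.one_mul, Matrix.mul_one]
    _ = U * (Uᴴ * A * U) * Uᴴ := by simp only [Matrix.mul_assoc]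

theorem exists_sqrt_posSemidef (hA : A.PosSemidef) :
    ∃ R : Matrix ι ι ℂ, R.PosSemidef ∧ R * R = A := by
  obtain ⟨U, d, h1, h2, h3⟩ := exists_unitary_diag hA.isHermitian
  have hd : ∀ i, 0 ≤ d i := by
    have : (Uᴴ * A * U).PosSemidef := hA.conjTranspose_mul_mul_same U
    rw [h3, Matrix.posSemidef_diagonal_iff] at this
    intro i
    exact_mod_cast this i
  refine ⟨U * (Matrix.diagonal fun i => ((Real.sqrt (d i) : ℝ) : ℂ)) * Uᴴ, ?_, ?_⟩
  · refine Matrix.PosSemidef.mul_mul_conjTranspose_same (Matrix.PosSemidef.diagonal ?_) U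
    intro i
    show (0 : ℂ) ≤ ((Real.sqrt (d i) : ℝ) : ℂ)
    exact_mod_cast Real.sqrt_nonneg (d i)
  · rw [eq_of_unitary_diag h2 h3]
    calc _ = U * ((Matrix.diagonal fun i => ((Real.sqrt (d i) : ℝ) : ℂ)) * (Uᴴ * U) *
          (Matrix.diagonal fun i => ((Real.sqrt (d i) : ℝ) : ℂ))) * Uᴴ := by
          simp only [Matrix.mul_assoc]
      _ = _ := by
          rw [h1, Matrix.mul_one, Matrix.diagonal_mul_diagonal]
          congr 3
          funext i
          rw [← Complex.ofReal_mul, Real.mul_self_sqrt (hd i)]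

theorem exists_sqrt_posDef (hA : A.PosDef) : ∃ R : Matrix ι ι ℂ, R.PosDef ∧ R * R = A := by
  obtain ⟨R, hR, hRR⟩ := exists_sqrt_posSemidef hA.posSemidef
  refine ⟨R, ?_, hRR⟩
  rw [hR.posDef_iff_det_ne_zero]
  intro h0
  have := hA.det_pos
  rw [← hRR, Matrix.det_mul, h0, mul_zero] at this
  exact lt_irrefl _ this

/-- **simultaneous diagonalisation**. -/
theorem exists_simDiag (hH : H.PosDef) (hA : A.IsHermitian) :
    ∃ (T : Matrix ι ι ℂ) (d : ι → ℝ), T.det ≠ 0 ∧ Tᴴ * H * T = 1 ∧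
      Tᴴ * A * T = Matrix.diagonal fun i => ((d i : ℝ) : ℂ) := by
  obtain ⟨R, hR, hRR⟩ := exists_sqrt_posDef hH
  have hRdet : R.det ≠ 0 := hR.det_pos.ne'
  have hRu : IsUnit R.det := isUnit_iff_ne_zero.2 hRdet
  have hRinvH : (R⁻¹)ᴴ = R⁻¹ := by
    rw [Matrix.conjTranspose_nonsing_inv, hR.isHermitian.eq]
  have hA' : ((R⁻¹)ᴴ * A * R⁻¹).IsHermitian := isHermitian_conj hA _
  obtain ⟨U, d, h1, h2, h3⟩ := exists_unitary_diag hA'
  have hUdet : U.det ≠ 0 := by
    intro h0
    have := congrArg Matrix.det h2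
    rw [Matrix.det_mul, h0, zero_mul, Matrix.det_one] at this
    exact zero_ne_one this
  refine ⟨R⁻¹ * U, d, ?_, ?_, ?_⟩
  · rw [Matrix.det_mul]
    refine mul_ne_zero ?_ hUdet
    intro h0
    have := congrArg Matrix.det (Matrix.nonsing_inv_mul R hRu)
    rw [Matrix.det_mul, h0, zero_mul, Matrix.det_one] at this
    exact zero_ne_one this
  · rw [Matrix.conjTranspose_mul, hRinvH, ← hRR]
    calc _ = Uᴴ * ((R⁻¹ * R) * (R * R⁻¹)) * U := by simp only [Matrix.mul_assoc]
      _ = 1 := by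
          rw [Matrix.nonsing_inv_mul R hRu, Matrix.mul_nonsing_inv R hRu, Matrix.one_mul,
            Matrix.mul_one, h1]
  · rw [← h3, Matrix.conjTranspose_mul]
    simp only [Matrix.mul_assoc]

theorem simDiag_det_ne_zero (h1 : Tᴴ * H * T = 1) : T.det ≠ 0 := by
  intro h0
  have := congrArg Matrix.det h1
  rw [Matrix.det_mul, h0, mul_zero, Matrix.det_one] at this
  exact zero_ne_one this

theorem simDiag_posDef (h1 : Tᴴ * H * T = 1) : H.PosDef := by
  rw [← posDef_conj_iff (simDiag_det_ne_zero h1), h1]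
  exact Matrix.PosDef.one

theorem simDiag_eq' (h1 : Tᴴ * H * T = 1)
    (hD : Tᴴ * A * T = Matrix.diagonal fun i => ((d i : ℝ) : ℂ)) :
    A = (T⁻¹)ᴴ * (Matrix.diagonal fun i => ((d i : ℝ) : ℂ)) * T⁻¹ := by
  have hu : IsUnit T.det := isUnit_iff_ne_zero.2 (simDiag_det_ne_zero h1)
  have hu' : IsUnit Tᴴ.det := by
    rw [Matrix.det_conjTranspose]
    exact hu.star
  rw [← hD, Matrix.conjTranspose_nonsing_inv]
  calc A = ((Tᴴ)⁻¹ * Tᴴ) * A * (T * T⁻¹) := by
        rw [Matrix.nonsing_inv_mul _ hu', Matrix.mul_nonsing_inv _ hu, Matrix.one_mul,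
          Matrix.mul_one]
    _ = _ := by simp only [Matrix.mul_assoc]

theorem simDiag_isHermitian (h1 : Tᴴ * H * T = 1)
    (hD : Tᴴ * A * T = Matrix.diagonal fun i => ((d i : ℝ) : ℂ)) : A.IsHermitian := by
  rw [simDiag_eq' h1 hD]
  refine isHermitian_conj ?_ _
  rw [Matrix.IsHermitian, Matrix.diagonal_conjTranspose]
  congr 1
  funext i
  simp

theorem simDiag_eq (h1 : Tᴴ * H * T = 1) : H = (T⁻¹)ᴴ * T⁻¹ := by
  have hD : Tᴴ * H * T = Matrix.diagonal fun i : ι => (((fun _ => (1 : ℝ)) i : ℝ) : ℂ) := by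
    rw [h1]
    simp
  have := simDiag_eq' h1 hD
  simpa using this

theorem simDiag_inv (h1 : Tᴴ * H * T = 1) : H⁻¹ = T * Tᴴ := by
  have hu : IsUnit T.det := isUnit_iff_ne_zero.2 (simDiag_det_ne_zero h1)
  conv_lhs => rw [simDiag_eq h1]
  rw [Matrix.mul_inv_rev, Matrix.nonsing_inv_nonsing_inv _ hu, Matrix.conjTranspose_nonsing_inv,
    Matrix.nonsing_inv_nonsing_inv]
  rw [Matrix.det_conjTranspose]
  exact hu.star

theorem simDiag_inv_mul (h1 : Tᴴ * H * T = 1)
    (hD : Tᴴ * A * T = Matrix.diagonal fun i => ((d i : ℝ) : ℂ)) :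
    H⁻¹ * A = T * (Matrix.diagonal fun i => ((d i : ℝ) : ℂ)) * T⁻¹ := by
  have hu : IsUnit T.det := isUnit_iff_ne_zero.2 (simDiag_det_ne_zero h1)
  rw [simDiag_inv h1, ← hD]
  calc T * Tᴴ * A = T * Tᴴ * A * (T * T⁻¹) := by rw [Matrix.mul_nonsing_inv _ hu, Matrix.mul_one]
    _ = _ := by simp only [Matrix.mul_assoc]

theorem simDiag_trace (h1 : Tᴴ * H * T = 1)
    (hD : Tᴴ * A * T = Matrix.diagonal fun i => ((d i : ℝ) : ℂ)) :
    (H⁻¹ * A).trace = ((∑ i, d i : ℝ) : ℂ) := by
  rw [simDiag_inv h1, Matrix.mul_assoc, Matrix.trace_mul_comm, Matrix.mul_assoc, ← Matrix.mul_assoc,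
    hD, Matrix.trace_diagonal]
  push_cast
  rfl

theorem simDiag_trace_re (h1 : Tᴴ * H * T = 1)
    (hD : Tᴴ * A * T = Matrix.diagonal fun i => ((d i : ℝ) : ℂ)) :
    (H⁻¹ * A).trace.re = ∑ i, d i := by
  rw [simDiag_trace h1 hD, Complex.ofReal_re]

theorem simDiag_det (h1 : Tᴴ * H * T = 1)
    (hD : Tᴴ * A * T = Matrix.diagonal fun i => ((d i : ℝ) : ℂ)) :
    A.det = ((∏ i, d i : ℝ) : ℂ) * H.det := by
  have e1 := congrArg Matrix.det h1
  have e2 := congrArg Matrix.det hD
  rw [Matrix.det_mul, Matrix.det_mul, Matrix.det_one] at e1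
  rw [Matrix.det_mul, Matrix.det_mul, Matrix.det_diagonal] at e2
  push_cast
  rw [← e2]
  calc A.det = A.det * (Tᴴ.det * H.det * T.det) := by rw [e1, mul_one]
    _ = _ := by ring

theorem isHermitian_det_im (hA : A.IsHermitian) : A.det.im = 0 := by
  have h : star A.det = A.det := by
    rw [← Matrix.det_conjTranspose, hA.eq]
  exact Complex.conj_eq_iff_im.1 h

theorem simDiag_det_re (h1 : Tᴴ * H * T = 1)
    (hD : Tᴴ * A * T = Matrix.diagonal fun i => ((d i : ℝ) : ℂ)) :
    A.det.re = (∏ i, d i) * H.det.re := by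
  rw [simDiag_det h1 hD, Complex.re_ofReal_mul]

theorem simDiag_qf (hD : Tᴴ * A * T = Matrix.diagonal fun i => ((d i : ℝ) : ℂ)) (w : ι → ℂ) :
    qf A (T *ᵥ w) = ∑ i, d i * ‖w i‖ ^ 2 := by
  rw [← qf_conj, hD, qf_diagonal]

theorem simDiag_qf_one (h1 : Tᴴ * H * T = 1) (w : ι → ℂ) : qf H (T *ᵥ w) = ∑ i, ‖w i‖ ^ 2 := by
  rw [← qf_conj, h1, qf_one]

theorem simDiag_posSemidef_iff (h1 : Tᴴ * H * T = 1)
    (hD : Tᴴ * A * T = Matrix.diagonal fun i => ((d i : ℝ) : ℂ)) :
    A.PosSemidef ↔ ∀ i, 0 ≤ d i := by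
  rw [← posSemidef_conj_iff (simDiag_det_ne_zero h1), hD, Matrix.posSemidef_diagonal_iff]
  exact forall_congr' fun i => by exact_mod_cast Iff.rfl

theorem simDiag_posDef_iff (h1 : Tᴴ * H * T = 1)
    (hD : Tᴴ * A * T = Matrix.diagonal fun i => ((d i : ℝ) : ℂ)) :
    A.PosDef ↔ ∀ i, 0 < d i := by
  rw [← posDef_conj_iff (simDiag_det_ne_zero h1), hD, Matrix.posDef_diagonal_iff]
  exact forall_congr' fun i => by exact_mod_cast Iff.rfl

theorem simDiag_le_iff (h1 : Tᴴ * H * T = 1)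
    (hD : Tᴴ * A * T = Matrix.diagonal fun i => ((d i : ℝ) : ℂ)) (c : ℝ) :
    (((c : ℝ) : ℂ) • H - A).PosSemidef ↔ ∀ i, d i ≤ c := by
  have hD' : Tᴴ * (((c : ℝ) : ℂ) • H - A) * T
      = Matrix.diagonal fun i => (((fun i => c - d i) i : ℝ) : ℂ) := by
    rw [Matrix.mul_sub, Matrix.sub_mul, hD, Matrix.mul_smul, Matrix.smul_mul, h1]
    ext i j
    by_cases hij : i = j
    · subst hij
      simp
    · simp [hij]
  rw [simDiag_posSemidef_iff h1 hD']
  simp only [sub_nonneg]

theorem simDiag_ge_iff (h1 : Tᴴ * H * T = 1)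
    (hD : Tᴴ * A * T = Matrix.diagonal fun i => ((d i : ℝ) : ℂ)) (c : ℝ) :
    (A - ((c : ℝ) : ℂ) • H).PosSemidef ↔ ∀ i, c ≤ d i := by
  have hD' : Tᴴ * (A - ((c : ℝ) : ℂ) • H) * T
      = Matrix.diagonal fun i => (((fun i => d i - c) i : ℝ) : ℂ) := by
    rw [Matrix.mul_sub, Matrix.sub_mul, hD, Matrix.mul_smul, Matrix.smul_mul, h1]
    ext i j
    by_cases hij : i = j
    · subst hij
      simp
    · simp [hij]
  rw [simDiag_posSemidef_iff h1 hD']
  simp only [sub_nonneg]

/-- relative eigenvalue bounds: `-c H ≤ A ≤ c H ↔ |d_i| ≤ c`. -/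
theorem simDiag_abs_le_iff (h1 : Tᴴ * H * T = 1)
    (hD : Tᴴ * A * T = Matrix.diagonal fun i => ((d i : ℝ) : ℂ)) (c : ℝ) :
    ((((c : ℝ) : ℂ) • H - A).PosSemidef ∧ (A + ((c : ℝ) : ℂ) • H).PosSemidef) ↔
      ∀ i, |d i| ≤ c := by
  have e : A + ((c : ℝ) : ℂ) • H = A - (((-c : ℝ)) : ℂ) • H := by
    rw [Complex.ofReal_neg, neg_smul, sub_neg_eq_add]
  rw [e, simDiag_le_iff h1 hD, simDiag_ge_iff h1 hD]
  simp only [abs_le]
  exact ⟨fun h i => ⟨h.2 i, h.1 i⟩, fun h => ⟨fun i => (h i).2, fun i => (h i).1⟩⟩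

/-- the inverse in the same frame: `A⁻¹ = T diag(1/d) Tᴴ`. -/
theorem simDiag_inv' (h1 : Tᴴ * H * T = 1)
    (hD : Tᴴ * A * T = Matrix.diagonal fun i => ((d i : ℝ) : ℂ)) (hd : ∀ i, d i ≠ 0) :
    A⁻¹ = T * (Matrix.diagonal fun i => (((d i)⁻¹ : ℝ) : ℂ)) * Tᴴ := by
  have hu : IsUnit T.det := isUnit_iff_ne_zero.2 (simDiag_det_ne_zero h1)
  have hu' : IsUnit Tᴴ.det := by
    rw [Matrix.det_conjTranspose]
    exact hu.star
  apply Matrix.inv_eq_right_inv
  conv_lhs => rw [simDiag_eq' h1 hD]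
  calc _ = (T⁻¹)ᴴ * ((Matrix.diagonal fun i => ((d i : ℝ) : ℂ)) * (T⁻¹ * T) *
        (Matrix.diagonal fun i => (((d i)⁻¹ : ℝ) : ℂ))) * Tᴴ := by simp only [Matrix.mul_assoc]
    _ = (T⁻¹)ᴴ * 1 * Tᴴ := by
        rw [Matrix.nonsing_inv_mul _ hu, Matrix.mul_one, Matrix.diagonal_mul_diagonal]
        congr 2
        rw [← Matrix.diagonal_one]
        congr 1
        funext i
        rw [← Complex.ofReal_mul, mul_inv_cancel₀ (hd i), Complex.ofReal_one]
    _ = 1 := by
        rw [Matrix.mul_one, Matrix.conjTranspose_nonsing_inv, Matrix.nonsing_inv_mul _ hu']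

/-- `tr (A⁻¹ B) = ∑ (Tᴴ B T)_{ii} / d_i`. -/
theorem simDiag_trace_inv_mul (h1 : Tᴴ * H * T = 1)
    (hD : Tᴴ * A * T = Matrix.diagonal fun i => ((d i : ℝ) : ℂ)) (hd : ∀ i, d i ≠ 0)
    (B : Matrix ι ι ℂ) :
    (A⁻¹ * B).trace = ∑ i, (((d i)⁻¹ : ℝ) : ℂ) * (Tᴴ * B * T) i i := by
  rw [simDiag_inv' h1 hD hd]
  calc _ = (T * ((Matrix.diagonal fun i => (((d i)⁻¹ : ℝ) : ℂ)) * Tᴴ * B)).trace := by
        simp only [Matrix.mul_assoc]
    _ = ((Matrix.diagonal fun i => (((d i)⁻¹ : ℝ) : ℂ)) * (Tᴴ * B * T)).trace := by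
        rw [Matrix.trace_mul_comm]
        simp only [Matrix.mul_assoc]
    _ = _ := by
        simp only [Matrix.trace, Matrix.diag_apply, Matrix.diagonal_mul]

/-- a positive definite form dominates a multiple of the Euclidean one. -/
theorem exists_pos_smul_one_le (hA : A.PosDef) :
    ∃ c : ℝ, 0 < c ∧ (A - ((c : ℝ) : ℂ) • (1 : Matrix ι ι ℂ)).PosSemidef := by
  obtain ⟨T, d, -, h1, hD⟩ := exists_simDiag (Matrix.PosDef.one (n := ι) (R := ℂ)) hA.isHermitian
  have hd := (simDiag_posDef_iff h1 hD).1 hA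
  simp only [simDiag_ge_iff h1 hD]
  rcases isEmpty_or_nonempty ι with hι | hι
  · exact ⟨1, one_pos, fun i => (hι.false i).elim⟩
  · obtain ⟨i₀, hi₀⟩ := Finite.exists_min d
    exact ⟨d i₀, hd i₀, hi₀⟩

/-- every Hermitian form is dominated by a multiple of the Euclidean one. -/
theorem exists_le_smul_one (hA : A.IsHermitian) :
    ∃ C : ℝ, 0 < C ∧ (((C : ℝ) : ℂ) • (1 : Matrix ι ι ℂ) - A).PosSemidef := by
  obtain ⟨T, d, -, h1, hD⟩ := exists_simDiag (Matrix.PosDef.one (n := ι) (R := ℂ)) hA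
  simp only [simDiag_le_iff h1 hD]
  rcases isEmpty_or_nonempty ι with hι | hι
  · exact ⟨1, one_pos, fun i => (hι.false i).elim⟩
  · obtain ⟨i₀, hi₀⟩ := Finite.exists_max d
    exact ⟨max (d i₀) 1, lt_max_of_lt_right one_pos, fun i => (hi₀ i).trans (le_max_left _ _)⟩

end diag

/-! ## 5. traces -/

section traces

variable {A B C H K : Matrix ι ι ℂ}

theorem trace_mul_im (hA : A.IsHermitian) (hB : B.IsHermitian) : (A * B).trace.im = 0 := by
  have h : star (A * B).trace = (A * B).trace := by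
    rw [← Matrix.trace_conjTranspose, Matrix.conjTranspose_mul, hA.eq, hB.eq,
      Matrix.trace_mul_comm]
  exact Complex.conj_eq_iff_im.1 h

theorem trace_mul_nonneg (hA : A.PosSemidef) (hB : B.PosSemidef) : 0 ≤ (A * B).trace.re := by
  obtain ⟨R, hR, hRR⟩ := exists_sqrt_posSemidef hA
  have h1 : (A * B).trace = (Rᴴ * B * R).trace := by
    rw [← hRR, hR.isHermitian.eq, Matrix.mul_assoc, Matrix.trace_mul_comm, Matrix.mul_assoc]
  have h2 := (hB.conjTranspose_mul_mul_same R).trace_nonneg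
  rw [h1]
  exact (Complex.le_def.1 h2).1

theorem trace_mul_mono_right (hA : A.PosSemidef) (h : (C - B).PosSemidef) :
    (A * B).trace.re ≤ (A * C).trace.re := by
  have := trace_mul_nonneg hA h
  rw [Matrix.mul_sub, Matrix.trace_sub, Complex.sub_re] at this
  linarith

theorem trace_mul_mono_left (hA : A.PosSemidef) (h : (C - B).PosSemidef) :
    (B * A).trace.re ≤ (C * A).trace.re := by
  rw [Matrix.trace_mul_comm B, Matrix.trace_mul_comm C]
  exact trace_mul_mono_right hA h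

theorem posSemidef_trace_re_nonneg (hA : A.PosSemidef) : 0 ≤ A.trace.re :=
  (Complex.le_def.1 hA.trace_nonneg).1

theorem posSemidef_trace_re_pos (hA : A.PosSemidef) (h0 : A ≠ 0) : 0 < A.trace.re := by
  refine lt_of_le_of_ne (posSemidef_trace_re_nonneg hA) fun h => h0 ?_
  rw [← hA.trace_eq_zero_iff]
  apply Complex.ext
  · exact h.symm
  · exact (Complex.le_def.1 hA.trace_nonneg).2.symm

theorem trace_mul_pos (hA : A.PosDef) (hB : B.PosSemidef) (hB0 : B ≠ 0) :
    0 < (A * B).trace.re := by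
  obtain ⟨c, hc, hcA⟩ := exists_pos_smul_one_le hA
  have h1 := trace_mul_mono_left hB hcA
  rw [Matrix.smul_mul, Matrix.one_mul, Matrix.trace_smul, smul_eq_mul, Complex.re_ofReal_mul] at h1
  have h2 := posSemidef_trace_re_pos hB hB0
  have := mul_pos hc h2
  linarith

/-- `tr (A B) = 0` for positive semidefinite matrices forces `A B = 0`. -/
theorem mul_eq_zero_of_trace_mul (hA : A.PosSemidef) (hB : B.PosSemidef)
    (h : (A * B).trace.re = 0) : A * B = 0 := by
  obtain ⟨R, hR, hRR⟩ := exists_sqrt_posSemidef hA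
  obtain ⟨S, hS, hSS⟩ := exists_sqrt_posSemidef hB
  have h1 : (A * B).trace = ((R * S)ᴴ * (R * S)).trace := by
    rw [← hRR, ← hSS, Matrix.conjTranspose_mul, hR.isHermitian.eq, hS.isHermitian.eq]
    calc (R * R * (S * S)).trace = ((R * R * S) * S).trace := by simp only [Matrix.mul_assoc]
      _ = (S * (R * R * S)).trace := Matrix.trace_mul_comm _ _
      _ = _ := by simp only [Matrix.mul_assoc]
  have h2 : (A * B).trace = 0 := by
    apply Complex.ext
    · exact h
    · exact trace_mul_im hA.isHermitian hB.isHermitian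
  rw [h1, Matrix.trace_conjTranspose_mul_self_eq_zero_iff] at h2
  calc A * B = R * (R * S) * S := by rw [← hRR, ← hSS]; simp only [Matrix.mul_assoc]
    _ = 0 := by rw [h2, Matrix.mul_zero, Matrix.zero_mul]

theorem trace_inv_mul_nonneg (hH : H.PosDef) (hA : A.PosSemidef) : 0 ≤ (H⁻¹ * A).trace.re :=
  trace_mul_nonneg hH.inv.posSemidef hA

theorem trace_inv_mul_mono (hH : H.PosDef) (h : (B - A).PosSemidef) :
    (H⁻¹ * A).trace.re ≤ (H⁻¹ * B).trace.re :=
  trace_mul_mono_right hH.inv.posSemidef h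

theorem trace_inv_mul_self (hH : H.PosDef) : (H⁻¹ * H).trace.re = Fintype.card ι := by
  rw [Matrix.nonsing_inv_mul H (isUnit_iff_ne_zero.2 hH.det_pos.ne'), Matrix.trace_one]
  simp

/-- invariance of `tr_H A` under a change of frame. -/
theorem trace_inv_mul_conj {T : Matrix ι ι ℂ} (hT : T.det ≠ 0) (H A : Matrix ι ι ℂ) :
    ((Tᴴ * H * T)⁻¹ * (Tᴴ * A * T)).trace = (H⁻¹ * A).trace := by
  have hu : IsUnit T.det := isUnit_iff_ne_zero.2 hT
  have hu' : IsUnit Tᴴ.det := by
    rw [Matrix.det_conjTranspose]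
    exact hu.star
  rw [Matrix.mul_inv_rev, Matrix.mul_inv_rev]
  calc _ = (T⁻¹ * (H⁻¹ * ((Tᴴ)⁻¹ * Tᴴ) * A * T)).trace := by simp only [Matrix.mul_assoc]
    _ = (H⁻¹ * A * (T * T⁻¹)).trace := by
        rw [Matrix.trace_mul_comm, Matrix.nonsing_inv_mul _ hu', Matrix.mul_one]
        simp only [Matrix.mul_assoc]
    _ = _ := by rw [Matrix.mul_nonsing_inv _ hu, Matrix.mul_one]

/-- `A ≤ (tr_H A) H` for `A ≥ 0`. -/
theorem le_trace_smul (hH : H.PosDef) (hA : A.PosSemidef) :
    ((((H⁻¹ * A).trace.re : ℝ) : ℂ) • H - A).PosSemidef := by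
  obtain ⟨T, d, -, h1, hD⟩ := exists_simDiag hH hA.isHermitian
  have hd := (simDiag_posSemidef_iff h1 hD).1 hA
  rw [simDiag_le_iff h1 hD, simDiag_trace_re h1 hD]
  intro i
  exact Finset.single_le_sum (fun j _ => hd j) (Finset.mem_univ i)

theorem qf_le_trace_mul (hH : H.PosDef) (hA : A.PosSemidef) (v : ι → ℂ) :
    qf A v ≤ (H⁻¹ * A).trace.re * qf H v := by
  have := qf_mono (le_trace_smul hH hA) v
  rwa [qf_smul] at this

/-- `A ≤ c H ⇒ tr_H A ≤ n c`. -/
theorem trace_inv_mul_le_of_le (hH : H.PosDef) {c : ℝ} (h : (((c : ℝ) : ℂ) • H - A).PosSemidef) :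
    (H⁻¹ * A).trace.re ≤ Fintype.card ι * c := by
  have := trace_inv_mul_mono hH h
  rw [Matrix.mul_smul, Matrix.trace_smul, smul_eq_mul, Complex.re_ofReal_mul,
    trace_inv_mul_self hH] at this
  linarith

theorem abs_trace_inv_mul_le (hH : H.PosDef) {c : ℝ} (h₁ : (((c : ℝ) : ℂ) • H - A).PosSemidef)
    (h₂ : (A + ((c : ℝ) : ℂ) • H).PosSemidef) : |(H⁻¹ * A).trace.re| ≤ Fintype.card ι * c := by
  rw [abs_le]
  refine ⟨?_, trace_inv_mul_le_of_le hH h₁⟩
  have h₂' : (((c : ℝ) : ℂ) • H - (-A)).PosSemidef := by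
    rwa [sub_neg_eq_add, add_comm]
  have := trace_inv_mul_le_of_le hH h₂'
  rw [Matrix.mul_neg, Matrix.trace_neg, Complex.neg_re] at this
  linarith

end traces

/-! ## 6. inverse and determinant monotonicity -/

section mono

variable {A B H K : Matrix ι ι ℂ}

theorem posDef_det_re_pos (hA : A.PosDef) : 0 < A.det.re :=
  (Complex.lt_def.1 hA.det_pos).1

theorem posSemidef_det_re_nonneg (hA : A.PosSemidef) : 0 ≤ A.det.re :=
  (Complex.le_def.1 hA.det_nonneg).1

/-- `0 < A ≤ B ⇒ B⁻¹ ≤ A⁻¹`. -/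
theorem loewner_inv_anti (hA : A.PosDef) (h : (B - A).PosSemidef) : (A⁻¹ - B⁻¹).PosSemidef := by
  have hB : B.IsHermitian := isHermitian_of_loewner_left hA.isHermitian h
  obtain ⟨T, d, -, h1, hD⟩ := exists_simDiag hA hB
  have hd : ∀ i, 1 ≤ d i := by
    have := (simDiag_ge_iff h1 hD 1)
    rw [Complex.ofReal_one, one_smul] at this
    exact this.1 h
  have hd0 : ∀ i, d i ≠ 0 := fun i => (lt_of_lt_of_le one_pos (hd i)).ne'
  rw [simDiag_inv h1, simDiag_inv' h1 hD hd0]
  have e : T * Tᴴ - T * (Matrix.diagonal fun i => (((d i)⁻¹ : ℝ) : ℂ)) * Tᴴ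
      = T * (Matrix.diagonal fun i => ((1 - (d i)⁻¹ : ℝ) : ℂ)) * Tᴴ := by
    have : (Matrix.diagonal fun i => ((1 - (d i)⁻¹ : ℝ) : ℂ))
        = 1 - Matrix.diagonal fun i => (((d i)⁻¹ : ℝ) : ℂ) := by
      rw [← Matrix.diagonal_one, Matrix.diagonal_sub]
      congr 1
      funext i
      push_cast
      rfl
    rw [this, Matrix.mul_sub, Matrix.sub_mul, Matrix.mul_one]
  rw [e]
  refine Matrix.PosSemidef.mul_mul_conjTranspose_same (Matrix.PosSemidef.diagonal ?_) T
  intro i
  show (0 : ℂ) ≤ ((1 - (d i)⁻¹ : ℝ) : ℂ)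
  have : (d i)⁻¹ ≤ 1 := inv_le_one_of_one_le₀ (hd i)
  exact_mod_cast sub_nonneg.2 this

/-- `0 ≤ A ≤ B ⇒ det A ≤ det B`. -/
theorem loewner_det_mono (hA : A.PosSemidef) (h : (B - A).PosSemidef) : A.det.re ≤ B.det.re := by
  by_cases hA' : A.PosDef
  · have hB : B.IsHermitian := isHermitian_of_loewner_left hA.isHermitian h
    obtain ⟨T, d, -, h1, hD⟩ := exists_simDiag hA' hB
    have hd : ∀ i, 1 ≤ d i := by
      have := (simDiag_ge_iff h1 hD 1)
      rw [Complex.ofReal_one, one_smul] at this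
      exact this.1 h
    rw [simDiag_det_re h1 hD]
    have h2 : 1 ≤ ∏ i, d i := Finset.one_le_prod fun i _ => hd i
    have h3 := posDef_det_re_pos hA'
    nlinarith
  · rw [hA.posDef_iff_det_ne_zero, not_not] at hA'
    rw [hA', Complex.zero_re]
    exact posSemidef_det_re_nonneg (posSemidef_of_loewner hA h)

theorem le_prod_of_one_le {d : ι → ℝ} (hd : ∀ i, 1 ≤ d i) (i : ι) : d i ≤ ∏ j, d j := by
  rw [← Finset.mul_prod_erase Finset.univ d (Finset.mem_univ i)]
  have h2 : 1 ≤ ∏ j ∈ Finset.univ.erase i, d j := Finset.one_le_prod fun j _ => hd j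
  have := hd i
  nlinarith

/-- equality case of `loewner_det_mono`. -/
theorem eq_of_loewner_of_det_eq (hA : A.PosDef) (h : (B - A).PosSemidef)
    (hdet : A.det.re = B.det.re) : A = B := by
  have hB : B.IsHermitian := isHermitian_of_loewner_left hA.isHermitian h
  obtain ⟨T, d, -, h1, hD⟩ := exists_simDiag hA hB
  have hd : ∀ i, 1 ≤ d i := by
    have := (simDiag_ge_iff h1 hD 1)
    rw [Complex.ofReal_one, one_smul] at this
    exact this.1 h
  rw [simDiag_det_re h1 hD] at hdet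
  have h3 := posDef_det_re_pos hA
  have hprod : ∏ i, d i = 1 := by
    have : (∏ i, d i - 1) * A.det.re = 0 := by linarith
    rcases mul_eq_zero.1 this with h | h
    · linarith
    · exact absurd h h3.ne'
  have hd1 : ∀ i, d i = 1 := fun i =>
    le_antisymm (hprod ▸ le_prod_of_one_le hd i) (hd i)
  have e : Tᴴ * B * T = 1 := by
    rw [hD, ← Matrix.diagonal_one]
    congr 1
    funext i
    rw [hd1 i, Complex.ofReal_one]
  rw [simDiag_eq h1, simDiag_eq e]

/-- `0 < A ≤ B ⇒ B ≤ (det B / det A) A`: each eigenvalue of `B` relative to `A` is at most `det B / det A`. -/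
theorem le_det_ratio_smul (hA : A.PosDef) (h : (B - A).PosSemidef) :
    (((B.det.re / A.det.re : ℝ) : ℂ) • A - B).PosSemidef := by
  have hB : B.IsHermitian := isHermitian_of_loewner_left hA.isHermitian h
  obtain ⟨T, d, -, h1, hD⟩ := exists_simDiag hA hB
  have hd : ∀ i, 1 ≤ d i := by
    have := (simDiag_ge_iff h1 hD 1)
    rw [Complex.ofReal_one, one_smul] at this
    exact this.1 h
  rw [simDiag_le_iff h1 hD, simDiag_det_re h1 hD, mul_div_assoc,
    div_self (posDef_det_re_pos hA).ne', mul_one]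
  exact le_prod_of_one_le hd

/-- `0 < A ≤ B ⇒ (det A / det B) B ≤ A`. -/
theorem det_ratio_smul_le (hA : A.PosDef) (h : (B - A).PosSemidef) :
    (A - ((A.det.re / B.det.re : ℝ) : ℂ) • B).PosSemidef := by
  have hB := posDef_of_loewner hA h
  have a := posDef_det_re_pos hA
  have b := posDef_det_re_pos hB
  have := posSemidef_smul_real (div_pos a b).le (le_det_ratio_smul hA h)
  rw [smul_sub, smul_smul, ← Complex.ofReal_mul] at this
  have e : A.det.re / B.det.re * (B.det.re / A.det.re) = 1 := by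
    field_simp
  rwa [e, Complex.ofReal_one, one_smul] at this

/-- `tr_K A ≤ tr_H A` for `0 < H ≤ K`, `A ≥ 0`. -/
theorem trace_inv_mul_anti (hH : H.PosDef) (h : (K - H).PosSemidef) (hA : A.PosSemidef) :
    (K⁻¹ * A).trace.re ≤ (H⁻¹ * A).trace.re :=
  trace_mul_mono_left hA (loewner_inv_anti hH h)

theorem det_smul_real_re (c : ℝ) (H : Matrix ι ι ℂ) :
    (((c : ℝ) : ℂ) • H).det.re = c ^ Fintype.card ι * H.det.re := by
  rw [Matrix.det_smul, ← Complex.ofReal_pow, Complex.re_ofReal_mul]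

/-- `c H ≤ K ⇒ c^n det H ≤ det K` (`c ≥ 0`). -/
theorem pow_mul_det_le {c : ℝ} (hc : 0 ≤ c) (hH : H.PosDef)
    (h : (K - ((c : ℝ) : ℂ) • H).PosSemidef) : c ^ Fintype.card ι * H.det.re ≤ K.det.re := by
  rw [← det_smul_real_re]
  exact loewner_det_mono (posSemidef_smul_real hc hH.posSemidef) h

/-- `0 ≤ K ≤ c H ⇒ det K ≤ c^n det H`. -/
theorem det_le_pow_mul {c : ℝ} (hH : H.PosDef) (hK : K.PosSemidef)
    (h : (((c : ℝ) : ℂ) • H - K).PosSemidef) : K.det.re ≤ c ^ Fintype.card ι * H.det.re := by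
  rw [← det_smul_real_re]
  exact loewner_det_mono hK h

end mono

/-! ## 7. AM-GM and `log det` -/

section amgm

variable {H K : Matrix ι ι ℂ}

/-- AM-GM: `n (det K / det H)^{1/n} ≤ tr_H K`. -/
theorem amgm_det (hH : H.PosDef) (hK : K.PosSemidef) :
    (Fintype.card ι : ℝ) * (K.det.re / H.det.re) ^ ((Fintype.card ι : ℝ)⁻¹) ≤
      (H⁻¹ * K).trace.re := by
  obtain ⟨T, d, -, h1, hD⟩ := exists_simDiag hH hK.isHermitian
  have hd := (simDiag_posSemidef_iff h1 hD).1 hK
  rw [simDiag_trace_re h1 hD, simDiag_det_re h1 hD, mul_div_assoc,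
    div_self (posDef_det_re_pos hH).ne', mul_one]
  rcases isEmpty_or_nonempty ι with hι | hι
  · simp
  · have hn : (0 : ℝ) < Fintype.card ι := by exact_mod_cast Fintype.card_pos
    have := Real.geom_mean_le_arith_mean Finset.univ (fun _ => (1 : ℝ)) d (fun _ _ => zero_le_one)
      (by simpa using hn) (fun i _ => hd i)
    simp only [Real.rpow_one, Finset.sum_const, Finset.card_univ, nsmul_eq_mul, mul_one,
      one_mul] at this
    rw [le_div_iff₀ hn] at this
    linarith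

/-- `det K / det H ≤ (tr_H K / n)^n`. -/
theorem det_ratio_le_trace_pow (hH : H.PosDef) (hK : K.PosSemidef) :
    K.det.re / H.det.re ≤ ((H⁻¹ * K).trace.re / Fintype.card ι) ^ Fintype.card ι := by
  rcases isEmpty_or_nonempty ι with hι | hι
  · simp
  · have hn0 : Fintype.card ι ≠ 0 := Fintype.card_ne_zero
    have hn : (0 : ℝ) < Fintype.card ι := by exact_mod_cast Fintype.card_pos
    have h := amgm_det hH hK
    have hr : 0 ≤ K.det.re / H.det.re :=
      div_nonneg (posSemidef_det_re_nonneg hK) (posDef_det_re_pos hH).le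
    have h2 : (K.det.re / H.det.re) ^ ((Fintype.card ι : ℝ)⁻¹) ≤
        (H⁻¹ * K).trace.re / Fintype.card ι := by
      rw [le_div_iff₀ hn]
      linarith
    have h3 := pow_le_pow_left₀ (Real.rpow_nonneg hr _) h2 (Fintype.card ι)
    rwa [Real.rpow_inv_natCast_pow hr hn0] at h3

/-- `log (det K / det H) ≤ tr_H K - n`. -/
theorem log_det_ratio_le (hH : H.PosDef) (hK : K.PosDef) :
    Real.log (K.det.re / H.det.re) ≤ (H⁻¹ * K).trace.re - Fintype.card ι := by
  obtain ⟨T, d, -, h1, hD⟩ := exists_simDiag hH hK.isHermitian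
  have hd := (simDiag_posDef_iff h1 hD).1 hK
  rw [simDiag_trace_re h1 hD, simDiag_det_re h1 hD, mul_div_assoc,
    div_self (posDef_det_re_pos hH).ne', mul_one, Real.log_prod fun i _ => (hd i).ne']
  have : (Fintype.card ι : ℝ) = ∑ _i : ι, (1 : ℝ) := by simp
  rw [this, ← Finset.sum_sub_distrib]
  exact Finset.sum_le_sum fun i _ => Real.log_le_sub_one_of_pos (hd i)

theorem log_det_ratio_eq_iff (hH : H.PosDef) (hK : K.PosDef) :
    Real.log (K.det.re / H.det.re) = (H⁻¹ * K).trace.re - Fintype.card ι ↔ K = H := by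
  constructor
  · intro h
    obtain ⟨T, d, -, h1, hD⟩ := exists_simDiag hH hK.isHermitian
    have hd := (simDiag_posDef_iff h1 hD).1 hK
    rw [simDiag_trace_re h1 hD, simDiag_det_re h1 hD, mul_div_assoc,
      div_self (posDef_det_re_pos hH).ne', mul_one, Real.log_prod fun i _ => (hd i).ne'] at h
    have hc : (Fintype.card ι : ℝ) = ∑ _i : ι, (1 : ℝ) := by simp
    rw [hc, ← Finset.sum_sub_distrib] at h
    have h0 : ∑ i, (d i - 1 - Real.log (d i)) = 0 := by
      rw [Finset.sum_sub_distrib, h, sub_self]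
    have h2 := (Finset.sum_eq_zero_iff_of_nonneg fun i _ =>
      sub_nonneg.2 (Real.log_le_sub_one_of_pos (hd i))).1 h0
    have hd1 : ∀ i, d i = 1 := by
      intro i
      by_contra hne
      have := Real.log_lt_sub_one_of_pos (hd i) hne
      have := h2 i (Finset.mem_univ i)
      linarith
    have e : Tᴴ * K * T = 1 := by
      rw [hD, ← Matrix.diagonal_one]
      congr 1
      funext i
      rw [hd1 i, Complex.ofReal_one]
    rw [simDiag_eq h1, simDiag_eq e]
  · rintro rfl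
    rw [trace_inv_mul_self hH, div_self (posDef_det_re_pos hH).ne', Real.log_one, sub_self]

theorem sum_prod_erase_le_pow {α : Type} [DecidableEq α] (s : Finset α) (μ : α → ℝ)
    (hμ : ∀ i ∈ s, 0 ≤ μ i) :
    ∑ i ∈ s, ∏ j ∈ s.erase i, μ j ≤ (∑ i ∈ s, μ i) ^ (s.card - 1) ∧
      ∏ i ∈ s, μ i ≤ (∑ i ∈ s, μ i) ^ s.card := by
  induction s using Finset.induction_on with
  | empty => simp
  | insert a s ha ih =>
    have hμs : ∀ i ∈ s, 0 ≤ μ i := fun i hi => hμ i (Finset.mem_insert_of_mem hi)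
    have hμa : 0 ≤ μ a := hμ a (Finset.mem_insert_self a s)
    obtain ⟨ih1, ih2⟩ := ih hμs
    have hS : 0 ≤ ∑ i ∈ s, μ i := Finset.sum_nonneg hμs
    have hP : 0 ≤ ∏ i ∈ s, μ i := Finset.prod_nonneg hμs
    set S := ∑ i ∈ s, μ i with hSdef
    set P := ∏ i ∈ s, μ i with hPdef
    have e1 : ∑ i ∈ insert a s, ∏ j ∈ (insert a s).erase i, μ j
        = P + μ a * ∑ i ∈ s, ∏ j ∈ s.erase i, μ j := by
      rw [Finset.sum_insert ha, Finset.erase_insert ha, Finset.mul_sum]
      congr 1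
      refine Finset.sum_congr rfl fun i hi => ?_
      have hia : i ≠ a := fun h => ha (h ▸ hi)
      rw [Finset.erase_insert_of_ne hia.symm, Finset.prod_insert]
      intro h
      exact ha (Finset.mem_of_mem_erase h)
    rw [e1, Finset.sum_insert ha, Finset.prod_insert ha, Finset.card_insert_of_notMem ha,
      Nat.add_sub_cancel]
    constructor
    · -- P + μ a * E ≤ (μ a + S) ^ card s
      rcases Nat.eq_zero_or_pos s.card with h0 | hpos
      · have hs : s = ∅ := Finset.card_eq_zero.1 h0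
        subst hs
        simp [hPdef]
      · obtain ⟨m, hm⟩ : ∃ m, s.card = m + 1 := ⟨s.card - 1, by omega⟩
        rw [hm] at ih2 ⊢
        rw [hm, Nat.add_sub_cancel] at ih1
        have h3 : S ^ (m + 1) + μ a * S ^ m ≤ (μ a + S) ^ (m + 1) := by
          have h4 : S ^ m ≤ (μ a + S) ^ m := pow_le_pow_left₀ hS (by linarith) m
          have h5 : 0 ≤ S ^ m := pow_nonneg hS m
          calc S ^ (m + 1) + μ a * S ^ m = (μ a + S) * S ^ m := by ring
            _ ≤ (μ a + S) * (μ a + S) ^ m := mul_le_mul_of_nonneg_left h4 (by linarith)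
            _ = (μ a + S) ^ (m + 1) := by ring
        have h6 := mul_le_mul_of_nonneg_left ih1 hμa
        linarith
    · -- μ a * P ≤ (μ a + S) ^ (card s + 1)
      have h4 : S ^ s.card ≤ (μ a + S) ^ s.card := pow_le_pow_left₀ hS (by linarith) _
      have h5 : 0 ≤ (μ a + S) ^ s.card := pow_nonneg (by linarith) _
      calc μ a * P ≤ μ a * (μ a + S) ^ s.card :=
            mul_le_mul_of_nonneg_left (ih2.trans h4) hμa
        _ ≤ (μ a + S) * (μ a + S) ^ s.card := mul_le_mul_of_nonneg_right (by linarith) h5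
        _ = (μ a + S) ^ (s.card + 1) := by ring

/-- `tr_K H ≤ (tr_H K)^{n-1} det H / det K` (the standard trace reversal, up to the constant `1`). -/
theorem trace_inv_mul_le_pow (hH : H.PosDef) (hK : K.PosDef) :
    (K⁻¹ * H).trace.re ≤
      (H⁻¹ * K).trace.re ^ (Fintype.card ι - 1) * (H.det.re / K.det.re) := by
  obtain ⟨T, d, -, h1, hD⟩ := exists_simDiag hH hK.isHermitian
  have hd := (simDiag_posDef_iff h1 hD).1 hK
  have hd0 : ∀ i, d i ≠ 0 := fun i => (hd i).ne'
  have hdet := posDef_det_re_pos hH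
  have hprod : 0 < ∏ i, d i := Finset.prod_pos fun i _ => hd i
  rw [simDiag_trace_inv_mul h1 hD hd0, h1, simDiag_trace_re h1 hD, simDiag_det_re h1 hD]
  have e1 : H.det.re / ((∏ i, d i) * H.det.re) = (∏ i, d i)⁻¹ := by
    field_simp
  rw [e1]
  have e2 : (∑ i, (((d i)⁻¹ : ℝ) : ℂ) * (1 : Matrix ι ι ℂ) i i).re = ∑ i, (d i)⁻¹ := by
    simp
  rw [e2, ← div_eq_mul_inv, le_div_iff₀ hprod, Finset.sum_mul]
  refine le_trans (le_of_eq ?_) (sum_prod_erase_le_pow Finset.univ d fun i _ => (hd i).le).1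
  refine Finset.sum_congr rfl fun i _ => ?_
  rw [← Finset.mul_prod_erase Finset.univ d (Finset.mem_univ i), ← mul_assoc,
    inv_mul_cancel₀ (hd0 i), one_mul]

end amgm

/-! ## 8. the cofactor inequality -/

section cofactor

variable {h g B : Matrix ι ι ℂ}

/-- `flow:cofactor`: `0 < h ≤ g`, `-b g ≤ B ≤ b g` imply `|tr_h B| det h ≤ n b det g`. -/
theorem cofactor_ineq (hh : h.PosDef) (hle : (g - h).PosSemidef) {b : ℝ}
    (h₁ : (((b : ℝ) : ℂ) • g - B).PosSemidef) (h₂ : (B + ((b : ℝ) : ℂ) • g).PosSemidef) :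
    |(h⁻¹ * B).trace.re| * h.det.re ≤ Fintype.card ι * b * g.det.re := by
  have hg : g.PosDef := posDef_of_loewner hh hle
  obtain ⟨T, μ, -, h1, hD⟩ := exists_simDiag hg hh.isHermitian
  have hμ := (simDiag_posDef_iff h1 hD).1 hh
  have hμ0 : ∀ i, μ i ≠ 0 := fun i => (hμ i).ne'
  have hμ1 : ∀ i, μ i ≤ 1 := by
    have := (simDiag_le_iff h1 hD 1)
    rw [Complex.ofReal_one, one_smul] at this
    exact this.1 hle
  have hdet := posDef_det_re_pos hg
  -- diagonal entries of `Tᴴ B T`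
  have c1 : ∀ i, ((Tᴴ * B * T) i i).re ≤ b := by
    intro i
    have := loewner_diag_le (loewner_conj h₁ T) i
    rw [Matrix.mul_smul, Matrix.smul_mul, h1] at this
    simpa using this
  have c2 : ∀ i, -b ≤ ((Tᴴ * B * T) i i).re := by
    intro i
    have h₂' : (B - (((-b : ℝ)) : ℂ) • g).PosSemidef := by
      rwa [Complex.ofReal_neg, neg_smul, sub_neg_eq_add]
    have := loewner_diag_le (loewner_conj h₂' T) i
    rw [Matrix.mul_smul, Matrix.smul_mul, h1] at this
    simpa using this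
  rw [simDiag_trace_inv_mul h1 hD hμ0, simDiag_det_re h1 hD, ← mul_assoc]
  refine mul_le_mul_of_nonneg_right ?_ hdet.le
  have hprod : 0 < ∏ i, μ i := Finset.prod_pos fun i _ => hμ i
  have e : (∑ i, (((μ i)⁻¹ : ℝ) : ℂ) * (Tᴴ * B * T) i i).re
      = ∑ i, (μ i)⁻¹ * ((Tᴴ * B * T) i i).re := by
    simp only [Complex.re_sum, Complex.re_ofReal_mul]
  rw [e, ← abs_of_pos hprod, ← abs_mul, Finset.sum_mul]
  refine (Finset.abs_sum_le_sum_abs _ _).trans ?_
  have : (Fintype.card ι : ℝ) * b = ∑ _i : ι, b := by simp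
  rw [this]
  refine Finset.sum_le_sum fun i _ => ?_
  have e2 : (μ i)⁻¹ * ((Tᴴ * B * T) i i).re * ∏ j, μ j
      = ((Tᴴ * B * T) i i).re * ∏ j ∈ Finset.univ.erase i, μ j := by
    rw [← Finset.mul_prod_erase Finset.univ μ (Finset.mem_univ i)]
    field_simp [hμ0 i]
  rw [e2, abs_mul]
  have p0 : 0 ≤ ∏ j ∈ Finset.univ.erase i, μ j := Finset.prod_nonneg fun j _ => (hμ j).le
  have p1 : ∏ j ∈ Finset.univ.erase i, μ j ≤ 1 :=
    Finset.prod_le_one (fun j _ => (hμ j).le) fun j _ => hμ1 j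
  rw [abs_of_nonneg p0]
  have hb : |((Tᴴ * B * T) i i).re| ≤ b := abs_le.2 ⟨c2 i, c1 i⟩
  have hb0 : 0 ≤ b := (abs_nonneg _).trans hb
  calc _ ≤ b * 1 := mul_le_mul hb p1 p0 hb0
    _ = b := mul_one b

end cofactor

/-! ## 9. transposes, the dual norm -/

section dual

variable {A H K : Matrix ι ι ℂ}

theorem transpose_eq_map_conj (hA : A.IsHermitian) : Aᵀ = A.map conj := by
  ext i j
  rw [Matrix.transpose_apply, Matrix.map_apply, ← hA.apply j i]
  rfl

theorem posSemidef_map_conj (hA : A.PosSemidef) : (A.map conj).PosSemidef := by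
  rw [← transpose_eq_map_conj hA.isHermitian]
  exact hA.transpose

theorem posDef_map_conj (hA : A.PosDef) : (A.map conj).PosDef := by
  rw [← transpose_eq_map_conj hA.isHermitian]
  exact hA.transpose

theorem inv_transpose (H : Matrix ι ι ℂ) : (H⁻¹)ᵀ = (Hᵀ)⁻¹ :=
  Matrix.transpose_nonsing_inv H

theorem posDef_inv_transpose (hH : H.PosDef) : ((H⁻¹)ᵀ).PosDef :=
  hH.inv.transpose

theorem loewner_transpose (h : (K - H).PosSemidef) : (Kᵀ - Hᵀ).PosSemidef := by
  rw [← Matrix.transpose_sub]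
  exact h.transpose

/-- `tr (Pᵀ K) = ∑_{jk} P_{jk} K_{jk}`. -/
theorem trace_transpose_mul (P K : Matrix ι ι ℂ) : (Pᵀ * K).trace = ∑ j, ∑ k, P j k * K j k := by
  simp only [Matrix.trace, Matrix.diag_apply, Matrix.mul_apply, Matrix.transpose_apply]
  exact Finset.sum_comm

theorem qf_inv_mulVec (hH : H.PosDef) (u : ι → ℂ) : qf H (H⁻¹ *ᵥ u) = qf H⁻¹ u := by
  rw [← qf_conj, hH.inv.isHermitian.eq,
    Matrix.nonsing_inv_mul H (isUnit_iff_ne_zero.2 hH.det_pos.ne'), Matrix.one_mul]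

/-- the dual norm is attained: `v = H⁻¹ \bar ξ`. -/
theorem dual_attained (hH : H.PosDef) (ξ : ι → ℂ) :
    qf H (H⁻¹ *ᵥ star ξ) = qf (H⁻¹)ᵀ ξ ∧
      ∑ k, ξ k * (H⁻¹ *ᵥ star ξ) k = ((qf (H⁻¹)ᵀ ξ : ℝ) : ℂ) := by
  refine ⟨by rw [qf_inv_mulVec hH, qf_transpose], ?_⟩
  rw [qf_transpose, qf_ofReal _ hH.inv.isHermitian, star_star]
  rfl

/-- Cauchy-Schwarz between a covector `ξ` and a vector `v`. -/
theorem dual_cauchy_schwarz (hH : H.PosDef) (ξ v : ι → ℂ) :
    ‖∑ k, ξ k * v k‖ ^ 2 ≤ qf (H⁻¹)ᵀ ξ * qf H v := by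
  have h := qf_cauchy_schwarz hH.posSemidef (H⁻¹ *ᵥ star ξ) v
  rw [(dual_attained hH ξ).1] at h
  have e : star (H⁻¹ *ᵥ star ξ) ⬝ᵥ (H *ᵥ v) = ∑ k, ξ k * v k := by
    rw [Matrix.star_mulVec, star_star, hH.inv.isHermitian.eq, Matrix.dotProduct_mulVec,
      Matrix.vecMul_vecMul, Matrix.nonsing_inv_mul H (isUnit_iff_ne_zero.2 hH.det_pos.ne'),
      Matrix.vecMul_one]
    rfl
  rwa [e] at h

/-- `H ≤ K ⇒ |ξ|²_{K} ≤ |ξ|²_{H}` for covectors. -/
theorem qf_inv_transpose_anti (hH : H.PosDef) (h : (K - H).PosSemidef) (ξ : ι → ℂ) :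
    qf (K⁻¹)ᵀ ξ ≤ qf (H⁻¹)ᵀ ξ := by
  rw [qf_transpose, qf_transpose]
  exact qf_mono (loewner_inv_anti hH h) _

/-- invariance of the dual norm: covectors transform by `ξ ↦ Tᵀ ξ`. -/
theorem qf_inv_transpose_conj {T : Matrix ι ι ℂ} (hT : T.det ≠ 0) (H : Matrix ι ι ℂ) (ξ : ι → ℂ) :
    qf ((Tᴴ * H * T)⁻¹)ᵀ (Tᵀ *ᵥ ξ) = qf (H⁻¹)ᵀ ξ := by
  have hu : IsUnit T.det := isUnit_iff_ne_zero.2 hT
  have hu' : IsUnit Tᴴ.det := by
    rw [Matrix.det_conjTranspose]
    exact hu.star
  have e1 : star (Tᵀ *ᵥ ξ) = Tᴴ *ᵥ star ξ := by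
    funext i
    simp [Matrix.mulVec, dotProduct, Matrix.conjTranspose_apply]
  have e2 : (Tᴴ * H * T)⁻¹ = ((Tᴴ)⁻¹)ᴴ * H⁻¹ * (Tᴴ)⁻¹ := by
    rw [Matrix.mul_inv_rev, Matrix.mul_inv_rev, Matrix.conjTranspose_nonsing_inv,
      Matrix.conjTranspose_conjTranspose, Matrix.mul_assoc]
  rw [qf_transpose, qf_transpose, e1, e2, qf_conj, Matrix.mulVec_mulVec,
    Matrix.nonsing_inv_mul _ hu', Matrix.one_mulVec]

/-- `tr_H (\bar ξ_j ξ_k) = |ξ|²_H`. -/
theorem trace_inv_mul_rankOne (H : Matrix ι ι ℂ) (ξ : ι → ℂ) :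
    (H⁻¹ * Matrix.of fun j k => conj (ξ j) * ξ k).trace.re = qf (H⁻¹)ᵀ ξ := by
  rw [qf_transpose, qf_eq_trace, star_star]
  rfl

end dual

/-! ## 10. Schur complements -/

section schur

variable {A A' : Matrix ι ι ℂ} {B B' : Matrix ι κ ℂ} {C C' : Matrix κ κ ℂ}

/-- completing the square. -/
theorem schur_qf (hC : C.PosDef) (A : Matrix ι ι ℂ) (B : Matrix ι κ ℂ) (x : ι → ℂ) (y : κ → ℂ) :
    qf (Matrix.fromBlocks A B Bᴴ C) (Sum.elim x y) =
      qf (A - B * C⁻¹ * Bᴴ) x + qf C (y + (C⁻¹ * Bᴴ) *ᵥ x) := by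
  have : Invertible C := hC.isUnit.invertible
  have := Matrix.schur_complement_eq₂₂ A B x y hC.isHermitian
  simp only [qf, Matrix.dotProduct_mulVec]
  rw [this, Complex.add_re, add_comm, add_comm y]

theorem schur_qf_le (hC : C.PosDef) (A : Matrix ι ι ℂ) (B : Matrix ι κ ℂ) (x : ι → ℂ)
    (y : κ → ℂ) :
    qf (A - B * C⁻¹ * Bᴴ) x ≤ qf (Matrix.fromBlocks A B Bᴴ C) (Sum.elim x y) := by
  rw [schur_qf hC]
  have := qf_nonneg hC.posSemidef (y + (C⁻¹ * Bᴴ) *ᵥ x)
  linarith

theorem schur_qf_attained (hC : C.PosDef) (A : Matrix ι ι ℂ) (B : Matrix ι κ ℂ) (x : ι → ℂ) :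
    qf (Matrix.fromBlocks A B Bᴴ C) (Sum.elim x (-((C⁻¹ * Bᴴ) *ᵥ x))) =
      qf (A - B * C⁻¹ * Bᴴ) x := by
  rw [schur_qf hC, neg_add_cancel, qf_zero_vec, add_zero]

theorem schur_posSemidef_iff (hC : C.PosDef) (A : Matrix ι ι ℂ) (B : Matrix ι κ ℂ) :
    (Matrix.fromBlocks A B Bᴴ C).PosSemidef ↔ (A - B * C⁻¹ * Bᴴ).PosSemidef := by
  have : Invertible C := hC.isUnit.invertible
  exact Matrix.PosDef.fromBlocks₂₂ A B hC

theorem schur_posDef_iff (hC : C.PosDef) (A : Matrix ι ι ℂ) (B : Matrix ι κ ℂ) :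
    (Matrix.fromBlocks A B Bᴴ C).PosDef ↔ (A - B * C⁻¹ * Bᴴ).PosDef := by
  have hH := Matrix.IsHermitian.fromBlocks₂₂ A B hC.isHermitian
  constructor
  · intro h
    rw [posDef_iff_qf (hH.1 h.isHermitian)]
    intro x hx
    rw [← schur_qf_attained hC]
    refine qf_pos h fun h0 => hx ?_
    funext i
    simpa using congrFun h0 (Sum.inl i)
  · intro h
    rw [posDef_iff_qf (hH.2 h.isHermitian)]
    intro v hv
    rw [← Sum.elim_comp_inl_inr v, schur_qf hC]
    by_cases hx : v ∘ Sum.inl = 0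
    · have hy : v ∘ Sum.inr ≠ 0 := by
        intro hy
        apply hv
        rw [← Sum.elim_comp_inl_inr v, hx, hy]
        funext i
        cases i <;> rfl
      rw [hx, qf_zero_vec, Matrix.mulVec_zero, add_zero, zero_add]
      exact qf_pos hC hy
    · have h1 := qf_pos h hx
      have h2 := qf_nonneg hC.posSemidef (v ∘ Sum.inr + (C⁻¹ * Bᴴ) *ᵥ (v ∘ Sum.inl))
      linarith

theorem schur_isHermitian (hA : A.IsHermitian) (hC : C.IsHermitian) (B : Matrix ι κ ℂ) :
    (A - B * C⁻¹ * Bᴴ).IsHermitian :=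
  hA.sub (Matrix.isHermitian_mul_mul_conjTranspose B hC.inv)

/-- blocks of a positive semidefinite / definite matrix. -/
theorem posSemidef_toBlocks₁₁ {M : Matrix (ι ⊕ κ) (ι ⊕ κ) ℂ} (hM : M.PosSemidef) :
    M.toBlocks₁₁.PosSemidef :=
  hM.submatrix Sum.inl

theorem posSemidef_toBlocks₂₂ {M : Matrix (ι ⊕ κ) (ι ⊕ κ) ℂ} (hM : M.PosSemidef) :
    M.toBlocks₂₂.PosSemidef :=
  hM.submatrix Sum.inr

theorem posDef_toBlocks₁₁ {M : Matrix (ι ⊕ κ) (ι ⊕ κ) ℂ} (hM : M.PosDef) :
    M.toBlocks₁₁.PosDef :=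
  hM.submatrix Sum.inl_injective

theorem posDef_toBlocks₂₂ {M : Matrix (ι ⊕ κ) (ι ⊕ κ) ℂ} (hM : M.PosDef) :
    M.toBlocks₂₂.PosDef :=
  hM.submatrix Sum.inr_injective

theorem toBlocks₂₁_eq_conjTranspose {M : Matrix (ι ⊕ κ) (ι ⊕ κ) ℂ} (hM : M.IsHermitian) :
    M.toBlocks₂₁ = M.toBlocks₁₂ᴴ := by
  ext i j
  exact (hM.apply (Sum.inr i) (Sum.inl j)).symm

/-- monotonicity of the Schur complement. -/
theorem schur_mono (hC : C.PosDef) (hC' : C'.PosDef)
    (h : (Matrix.fromBlocks A' B' B'ᴴ C' - Matrix.fromBlocks A B Bᴴ C).PosSemidef) :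
    ((A' - B' * C'⁻¹ * B'ᴴ) - (A - B * C⁻¹ * Bᴴ)).PosSemidef := by
  have hAA : (A' - A).IsHermitian := by
    have := (posSemidef_toBlocks₁₁ h).isHermitian
    have e : (Matrix.fromBlocks A' B' B'ᴴ C' - Matrix.fromBlocks A B Bᴴ C).toBlocks₁₁ = A' - A := by
      ext i j
      rfl
    rwa [e] at this
  have hherm : ((A' - B' * C'⁻¹ * B'ᴴ) - (A - B * C⁻¹ * Bᴴ)).IsHermitian := by
    have e : (A' - B' * C'⁻¹ * B'ᴴ) - (A - B * C⁻¹ * Bᴴ)
        = (A' - A) - B' * C'⁻¹ * B'ᴴ + B * C⁻¹ * Bᴴ := by abel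
    rw [e]
    exact (hAA.sub (Matrix.isHermitian_mul_mul_conjTranspose B' hC'.isHermitian.inv)).add
      (Matrix.isHermitian_mul_mul_conjTranspose B hC.isHermitian.inv)
  rw [posSemidef_iff_qf hherm]
  intro x
  rw [qf_sub, sub_nonneg, ← schur_qf_attained hC' A' B' x]
  exact (schur_qf_le hC A B x _).trans (qf_mono h _)

end schur

/-! ## 11. Frobenius norm; positive and negative parts -/

section clip

/-- squared Frobenius (Hilbert-Schmidt) norm. -/
noncomputable def frobSq (A : Matrix ι κ ℂ) : ℝ := ∑ j, ∑ k, ‖A j k‖ ^ 2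

theorem frobSq_nonneg (A : Matrix ι κ ℂ) : 0 ≤ frobSq A :=
  Finset.sum_nonneg fun _ _ => Finset.sum_nonneg fun _ _ => sq_nonneg _

theorem frobSq_eq_trace (A : Matrix ι κ ℂ) : frobSq A = (Aᴴ * A).trace.re := by
  simp only [frobSq, Matrix.trace, Matrix.diag_apply, Matrix.mul_apply,
    Matrix.conjTranspose_apply, Complex.re_sum]
  rw [Finset.sum_comm]
  refine Finset.sum_congr rfl fun k _ => Finset.sum_congr rfl fun j _ => ?_
  rw [Complex.star_def, ← Complex.normSq_eq_conj_mul_self, Complex.ofReal_re,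
    Complex.normSq_eq_norm_sq]

theorem norm_entry_sq_le_frobSq (A : Matrix ι κ ℂ) (j : ι) (k : κ) : ‖A j k‖ ^ 2 ≤ frobSq A := by
  have h1 : ‖A j k‖ ^ 2 ≤ ∑ k', ‖A j k'‖ ^ 2 :=
    Finset.single_le_sum (f := fun k' => ‖A j k'‖ ^ 2) (fun _ _ => sq_nonneg _) (Finset.mem_univ k)
  have h2 : ∑ k', ‖A j k'‖ ^ 2 ≤ frobSq A :=
    Finset.single_le_sum (f := fun j' => ∑ k', ‖A j' k'‖ ^ 2)
      (fun _ _ => Finset.sum_nonneg fun _ _ => sq_nonneg _) (Finset.mem_univ j)
  exact h1.trans h2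

theorem frobSq_eq_zero_iff (A : Matrix ι κ ℂ) : frobSq A = 0 ↔ A = 0 := by
  constructor
  · intro h
    ext j k
    have := norm_entry_sq_le_frobSq A j k
    rw [h] at this
    have h2 : ‖A j k‖ ^ 2 = 0 := le_antisymm this (sq_nonneg _)
    simpa using h2
  · rintro rfl
    simp [frobSq]

theorem frobSq_neg (A : Matrix ι κ ℂ) : frobSq (-A) = frobSq A := by
  simp [frobSq]

theorem frobSq_of_isHermitian {A : Matrix ι ι ℂ} (hA : A.IsHermitian) :
    frobSq A = (A * A).trace.re := by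
  rw [frobSq_eq_trace, hA.eq]

open Classical in
/-- positive part `A₊` of a Hermitian matrix (`0` for a non Hermitian one). -/
noncomputable def posPartM (A : Matrix ι ι ℂ) : Matrix ι ι ℂ :=
  if hA : A.IsHermitian then
    (exists_unitary_diag hA).choose *
      (Matrix.diagonal fun i => ((max ((exists_unitary_diag hA).choose_spec.choose i) 0 : ℝ) : ℂ)) *
      ((exists_unitary_diag hA).choose)ᴴ
  else 0

/-- negative part `A₋ = (-A)₊ ≥ 0`. -/
noncomputable def negPartM (A : Matrix ι ι ℂ) : Matrix ι ι ℂ := posPartM (-A)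

variable {A B P N : Matrix ι ι ℂ}

/-- the key inequality behind uniqueness and the Lipschitz bound. -/
theorem clip_lip {P N P' N' : Matrix ι ι ℂ} (hP : P.PosSemidef) (hN : N.PosSemidef)
    (hP' : P'.PosSemidef) (hN' : N'.PosSemidef) (hPN : P * N = 0) (hPN' : P' * N' = 0) :
    frobSq (P - P') ≤ frobSq ((P - N) - (P' - N')) := by
  have hX : (P - P').IsHermitian := hP.isHermitian.sub hP'.isHermitian
  have hY : (N - N').IsHermitian := hN.isHermitian.sub hN'.isHermitian
  have e : (P - N) - (P' - N') = (P - P') - (N - N') := by abel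
  rw [e, frobSq_of_isHermitian hX, frobSq_of_isHermitian (hX.sub hY)]
  have h1 : (((P - P') - (N - N')) * ((P - P') - (N - N'))).trace.re
      = ((P - P') * (P - P')).trace.re + ((N - N') * (N - N')).trace.re
        - 2 * ((P - P') * (N - N')).trace.re := by
    have : ((P - P') - (N - N')) * ((P - P') - (N - N'))
        = (P - P') * (P - P') + (N - N') * (N - N') - (P - P') * (N - N')
          - (N - N') * (P - P') := by
      noncomm_ring
    rw [this, Matrix.trace_sub, Matrix.trace_sub, Matrix.trace_add,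
      Matrix.trace_mul_comm (N - N') (P - P')]
    simp only [Complex.sub_re, Complex.add_re]
    ring
  have h2 : ((P - P') * (N - N')).trace.re = - (P * N').trace.re - (P' * N).trace.re := by
    have : (P - P') * (N - N') = P * N - P * N' - P' * N + P' * N' := by
      noncomm_ring
    rw [this, hPN, hPN']
    simp only [Matrix.trace_sub, Matrix.trace_add, Matrix.trace_zero, Complex.sub_re,
      Complex.add_re, Complex.zero_re]
    ring
  have h3 := trace_mul_nonneg hP hN'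
  have h4 := trace_mul_nonneg hP' hN
  have h5 : 0 ≤ ((N - N') * (N - N')).trace.re := by
    rw [← frobSq_of_isHermitian hY]
    exact frobSq_nonneg _
  rw [h1, h2]
  linarith

theorem clip_unique {P N P' N' : Matrix ι ι ℂ} (hP : P.PosSemidef) (hN : N.PosSemidef)
    (hP' : P'.PosSemidef) (hN' : N'.PosSemidef) (hPN : P * N = 0) (hPN' : P' * N' = 0)
    (h : P - N = P' - N') : P = P' := by
  have := clip_lip hP hN hP' hN' hPN hPN'
  rw [h, sub_self] at this
  have h0 : frobSq (0 : Matrix ι ι ℂ) = 0 := (frobSq_eq_zero_iff _).2 rfl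
  rw [h0] at this
  exact sub_eq_zero.1 ((frobSq_eq_zero_iff _).1 (le_antisymm this (frobSq_nonneg _)))

/-- the spectral clipping of a diagonalised matrix. -/
theorem clip_diag {U : Matrix ι ι ℂ} {d : ι → ℝ} (h1 : Uᴴ * U = 1) (h2 : U * Uᴴ = 1)
    (h3 : Uᴴ * A * U = Matrix.diagonal fun i => ((d i : ℝ) : ℂ)) :
    (U * (Matrix.diagonal fun i => ((max (d i) 0 : ℝ) : ℂ)) * Uᴴ).PosSemidef ∧
    (U * (Matrix.diagonal fun i => ((max (-d i) 0 : ℝ) : ℂ)) * Uᴴ).PosSemidef ∧
    U * (Matrix.diagonal fun i => ((max (d i) 0 : ℝ) : ℂ)) * Uᴴ -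
      U * (Matrix.diagonal fun i => ((max (-d i) 0 : ℝ) : ℂ)) * Uᴴ = A ∧
    (U * (Matrix.diagonal fun i => ((max (d i) 0 : ℝ) : ℂ)) * Uᴴ) *
      (U * (Matrix.diagonal fun i => ((max (-d i) 0 : ℝ) : ℂ)) * Uᴴ) = 0 := by
  refine ⟨?_, ?_, ?_, ?_⟩
  · refine Matrix.PosSemidef.mul_mul_conjTranspose_same (Matrix.PosSemidef.diagonal ?_) U
    intro i
    show (0 : ℂ) ≤ ((max (d i) 0 : ℝ) : ℂ)
    exact_mod_cast le_max_right _ _
  · refine Matrix.PosSemidef.mul_mul_conjTranspose_same (Matrix.PosSemidef.diagonal ?_) U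
    intro i
    show (0 : ℂ) ≤ ((max (-d i) 0 : ℝ) : ℂ)
    exact_mod_cast le_max_right _ _
  · rw [← Matrix.sub_mul, ← Matrix.mul_sub, Matrix.diagonal_sub, eq_of_unitary_diag h2 h3]
    congr 3
    funext i
    rw [← Complex.ofReal_sub]
    congr 1
    rcases le_total 0 (d i) with h | h
    · rw [max_eq_left h, max_eq_right (by linarith)]
      ring
    · rw [max_eq_right h, max_eq_left (by linarith)]
      ring
  · calc _ = U * ((Matrix.diagonal fun i => ((max (d i) 0 : ℝ) : ℂ)) * (Uᴴ * U) *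
          (Matrix.diagonal fun i => ((max (-d i) 0 : ℝ) : ℂ))) * Uᴴ := by
          simp only [Matrix.mul_assoc]
      _ = U * 0 * Uᴴ := by
          rw [h1, Matrix.mul_one, Matrix.diagonal_mul_diagonal]
          congr 2
          rw [← Matrix.diagonal_zero]
          congr 1
          funext i
          rw [← Complex.ofReal_mul]
          rcases le_total 0 (d i) with h | h
          · rw [max_eq_right (a := -d i) (by linarith)]
            simp
          · rw [max_eq_right h]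
            simp
      _ = 0 := by rw [Matrix.mul_zero, Matrix.zero_mul]

theorem posPartM_of_not_isHermitian (hA : ¬ A.IsHermitian) : posPartM A = 0 := by
  rw [posPartM, dif_neg hA]

theorem exists_clip (hA : A.IsHermitian) :
    (posPartM A).PosSemidef ∧ ∃ N : Matrix ι ι ℂ, N.PosSemidef ∧ posPartM A - N = A ∧
      posPartM A * N = 0 := by
  have hs := (exists_unitary_diag hA).choose_spec.choose_spec
  have := clip_diag hs.1 hs.2.1 hs.2.2
  rw [posPartM, dif_pos hA]
  exact ⟨this.1, _, this.2.1, this.2.2.1, this.2.2.2⟩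

theorem posPartM_posSemidef (A : Matrix ι ι ℂ) : (posPartM A).PosSemidef := by
  by_cases hA : A.IsHermitian
  · exact (exists_clip hA).1
  · rw [posPartM_of_not_isHermitian hA]
    exact Matrix.PosSemidef.zero

theorem negPartM_posSemidef (A : Matrix ι ι ℂ) : (negPartM A).PosSemidef :=
  posPartM_posSemidef _

theorem posPartM_eq (hP : P.PosSemidef) (hN : N.PosSemidef) (hPN : P * N = 0) :
    posPartM (P - N) = P := by
  obtain ⟨h1, N', h2, h3, h4⟩ := exists_clip (hP.isHermitian.sub hN.isHermitian)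
  exact clip_unique h1 h2 hP hN h4 hPN h3

/-- uniqueness of the orthogonal decomposition. -/
theorem posPartM_unique (hP : P.PosSemidef) (hN : N.PosSemidef) (hPN : P * N = 0) :
    posPartM (P - N) = P ∧ negPartM (P - N) = N := by
  refine ⟨posPartM_eq hP hN hPN, ?_⟩
  have hNP : N * P = 0 := by
    have := congrArg Matrix.conjTranspose hPN
    rwa [Matrix.conjTranspose_mul, hP.isHermitian.eq, hN.isHermitian.eq,
      Matrix.conjTranspose_zero] at this
  rw [negPartM, neg_sub]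
  exact posPartM_eq hN hP hNP

theorem negPartM_spec (hA : A.IsHermitian) :
    posPartM A - negPartM A = A ∧ posPartM A * negPartM A = 0 := by
  obtain ⟨h1, N', h2, h3, h4⟩ := exists_clip hA
  have := (posPartM_unique h1 h2 h4).2
  rw [h3] at this
  rw [this]
  exact ⟨h3, h4⟩

theorem posPartM_sub_negPartM (hA : A.IsHermitian) : posPartM A - negPartM A = A :=
  (negPartM_spec hA).1

theorem posPartM_mul_negPartM (A : Matrix ι ι ℂ) : posPartM A * negPartM A = 0 := by
  by_cases hA : A.IsHermitian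
  · exact (negPartM_spec hA).2
  · rw [posPartM_of_not_isHermitian hA, Matrix.zero_mul]

theorem negPartM_mul_posPartM (A : Matrix ι ι ℂ) : negPartM A * posPartM A = 0 := by
  have := congrArg Matrix.conjTranspose (posPartM_mul_negPartM A)
  rwa [Matrix.conjTranspose_mul, (posPartM_posSemidef A).isHermitian.eq,
    (negPartM_posSemidef A).isHermitian.eq, Matrix.conjTranspose_zero] at this

theorem posPartM_of_posSemidef (hA : A.PosSemidef) : posPartM A = A := by
  have := posPartM_eq hA Matrix.PosSemidef.zero (Matrix.mul_zero A)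
  rwa [sub_zero] at this

theorem negPartM_of_posSemidef (hA : A.PosSemidef) : negPartM A = 0 := by
  have := (posPartM_unique hA Matrix.PosSemidef.zero (Matrix.mul_zero A)).2
  rwa [sub_zero] at this

theorem mul_negPartM (hA : A.IsHermitian) : A * negPartM A = -(negPartM A * negPartM A) := by
  have e : A * negPartM A = (posPartM A - negPartM A) * negPartM A := by
    rw [posPartM_sub_negPartM hA]
  rw [e, Matrix.sub_mul, posPartM_mul_negPartM, zero_sub]

theorem mul_posPartM (hA : A.IsHermitian) : A * posPartM A = posPartM A * posPartM A := by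
  have e : A * posPartM A = (posPartM A - negPartM A) * posPartM A := by
    rw [posPartM_sub_negPartM hA]
  rw [e, Matrix.sub_mul, negPartM_mul_posPartM, sub_zero]

/-- `tr (A S²) = - tr (S³)` for `S = A₋`. -/
theorem trace_mul_negPartM_sq (hA : A.IsHermitian) :
    (A * (negPartM A * negPartM A)).trace = -(negPartM A * negPartM A * negPartM A).trace := by
  rw [← Matrix.mul_assoc, mul_negPartM hA, Matrix.neg_mul, Matrix.trace_neg]

theorem le_posPartM (hA : A.IsHermitian) : (posPartM A - A).PosSemidef := by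
  have e : posPartM A - A = negPartM A := by
    have := posPartM_sub_negPartM hA
    rw [sub_eq_iff_eq_add] at this ⊢
    rw [this]
    abel
  rw [e]
  exact negPartM_posSemidef A

theorem neg_negPartM_le (hA : A.IsHermitian) : (A + negPartM A).PosSemidef := by
  have e : A + negPartM A = posPartM A := by
    have := posPartM_sub_negPartM hA
    rw [sub_eq_iff_eq_add] at this
    exact this.symm
  rw [e]
  exact posPartM_posSemidef A

/-- the parts in any diagonalising frame. -/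
theorem posPartM_eq_of_diag {U : Matrix ι ι ℂ} {d : ι → ℝ} (h1 : Uᴴ * U = 1) (h2 : U * Uᴴ = 1)
    (h3 : Uᴴ * A * U = Matrix.diagonal fun i => ((d i : ℝ) : ℂ)) :
    posPartM A = U * (Matrix.diagonal fun i => ((max (d i) 0 : ℝ) : ℂ)) * Uᴴ ∧
      negPartM A = U * (Matrix.diagonal fun i => ((max (-d i) 0 : ℝ) : ℂ)) * Uᴴ := by
  obtain ⟨c1, c2, c3, c4⟩ := clip_diag h1 h2 h3
  have := posPartM_unique c1 c2 c4
  rwa [c3] at this

/-- `A ≤ c ⇒ A₊ ≤ c` (`c ≥ 0`). -/
theorem posPartM_le {c : ℝ} (hc : 0 ≤ c)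
    (h : (((c : ℝ) : ℂ) • (1 : Matrix ι ι ℂ) - A).PosSemidef) :
    (((c : ℝ) : ℂ) • (1 : Matrix ι ι ℂ) - posPartM A).PosSemidef := by
  have hA : A.IsHermitian :=
    isHermitian_of_loewner_right (isHermitian_smul_real c Matrix.isHermitian_one) h
  obtain ⟨U, d, h1, h2, h3⟩ := exists_unitary_diag hA
  have h1' : Uᴴ * 1 * U = 1 := by rw [Matrix.mul_one, h1]
  have hd := (simDiag_le_iff h1' h3 c).1 h
  have h3' : Uᴴ * posPartM A * U = Matrix.diagonal fun i => (((fun i => max (d i) 0) i : ℝ) : ℂ) := by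
    rw [(posPartM_eq_of_diag h1 h2 h3).1]
    calc _ = (Uᴴ * U) * (Matrix.diagonal fun i => ((max (d i) 0 : ℝ) : ℂ)) * (Uᴴ * U) := by
          simp only [Matrix.mul_assoc]
      _ = _ := by rw [h1, Matrix.one_mul, Matrix.mul_one]
  rw [simDiag_le_iff h1' h3' c]
  exact fun i => max_le (hd i) hc

/-- `-c ≤ A ⇒ A₋ ≤ c` (`c ≥ 0`). -/
theorem negPartM_le {c : ℝ} (hc : 0 ≤ c)
    (h : (A + ((c : ℝ) : ℂ) • (1 : Matrix ι ι ℂ)).PosSemidef) :
    (((c : ℝ) : ℂ) • (1 : Matrix ι ι ℂ) - negPartM A).PosSemidef := by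
  refine posPartM_le hc ?_
  rwa [sub_neg_eq_add, add_comm]

/-- **matrix clipping is `1`-Lipschitz in the Frobenius norm**. -/
theorem frobSq_posPartM_sub_le (hA : A.IsHermitian) (hB : B.IsHermitian) :
    frobSq (posPartM A - posPartM B) ≤ frobSq (A - B) := by
  have := clip_lip (posPartM_posSemidef A) (negPartM_posSemidef A) (posPartM_posSemidef B)
    (negPartM_posSemidef B) (posPartM_mul_negPartM A) (posPartM_mul_negPartM B)
  rwa [posPartM_sub_negPartM hA, posPartM_sub_negPartM hB] at this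

theorem frobSq_negPartM_sub_le (hA : A.IsHermitian) (hB : B.IsHermitian) :
    frobSq (negPartM A - negPartM B) ≤ frobSq (A - B) := by
  have := frobSq_posPartM_sub_le hA.neg hB.neg
  have e : -A - -B = -(A - B) := by abel
  rwa [e, frobSq_neg] at this

theorem frobSq_posPartM_le (hA : A.IsHermitian) : frobSq (posPartM A) ≤ frobSq A := by
  have := frobSq_posPartM_sub_le hA (Matrix.isHermitian_zero (n := ι) (α := ℂ))
  rwa [posPartM_of_posSemidef Matrix.PosSemidef.zero, sub_zero, sub_zero] at this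

theorem frobSq_negPartM_le (hA : A.IsHermitian) : frobSq (negPartM A) ≤ frobSq A := by
  have := frobSq_posPartM_le hA.neg
  rwa [frobSq_neg] at this

/-- `A₋ = 0` iff `A ≥ 0`. -/
theorem negPartM_eq_zero_iff (hA : A.IsHermitian) : negPartM A = 0 ↔ A.PosSemidef := by
  constructor
  · intro h
    have := posPartM_sub_negPartM hA
    rw [h, sub_zero] at this
    rw [← this]
    exact posPartM_posSemidef A
  · exact negPartM_of_posSemidef

end clip

end Claimed.Agent.R316
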