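import Claimed.Agent.R316.CW.Integral
import Claimed.Agent.R316.Pack004

/-!
# Row 316, G6-ChartGreen: the divergence free cofactor identity and Green's identities in one chart

Statement file written by helper55 (sub-captain BP-G6).

`H : CE ι → Matrix ι ι ℂ` is the matrix of a Kaehler metric in a chart `U` (column convention:
`h_{k \bar j} = H j k`), `ClosedAt H z` is the Kaehler condition `∂_l H_{jk} = ∂_k H_{jl}`.

* `sum_dz_cofactor`: `∑_k ∂_k (det H · H⁻¹_{kj}) = 0`.
  Proof: `dz_det'`, `dz_inv_apply` (CW/MatFun): `∂_k(det H · H⁻¹_{kj}) = det H [tr(H⁻¹∂_kH) H⁻¹_{kj} - (H⁻¹ ∂_kH H⁻¹)_{kj}]`;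
  sum over `k`, expand, use `∂_k H_{ab} = ∂_b H_{ak}` in the second term and rename the indices.
* `sum_dz_det_mul_gradV`: for `Y^k = det H ∑_j H⁻¹_{kj} conj (∂_j f)`: `∑_k ∂_k Y^k = det H · tr (H⁻¹ levi f)`.
* Green: `∫ φ ∑_k ∂_k Y^k = - ∑_k ∫ ∂_k φ Y^k` (`setIntegral_dz_mul(_of_lipschitz)`), take real parts;
  `Re ∑_{k,j} ∂_kφ H⁻¹_{kj} conj(∂_j f) = dualIP H (∂f) (∂φ)`.
-/

set_option autoImplicit false
set_option linter.unusedSectionVars false
open scoped ContDiff ComplexOrder ComplexConjugate Topology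
open MeasureTheory

namespace Claimed.Agent.R316

variable {ι : Type} [Fintype ι] [DecidableEq ι]

/-- the Kaehler condition at a point, for a matrix function in a chart. -/
def ClosedAt (H : CE ι → Matrix ι ι ℂ) (z : CE ι) : Prop :=
  ∀ j k l, dz l (fun w => H w j k) z = dz k (fun w => H w j l) z

/-- the `(1,0)`-gradient vector `X^k = ∑_j H⁻¹_{kj} conj (∂_j f)` of a real function. -/
noncomputable def gradV (H : CE ι → Matrix ι ι ℂ) (f : CE ι → ℝ) (z : CE ι) (k : ι) : ℂ :=
  ∑ j, (H z)⁻¹ k j * conj (grad10 f z j)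

section pointwise

variable {H : CE ι → Matrix ι ι ℂ} {f : CE ι → ℝ} {z : CE ι}

/-- **divergence free cofactor identity**. -/
theorem sum_dz_cofactor (hH : ∀ j k, DifferentiableAt ℝ (fun w => H w j k) z)
    (h0 : (H z).det ≠ 0) (hcl : ClosedAt H z) (j : ι) :
    ∑ k, dz k (fun w => (H w).det * (H w)⁻¹ k j) z = 0 := by
  have hdet := differentiableAt_det hH
  have hinv := fun a b => differentiableAt_matInv hH h0 a b
  have e : ∀ k, dz k (fun w => (H w).det * (H w)⁻¹ k j) z = (H z).det *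
      ((∑ a, ∑ b, (H z)⁻¹ b a * dz k (fun w => H w a b) z) * (H z)⁻¹ k j
        - ∑ a, ∑ b, ((H z)⁻¹ k a * (H z)⁻¹ b j) * dz k (fun w => H w a b) z) := by
    intro k
    rw [dz_mul hdet (hinv k j), dz_det' hH h0, dz_inv_apply hH h0, matFun_trace_mul,
      matFun_triple_apply]
    simp only [dzM_apply]
    ring
  simp only [e]
  rw [← Finset.mul_sum, Finset.sum_sub_distrib]
  have key : ∑ k, (∑ a, ∑ b, (H z)⁻¹ b a * dz k (fun w => H w a b) z) * (H z)⁻¹ k j =
      ∑ k, ∑ a, ∑ b, ((H z)⁻¹ k a * (H z)⁻¹ b j) * dz k (fun w => H w a b) z := by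
    rw [matFun_sum_comm3 (fun k a b => ((H z)⁻¹ k a * (H z)⁻¹ b j) * dz k (fun w => H w a b) z)]
    refine Finset.sum_congr rfl fun k _ => ?_
    rw [Finset.sum_mul]
    refine Finset.sum_congr rfl fun a _ => ?_
    rw [Finset.sum_mul]
    refine Finset.sum_congr rfl fun b _ => ?_
    rw [hcl a k b]
    ring
  rw [key, sub_self, mul_zero]

/-- conjugate form. -/
theorem sum_dzb_cofactor (hH : ∀ j k, DifferentiableAt ℝ (fun w => H w j k) z)
    (hh : ∀ᶠ w in 𝓝 z, (H w).IsHermitian) (h0 : (H z).det ≠ 0) (hcl : ClosedAt H z) (k : ι) :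
    ∑ j, dzb j (fun w => (H w).det * (H w)⁻¹ k j) z = 0 := by
  have h1 := sum_dz_cofactor hH h0 hcl k
  have e : ∀ j, dzb j (fun w => (H w).det * (H w)⁻¹ k j) z =
      conj (dz j (fun w => (H w).det * (H w)⁻¹ j k) z) := by
    intro j
    rw [← dzb_conj]
    refine dzb_congr ?_
    filter_upwards [hh] with w hw
    rw [map_mul]
    have a1 : conj (H w).det = (H w).det := by
      rw [← ofReal_det_re_of_isHermitian hw, Complex.conj_ofReal]
    have a2 : conj ((H w)⁻¹ j k) = (H w)⁻¹ k j := hw.inv.apply k j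
    rw [a1, a2]
  simp only [e]
  rw [← map_sum, h1, map_zero]

/-- `∑_k ∂_k (det H · X^k) = det H · tr (H⁻¹ levi f)` for the gradient vector `X` of `f`. -/
theorem sum_dz_det_mul_gradV (hH : ∀ j k, DifferentiableAt ℝ (fun w => H w j k) z)
    (h0 : (H z).det ≠ 0) (hcl : ClosedAt H z) (hf : ContDiffAt ℝ 2 f z) :
    ∑ k, dz k (fun w => (H w).det * gradV H f w k) z = (H z).det * ((H z)⁻¹ * levi f z).trace := by
  have hfc : ContDiffAt ℝ 2 (fun w => ((f w : ℝ) : ℂ)) z := contDiffAt_ofReal hf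
  have hg : ∀ j, DifferentiableAt ℝ (dzb j (fun w => ((f w : ℝ) : ℂ))) z := fun j =>
    (contDiffAt_dzb (m := 1) hfc (by norm_num)).differentiableAt one_ne_zero
  have hc : ∀ k j, DifferentiableAt ℝ (fun w => (H w).det * (H w)⁻¹ k j) z := fun k j =>
    (differentiableAt_det hH).mul (differentiableAt_matInv hH h0 k j)
  have e : ∀ k, dz k (fun w => (H w).det * gradV H f w k) z =
      ∑ j, (dz k (fun w => (H w).det * (H w)⁻¹ k j) z * dzb j (fun w => ((f w : ℝ) : ℂ)) z
        + (H z).det * ((H z)⁻¹ k j * levi f z j k)) := by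
    intro k
    have e1 : (fun w => (H w).det * gradV H f w k) =
        fun w => ∑ j, ((H w).det * (H w)⁻¹ k j) * dzb j (fun w => ((f w : ℝ) : ℂ)) w := by
      funext w
      simp only [gradV, Finset.mul_sum, dzb_ofReal_eq_grad10, mul_assoc]
    rw [e1, dz_sum Finset.univ
      (fun j w => ((H w).det * (H w)⁻¹ k j) * dzb j (fun w => ((f w : ℝ) : ℂ)) w)
      (fun j _ => (hc k j).mul (hg j))]
    refine Finset.sum_congr rfl fun j _ => ?_
    rw [dz_mul (hc k j) (hg j), dz_dzb_comm hfc, mul_assoc]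
    rfl
  simp only [e, Finset.sum_add_distrib]
  rw [Finset.sum_comm]
  simp only [← Finset.sum_mul, sum_dz_cofactor hH h0 hcl, zero_mul, Finset.sum_const_zero, zero_add]
  simp only [Matrix.trace, Matrix.diag_apply, Matrix.mul_apply, Finset.mul_sum]

/-- the pairing of a cotangent column with the gradient vector. -/
theorem re_sum_mul_gradV (H : CE ι → Matrix ι ι ℂ) (f : CE ι → ℝ) (z : CE ι) (ξ : ι → ℂ) :
    (∑ k, ξ k * gradV H f z k).re = dualIP (H z) (grad10 f z) ξ := by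
  rw [dualIP_eq_sum, Finset.sum_comm]
  congr 1
  refine Finset.sum_congr rfl fun k _ => ?_
  rw [gradV, Finset.mul_sum]
  refine Finset.sum_congr rfl fun j _ => ?_
  ring

theorem contDiffOn_gradV {U : Set (CE ι)} (hU : IsOpen U)
    (hH : ∀ j k, ContDiffOn ℝ 1 (fun w => H w j k) U) (h0 : ∀ w ∈ U, (H w).det ≠ 0)
    (hf : ContDiffOn ℝ 2 f U) (k : ι) : ContDiffOn ℝ 1 (fun w => gradV H f w k) U := by
  unfold gradV
  refine ContDiffOn.sum fun j _ => (contDiffOn_matInv hH h0 k j).mul ?_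
  intro w hw
  have h1 : ContDiffAt ℝ 1 (dzb j (fun y => ((f y : ℝ) : ℂ))) w :=
    contDiffAt_dzb (contDiffAt_ofReal (hf.contDiffAt (hU.mem_nhds hw))) (by norm_num)
  have e : (fun y => conj (grad10 f y j)) = dzb j (fun y => ((f y : ℝ) : ℂ)) := by
    funext y
    exact (dzb_ofReal_eq_grad10 f).symm
  rw [e]
  exact h1.contDiffWithinAt

end pointwise

section green

variable {U K : Set (CE ι)} {H : CE ι → Matrix ι ι ℂ} {φ f : CE ι → ℝ}

theorem cg_contDiffOn_Y (hU : IsOpen U) (hH : ∀ j k, ContDiffOn ℝ 1 (fun w => H w j k) U)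
    (hpd : ∀ w ∈ U, (H w).PosDef) (hf : ContDiffOn ℝ 2 f U) (k : ι) :
    ContDiffOn ℝ 1 (fun w => (H w).det * gradV H f w k) U :=
  (contDiffOn_det hH).mul
    (contDiffOn_gradV hU hH (fun w hw => det_ne_zero_of_posDef (hpd w hw)) hf k)

/-- assembly: the integration by parts for every component gives Green's identity. -/
theorem cg_assemble (hU : IsOpen U)
    (hH : ∀ j k, ContDiffOn ℝ 1 (fun w => H w j k) U) (hpd : ∀ w ∈ U, (H w).PosDef)
    (hcl : ∀ w ∈ U, ClosedAt H w) (hf : ContDiffOn ℝ 2 f U)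
    (hi1 : ∀ k, IntegrableOn
      (fun w => dz k (fun y => ((φ y : ℝ) : ℂ)) w * ((H w).det * gradV H f w k)) U)
    (hi2 : ∀ k, IntegrableOn
      (fun w => ((φ w : ℝ) : ℂ) * dz k (fun y => (H y).det * gradV H f y k) w) U)
    (hibp : ∀ k, ∫ w in U, dz k (fun y => ((φ y : ℝ) : ℂ)) w * ((H w).det * gradV H f w k)
       = - ∫ w in U, ((φ w : ℝ) : ℂ) * dz k (fun y => (H y).det * gradV H f y k) w) :
    ∫ w in U, φ w * lapP (H w) f w * (H w).det.re
      = - ∫ w in U, dualIP (H w) (grad10 φ w) (grad10 f w) * (H w).det.re := by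
  have hs : ∫ w in U, ∑ k, dz k (fun y => ((φ y : ℝ) : ℂ)) w * ((H w).det * gradV H f w k)
      = - ∫ w in U, ∑ k, ((φ w : ℝ) : ℂ) * dz k (fun y => (H y).det * gradV H f y k) w := by
    rw [integral_finsetSum _ (fun k _ => hi1 k), integral_finsetSum _ (fun k _ => hi2 k),
      ← Finset.sum_neg_distrib]
    exact Finset.sum_congr rfl fun k _ => hibp k
  have hI1 : IntegrableOn
      (fun w => ∑ k, dz k (fun y => ((φ y : ℝ) : ℂ)) w * ((H w).det * gradV H f w k)) U :=
    integrable_finsetSum _ fun k _ => hi1 k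
  have hI2 : IntegrableOn
      (fun w => ∑ k, ((φ w : ℝ) : ℂ) * dz k (fun y => (H y).det * gradV H f y k) w) U :=
    integrable_finsetSum _ fun k _ => hi2 k
  have hre := congrArg Complex.reCLM hs
  rw [map_neg, ← Complex.reCLM.integral_comp_comm hI1, ← Complex.reCLM.integral_comp_comm hI2]
    at hre
  have e1 : ∫ w in U, Complex.reCLM
        (∑ k, dz k (fun y => ((φ y : ℝ) : ℂ)) w * ((H w).det * gradV H f w k))
      = ∫ w in U, dualIP (H w) (grad10 φ w) (grad10 f w) * (H w).det.re :=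
    setIntegral_congr_fun hU.measurableSet fun w hw => by
      show (∑ k, dz k (fun y => ((φ y : ℝ) : ℂ)) w * ((H w).det * gradV H f w k)).re = _
      have e : ∑ k, dz k (fun y => ((φ y : ℝ) : ℂ)) w * ((H w).det * gradV H f w k) =
          (((H w).det.re : ℝ) : ℂ) * ∑ k, grad10 φ w k * gradV H f w k := by
        rw [ofReal_det_re_of_posDef (hpd w hw), Finset.mul_sum]
        refine Finset.sum_congr rfl fun k _ => ?_
        rw [grad10_apply]
        ring
      rw [e, Complex.re_ofReal_mul, re_sum_mul_gradV, dualIP_comm (hpd w hw).isHermitian, mul_comm]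
  have e2 : ∫ w in U, Complex.reCLM
        (∑ k, ((φ w : ℝ) : ℂ) * dz k (fun y => (H y).det * gradV H f y k) w)
      = ∫ w in U, φ w * lapP (H w) f w * (H w).det.re :=
    setIntegral_congr_fun hU.measurableSet fun w hw => by
      show (∑ k, ((φ w : ℝ) : ℂ) * dz k (fun y => (H y).det * gradV H f y k) w).re = _
      rw [← Finset.mul_sum, sum_dz_det_mul_gradV
        (fun j k => ((hH j k).contDiffAt (hU.mem_nhds hw)).differentiableAt one_ne_zero)
        (det_ne_zero_of_posDef (hpd w hw)) (hcl w hw) (hf.contDiffAt (hU.mem_nhds hw)),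
        ← ofReal_det_re_of_posDef (hpd w hw), Complex.re_ofReal_mul, Complex.re_ofReal_mul, lapP,
        Complex.ofReal_re]
      ring
  rw [e1, e2] at hre
  linarith

theorem cg_integrableOn_dz_lip_mul (hU : IsOpen U) (hK : IsCompact K) (hKU : K ⊆ U)
    (hφ : LocallyLipschitzOn U φ) (h0 : ∀ w ∈ U, w ∉ K → φ w = 0) {g : CE ι → ℂ}
    (hg : ContinuousOn g U) (k : ι) :
    IntegrableOn (fun w => dz k (fun y => ((φ y : ℝ) : ℂ)) w * g w) U := by
  obtain ⟨C, hC⟩ := exists_bound_dz_of_locallyLipschitzOn hU hK hKU hφ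
  have h0' : ∀ z ∈ U, z ∉ K → (fun w => ((φ w : ℝ) : ℂ)) z = 0 := fun z hz hzK => by
    simp [h0 z hz hzK]
  have h1 : IntegrableOn (fun w => dz k (fun y => ((φ y : ℝ) : ℂ)) w * g w) K := by
    have hgK : IntegrableOn g K := (hg.mono hKU).integrableOn_compact hK
    exact hgK.bdd_mul (c := C) (measurable_dz _ k).aestronglyMeasurable
      ((ae_restrict_iff' hK.measurableSet).2 (Filter.Eventually.of_forall fun w hw => hC w hw k))
  have h2 : IntegrableOn (fun w => dz k (fun y => ((φ y : ℝ) : ℂ)) w * g w) (U \ K) :=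
    (integrableOn_zero (μ := volume) (s := U \ K)).congr_fun
      (fun w hw => by
        show (0 : ℂ) = dz k (fun y => ((φ y : ℝ) : ℂ)) w * g w
        rw [ci_dz_zero hU hK h0' k w hw.1 hw.2, zero_mul])
      (hU.measurableSet.diff hK.measurableSet)
  have h3 := h1.union h2
  rwa [Set.union_sdiff_cancel hKU] at h3

theorem cg_locallyLipschitzOn (hU : IsOpen U) (hφ : ContDiffOn ℝ 1 φ U) :
    LocallyLipschitzOn U φ := by
  intro x hx
  obtain ⟨L, t, ht, hL⟩ := (hφ.contDiffAt (hU.mem_nhds hx)).exists_lipschitzOnWith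
  exact ⟨L, t, mem_nhdsWithin_of_mem_nhds ht, hL⟩

/-- **Green I in a chart**, locally Lipschitz test function `φ` vanishing on `U \ K`. -/
theorem chart_green_of_lipschitz (hU : IsOpen U) (hK : IsCompact K) (hKU : K ⊆ U)
    (hH : ∀ j k, ContDiffOn ℝ 1 (fun w => H w j k) U) (hpd : ∀ w ∈ U, (H w).PosDef)
    (hcl : ∀ w ∈ U, ClosedAt H w) (hφ : LocallyLipschitzOn U φ)
    (h0 : ∀ w ∈ U, w ∉ K → φ w = 0) (hf : ContDiffOn ℝ 2 f U) :
    ∫ w in U, φ w * lapP (H w) f w * (H w).det.re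
      = - ∫ w in U, dualIP (H w) (grad10 φ w) (grad10 f w) * (H w).det.re := by
  have hY := fun k => cg_contDiffOn_Y hU hH hpd hf k
  refine cg_assemble hU hH hpd hcl hf
    (fun k => cg_integrableOn_dz_lip_mul hU hK hKU hφ h0 (hY k).continuousOn k)
    (fun k => integrableOn_of_continuousOn_of_compact hU hK hKU
      ((Complex.continuous_ofReal.comp_continuousOn hφ.continuousOn).mul
        (ci_continuousOn_dz hU (hY k) k))
      (fun w hw hwK => by rw [h0 w hw hwK]; simp))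
    (fun k => setIntegral_dz_mul_of_lipschitz hU hK hKU hφ (hY k) h0 k)

/-- **Green I in a chart**, `C¹` test function. -/
theorem chart_green (hU : IsOpen U) (hK : IsCompact K) (hKU : K ⊆ U)
    (hH : ∀ j k, ContDiffOn ℝ 1 (fun w => H w j k) U) (hpd : ∀ w ∈ U, (H w).PosDef)
    (hcl : ∀ w ∈ U, ClosedAt H w) (hφ : ContDiffOn ℝ 1 φ U)
    (h0 : ∀ w ∈ U, w ∉ K → φ w = 0) (hf : ContDiffOn ℝ 2 f U) :
    ∫ w in U, φ w * lapP (H w) f w * (H w).det.re
      = - ∫ w in U, dualIP (H w) (grad10 φ w) (grad10 f w) * (H w).det.re := by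
  exact chart_green_of_lipschitz hU hK hKU hH hpd hcl (cg_locallyLipschitzOn hU hφ) h0 hf

/-- **Green I in a chart**, the function under the Laplacian has compact support. -/
theorem chart_green' (hU : IsOpen U) (hK : IsCompact K) (hKU : K ⊆ U)
    (hH : ∀ j k, ContDiffOn ℝ 1 (fun w => H w j k) U) (hpd : ∀ w ∈ U, (H w).PosDef)
    (hcl : ∀ w ∈ U, ClosedAt H w) (hφ : ContDiffOn ℝ 2 φ U)
    (h0 : ∀ w ∈ U, w ∉ K → φ w = 0) (hf : ContDiffOn ℝ 1 f U) :
    ∫ w in U, f w * lapP (H w) φ w * (H w).det.re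
      = - ∫ w in U, dualIP (H w) (grad10 f w) (grad10 φ w) * (H w).det.re := by
  have hY := fun k => cg_contDiffOn_Y hU hH hpd hφ k
  have h0' : ∀ z ∈ U, z ∉ K → (fun w => ((φ w : ℝ) : ℂ)) z = 0 := fun z hz hzK => by
    simp [h0 z hz hzK]
  have hY0 : ∀ k, ∀ w ∈ U, w ∉ K → (fun w => (H w).det * gradV H φ w k) w = 0 := by
    intro k w hw hwK
    have : gradV H φ w k = 0 := by
      unfold gradV
      refine Finset.sum_eq_zero fun j _ => ?_
      rw [grad10_apply, ci_dz_zero hU hK h0' j w hw hwK]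
      simp
    show (H w).det * gradV H φ w k = 0
    rw [this, mul_zero]
  have hfc : ContDiffOn ℝ 1 (fun w => ((f w : ℝ) : ℂ)) U := contDiffOn_ofReal hf
  refine cg_assemble hU hH hpd hcl hφ
    (fun k => integrableOn_of_continuousOn_of_compact hU hK hKU
      ((ci_continuousOn_dz hU hfc k).mul (hY k).continuousOn)
      (fun w hw hwK => by
        have := hY0 k w hw hwK
        simp only at this
        rw [this, mul_zero]))
    (fun k => integrableOn_of_continuousOn_of_compact hU hK hKU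
      (hfc.continuousOn.mul (ci_continuousOn_dz hU (hY k) k))
      (fun w hw hwK => by rw [ci_dz_zero hU hK (hY0 k) k w hw hwK, mul_zero]))
    (fun k => ?_)
  have h1 := setIntegral_dz_mul hU hK hKU (hY k) hfc (hY0 k) k
  have a : (fun w => dz k (fun y => ((f y : ℝ) : ℂ)) w * ((H w).det * gradV H φ w k)) =
      fun w => ((H w).det * gradV H φ w k) * dz k (fun y => ((f y : ℝ) : ℂ)) w :=
    funext fun w => mul_comm _ _
  have b : (fun w => ((f w : ℝ) : ℂ) * dz k (fun y => (H y).det * gradV H φ y k) w) =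
      fun w => dz k (fun y => (H y).det * gradV H φ y k) w * ((f w : ℝ) : ℂ) :=
    funext fun w => mul_comm _ _
  rw [a, b, h1, neg_neg]

/-- **Green II in a chart**. -/
theorem chart_green_symm (hU : IsOpen U) (hK : IsCompact K) (hKU : K ⊆ U)
    (hH : ∀ j k, ContDiffOn ℝ 1 (fun w => H w j k) U) (hpd : ∀ w ∈ U, (H w).PosDef)
    (hcl : ∀ w ∈ U, ClosedAt H w) (hφ : ContDiffOn ℝ 2 φ U)
    (h0 : ∀ w ∈ U, w ∉ K → φ w = 0) (hf : ContDiffOn ℝ 2 f U) :
    ∫ w in U, φ w * lapP (H w) f w * (H w).det.re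
      = ∫ w in U, f w * lapP (H w) φ w * (H w).det.re := by
  rw [chart_green hU hK hKU hH hpd hcl (hφ.of_le (by norm_num)) h0 hf,
    chart_green' hU hK hKU hH hpd hcl hφ h0 (hf.of_le (by norm_num))]
  congr 1
  refine setIntegral_congr_fun hU.measurableSet fun w hw => ?_
  show dualIP (H w) (grad10 φ w) (grad10 f w) * (H w).det.re =
    dualIP (H w) (grad10 f w) (grad10 φ w) * (H w).det.re
  rw [dualIP_comm (hpd w hw).isHermitian]

/-- `∫ Δφ dV = 0` in a chart. -/
theorem chart_integral_lapP_eq_zero (hU : IsOpen U) (hK : IsCompact K) (hKU : K ⊆ U)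
    (hH : ∀ j k, ContDiffOn ℝ 1 (fun w => H w j k) U) (hpd : ∀ w ∈ U, (H w).PosDef)
    (hcl : ∀ w ∈ U, ClosedAt H w) (hφ : ContDiffOn ℝ 2 φ U)
    (h0 : ∀ w ∈ U, w ∉ K → φ w = 0) :
    ∫ w in U, lapP (H w) φ w * (H w).det.re = 0 := by
  have h1 := chart_green' (f := fun _ => (1 : ℝ)) hU hK hKU hH hpd hcl hφ h0 contDiffOn_const
  simp only [one_mul, grad10_const, dualIP_zero_left, zero_mul, integral_zero, neg_zero] at h1
  exact h1

end green

end Claimed.Agent.R316
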