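import Claimed.Agent.R316.Pack004

/-!
# Row 316, CW-5: real Jacobian, change of variables, integration by parts on `CE ι`

Statement file written by helper55.  `volume` on `CE ι = EuclideanSpace ℂ ι` is the measure of the real
inner product space structure (`measureSpaceOfInnerProductSpace`); it is an additive Haar measure.

Sections
1. the real Jacobian determinant of a holomorphic map is `‖det jac‖²`
   (`LinearMap.det_restrictScalars`, `Algebra.norm ℝ z = ‖z‖²`);
2. change of variables for injective holomorphic maps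
   (`lintegral_image_eq_lintegral_abs_det_fderiv_mul`, `integral_image_eq_integral_abs_det_fderiv_smul`);
3. integration by parts for `dz`, `dzb` on an open set `U`: the functions are only defined/regular on
   `U` (junk outside), one factor vanishes on `U \ K`, `K ⊆ U` compact.
   Route: `Set.indicator U f` is globally `C¹` with compact support; then
   `integral_mul_fderiv_eq_neg_fderiv_mul_of_integrable`.
4. the same with a locally Lipschitz REAL factor (`LipschitzWith.integral_lineDeriv_mul_eq`,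
   `LipschitzWith.ae_differentiableAt`; multiply the `C¹` factor by a smooth cutoff).
-/

set_option autoImplicit false
set_option linter.unusedSectionVars false
open scoped ContDiff ComplexOrder ComplexConjugate Topology ENNReal
open MeasureTheory

namespace Claimed.Agent.R316

variable {ι : Type} [Fintype ι] [DecidableEq ι]

/-! ### 1. The real Jacobian -/

section jacobian

/-- determinant of a complex linear map, regarded as a real linear map. -/
theorem det_restrictScalars_real (L : CE ι →L[ℂ] CE ι) :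
    (L.restrictScalars ℝ).det = ‖L.det‖ ^ 2 := by
  have h := LinearMap.det_restrictScalars (R := ℝ) (f := (L : CE ι →ₗ[ℂ] CE ι))
  rw [Algebra.norm_complex_apply, Complex.normSq_eq_norm_sq] at h
  exact h

/-- `jac τ z` is the matrix of `fderiv ℂ τ z`. -/
theorem det_fderiv_eq_det_jac (τ : CE ι → CE ι) (z : CE ι) :
    (fderiv ℂ τ z).det = (jac τ z).det := by
  rw [ContinuousLinearMap.det, ← LinearMap.det_toMatrix (EuclideanSpace.basisFun ι ℂ).toBasis]
  congr 1

/-- the real Jacobian determinant of a holomorphic map. -/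
theorem det_fderiv_real (τ : CE ι → CE ι) {z : CE ι} (hτ : DifferentiableAt ℂ τ z) :
    (fderiv ℝ τ z).det = ‖(jac τ z).det‖ ^ 2 := by
  rw [(hτ.hasFDerivAt.restrictScalars ℝ).fderiv, det_restrictScalars_real, det_fderiv_eq_det_jac]

theorem hasFDerivAt_real_of_hol (τ : CE ι → CE ι) {z : CE ι} (hτ : DifferentiableAt ℂ τ z) :
    HasFDerivAt τ ((fderiv ℂ τ z).restrictScalars ℝ) z :=
  hτ.hasFDerivAt.restrictScalars ℝ

end jacobian

/-! ### 2. Change of variables -/

section change

variable {τ : CE ι → CE ι} {A : Set (CE ι)}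

theorem lintegral_image_hol (hA : MeasurableSet A) (hd : ∀ z ∈ A, DifferentiableAt ℂ τ z)
    (hinj : Set.InjOn τ A) (g : CE ι → ℝ≥0∞) :
    ∫⁻ w in τ '' A, g w = ∫⁻ z in A, ENNReal.ofReal (‖(jac τ z).det‖ ^ 2) * g (τ z) := by
  rw [lintegral_image_eq_lintegral_abs_det_fderiv_mul volume hA
    (f' := fun z => (fderiv ℂ τ z).restrictScalars ℝ)
    (fun z hz => ((hd z hz).hasFDerivAt.restrictScalars ℝ).hasFDerivWithinAt) hinj g]
  refine lintegral_congr fun z => ?_
  rw [det_restrictScalars_real, det_fderiv_eq_det_jac, abs_of_nonneg (by positivity)]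

theorem volume_image_hol (hA : MeasurableSet A) (hd : ∀ z ∈ A, DifferentiableAt ℂ τ z)
    (hinj : Set.InjOn τ A) :
    volume (τ '' A) = ∫⁻ z in A, ENNReal.ofReal (‖(jac τ z).det‖ ^ 2) := by
  have h := lintegral_image_hol hA hd hinj (fun _ => 1)
  simpa using h

theorem integral_image_hol {E : Type} [NormedAddCommGroup E] [NormedSpace ℝ E]
    (hA : MeasurableSet A) (hd : ∀ z ∈ A, DifferentiableAt ℂ τ z) (hinj : Set.InjOn τ A)
    (g : CE ι → E) :
    ∫ w in τ '' A, g w = ∫ z in A, (‖(jac τ z).det‖ ^ 2) • g (τ z) := by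
  rw [integral_image_eq_integral_abs_det_fderiv_smul volume hA
    (f' := fun z => (fderiv ℂ τ z).restrictScalars ℝ)
    (fun z hz => ((hd z hz).hasFDerivAt.restrictScalars ℝ).hasFDerivWithinAt) hinj g]
  refine integral_congr_ae (Filter.Eventually.of_forall fun z => ?_)
  show |((fderiv ℂ τ z).restrictScalars ℝ).det| • g (τ z) = _
  rw [det_restrictScalars_real, det_fderiv_eq_det_jac, abs_of_nonneg (by positivity)]

theorem integrableOn_image_hol_iff {E : Type} [NormedAddCommGroup E] [NormedSpace ℝ E]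
    (hA : MeasurableSet A) (hd : ∀ z ∈ A, DifferentiableAt ℂ τ z) (hinj : Set.InjOn τ A)
    (g : CE ι → E) :
    IntegrableOn g (τ '' A) ↔ IntegrableOn (fun z => (‖(jac τ z).det‖ ^ 2) • g (τ z)) A := by
  rw [integrableOn_image_iff_integrableOn_abs_det_fderiv_smul volume hA
    (f' := fun z => (fderiv ℂ τ z).restrictScalars ℝ)
    (fun z hz => ((hd z hz).hasFDerivAt.restrictScalars ℝ).hasFDerivWithinAt) hinj g]
  have e : (fun z => |((fderiv ℂ τ z).restrictScalars ℝ).det| • g (τ z)) =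
      fun z => (‖(jac τ z).det‖ ^ 2) • g (τ z) := by
    funext z
    rw [det_restrictScalars_real, det_fderiv_eq_det_jac, abs_of_nonneg (by positivity)]
  rw [e]

theorem ci_measurable_det_jac (τ : CE ι → CE ι) : Measurable fun z => (jac τ z).det := by
  simp only [Matrix.det_apply]
  refine Finset.measurable_sum _ fun σ _ => Measurable.const_smul ?_ _
  refine Finset.measurable_prod _ fun i _ => ?_
  exact (EuclideanSpace.proj (σ i) : CE ι →L[ℂ] ℂ).continuous.measurable.comp
    (measurable_fderiv_apply_const ℂ τ (eb i))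

/-- holomorphic maps with invertible Jacobian preserve null sets, in both directions. -/
theorem volume_image_hol_eq_zero_iff (hd : ∀ z ∈ A, DifferentiableAt ℂ τ z)
    (hinj : Set.InjOn τ A) (hdet : ∀ z ∈ A, (jac τ z).det ≠ 0) (hA : MeasurableSet A) :
    volume (τ '' A) = 0 ↔ volume A = 0 := by
  rw [volume_image_hol hA hd hinj]
  have hm : Measurable fun z => ENNReal.ofReal (‖(jac τ z).det‖ ^ 2) :=
    ((ci_measurable_det_jac τ).norm.pow_const 2).ennreal_ofReal
  rw [lintegral_eq_zero_iff hm]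
  constructor
  · intro h
    rw [Filter.EventuallyEq, ae_restrict_iff' hA] at h
    refine measure_mono_null (t := {z | ¬ (z ∈ A → ENNReal.ofReal (‖(jac τ z).det‖ ^ 2) =
      (0 : CE ι → ℝ≥0∞) z)}) (fun z hz hz' => ?_) h
    have h1 := hz' hz
    simp only [Pi.zero_apply, ENNReal.ofReal_eq_zero] at h1
    have h2 : 0 < ‖(jac τ z).det‖ ^ 2 := by
      have := norm_pos_iff.2 (hdet z hz)
      positivity
    linarith
  · intro h
    rw [Measure.restrict_eq_zero.2 h]
    exact ae_zero ▸ Filter.eventually_bot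

end change

/-! ### 3. Integration by parts, `C¹` functions -/

section ibp

variable {U K : Set (CE ι)} {f g : CE ι → ℂ}

/-- extension by zero of a function on `U` vanishing on `U \ K`. -/
theorem contDiff_indicator_of_compact {E : Type} [NormedAddCommGroup E] [NormedSpace ℝ E]
    {n : WithTop ℕ∞} {f : CE ι → E} (hU : IsOpen U) (hK : IsCompact K) (hKU : K ⊆ U)
    (hf : ContDiffOn ℝ n f U) (h0 : ∀ z ∈ U, z ∉ K → f z = 0) :
    ContDiff ℝ n (U.indicator f) ∧ HasCompactSupport (U.indicator f) ∧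
      tsupport (U.indicator f) ⊆ K := by
  have hsupp : Function.support (U.indicator f) ⊆ K := by
    intro z hz
    by_contra hzK
    apply hz
    by_cases hzU : z ∈ U
    · rw [Set.indicator_of_mem hzU, h0 z hzU hzK]
    · exact Set.indicator_of_notMem hzU f
  have hts : tsupport (U.indicator f) ⊆ K := closure_minimal hsupp hK.isClosed
  refine ⟨contDiff_iff_contDiffAt.2 fun z => ?_, hK.of_isClosed_subset (isClosed_tsupport _) hts,
    hts⟩
  by_cases hzU : z ∈ U
  · refine (hf.contDiffAt (hU.mem_nhds hzU)).congr_of_eventuallyEq ?_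
    filter_upwards [hU.mem_nhds hzU] with w hw
    exact Set.indicator_of_mem hw f
  · have hzK : z ∉ tsupport (U.indicator f) := fun h => hzU (hKU (hts h))
    refine (contDiffAt_const (c := (0 : E))).congr_of_eventuallyEq ?_
    exact notMem_tsupport_iff_eventuallyEq.1 hzK

theorem integral_fderiv_eq_zero_of_compactSupport {E : Type} [NormedAddCommGroup E]
    [NormedSpace ℝ E] {f : CE ι → E} (hf : ContDiff ℝ 1 f)
    (hc : HasCompactSupport f) (v : CE ι) : ∫ z, fderiv ℝ f z v = 0 := by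
  have hc1 : Continuous (fun z => fderiv ℝ f z v) :=
    (hf.continuous_fderiv one_ne_zero).clm_apply continuous_const
  have hi1 : Integrable (fun z => fderiv ℝ f z v) :=
    hc1.integrable_of_hasCompactSupport (hc.fderiv_apply (𝕜 := ℝ) v)
  have hi0 : Integrable f := hf.continuous.integrable_of_hasCompactSupport hc
  have h := integral_smul_fderiv_eq_neg_fderiv_smul_of_integrable
    (μ := (volume : Measure (CE ι))) (f := fun _ : CE ι => (1 : ℝ)) (g := f) (v := v)
    (by simp) (by simpa using hi1) (by simpa using hi0)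
    (fun x _ => differentiableAt_const _) (fun x _ => hf.differentiable one_ne_zero x)
  simpa using h

theorem ci_integrable_fderiv {E : Type} [NormedAddCommGroup E] [NormedSpace ℝ E] {f : CE ι → E}
    (hf : ContDiff ℝ 1 f) (hc : HasCompactSupport f) (v : CE ι) :
    Integrable (fun z => fderiv ℝ f z v) :=
  ((hf.continuous_fderiv one_ne_zero).clm_apply continuous_const).integrable_of_hasCompactSupport
    (hc.fderiv_apply (𝕜 := ℝ) v)

theorem integral_dz_eq_zero_of_compactSupport (hf : ContDiff ℝ 1 f) (hc : HasCompactSupport f)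
    (j : ι) : ∫ z, dz j f z = 0 := by
  unfold dz
  rw [integral_const_mul, integral_sub (ci_integrable_fderiv hf hc _)
    ((ci_integrable_fderiv hf hc _).const_mul _), integral_const_mul,
    integral_fderiv_eq_zero_of_compactSupport hf hc, integral_fderiv_eq_zero_of_compactSupport hf hc]
  simp

theorem integral_dzb_eq_zero_of_compactSupport (hf : ContDiff ℝ 1 f) (hc : HasCompactSupport f)
    (j : ι) : ∫ z, dzb j f z = 0 := by
  unfold dzb
  rw [integral_const_mul, integral_add (ci_integrable_fderiv hf hc _)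
    ((ci_integrable_fderiv hf hc _).const_mul _), integral_const_mul,
    integral_fderiv_eq_zero_of_compactSupport hf hc, integral_fderiv_eq_zero_of_compactSupport hf hc]
  simp

theorem setIntegral_dz_eq_zero (hU : IsOpen U) (hK : IsCompact K) (hKU : K ⊆ U)
    (hf : ContDiffOn ℝ 1 f U) (h0 : ∀ z ∈ U, z ∉ K → f z = 0) (j : ι) :
    ∫ z in U, dz j f z = 0 := by
  obtain ⟨h1, h2, h3⟩ := contDiff_indicator_of_compact hU hK hKU hf h0
  rw [← integral_dz_eq_zero_of_compactSupport h1 h2 j,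
    ← setIntegral_eq_integral_of_forall_compl_eq_zero (s := U) (fun z hz =>
      dz_eq_zero_of_notMem_tsupport fun h => hz (hKU (h3 h)))]
  refine setIntegral_congr_fun hU.measurableSet ?_
  exact dz_eqOn hU fun z hz => (Set.indicator_of_mem hz f).symm

theorem setIntegral_dzb_eq_zero (hU : IsOpen U) (hK : IsCompact K) (hKU : K ⊆ U)
    (hf : ContDiffOn ℝ 1 f U) (h0 : ∀ z ∈ U, z ∉ K → f z = 0) (j : ι) :
    ∫ z in U, dzb j f z = 0 := by
  obtain ⟨h1, h2, h3⟩ := contDiff_indicator_of_compact hU hK hKU hf h0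
  rw [← integral_dzb_eq_zero_of_compactSupport h1 h2 j,
    ← setIntegral_eq_integral_of_forall_compl_eq_zero (s := U) (fun z hz =>
      dzb_eq_zero_of_notMem_tsupport fun h => hz (hKU (h3 h)))]
  refine setIntegral_congr_fun hU.measurableSet ?_
  exact dzb_eqOn hU fun z hz => (Set.indicator_of_mem hz f).symm

/-- a continuous function on `U` vanishing on `U \ K` is integrable on `U`. -/
theorem integrableOn_of_continuousOn_of_compact {E : Type} [NormedAddCommGroup E] {f : CE ι → E}
    (hU : IsOpen U) (hK : IsCompact K) (hKU : K ⊆ U) (hf : ContinuousOn f U)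
    (h0 : ∀ z ∈ U, z ∉ K → f z = 0) : IntegrableOn f U := by
  have h1 : IntegrableOn f K := (hf.mono hKU).integrableOn_compact hK
  have h2 : IntegrableOn f (U \ K) :=
    (integrableOn_zero (μ := volume) (s := U \ K)).congr_fun
      (fun z hz => (h0 z hz.1 hz.2).symm) (hU.measurableSet.diff hK.measurableSet)
  have h3 := h1.union h2
  rwa [Set.union_sdiff_cancel hKU] at h3

theorem ci_continuousOn_dz (hU : IsOpen U) (hf : ContDiffOn ℝ 1 f U) (j : ι) :
    ContinuousOn (dz j f) U := fun z hz =>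
  ((contDiffAt_dz (m := 0) (hf.contDiffAt (hU.mem_nhds hz)) (by norm_num)).continuousAt).continuousWithinAt

theorem ci_continuousOn_dzb (hU : IsOpen U) (hf : ContDiffOn ℝ 1 f U) (j : ι) :
    ContinuousOn (dzb j f) U := fun z hz =>
  ((contDiffAt_dzb (m := 0) (hf.contDiffAt (hU.mem_nhds hz)) (by norm_num)).continuousAt).continuousWithinAt

theorem ci_eventually_zero (hU : IsOpen U) (hK : IsCompact K)
    {E : Type} [Zero E] {f : CE ι → E} (h0 : ∀ z ∈ U, z ∉ K → f z = 0) {z : CE ι} (hz : z ∈ U)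
    (hzK : z ∉ K) : f =ᶠ[𝓝 z] fun _ => 0 := by
  filter_upwards [hU.mem_nhds hz, hK.isClosed.isOpen_compl.mem_nhds hzK] with w hw hw'
  exact h0 w hw hw'

theorem ci_dz_zero (hU : IsOpen U) (hK : IsCompact K) (h0 : ∀ z ∈ U, z ∉ K → f z = 0) (j : ι) :
    ∀ z ∈ U, z ∉ K → dz j f z = 0 := fun z hz hzK => by
  rw [dz_congr (ci_eventually_zero hU hK h0 hz hzK), dz_const]

theorem ci_dzb_zero (hU : IsOpen U) (hK : IsCompact K) (h0 : ∀ z ∈ U, z ∉ K → f z = 0) (j : ι) :
    ∀ z ∈ U, z ∉ K → dzb j f z = 0 := fun z hz hzK => by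
  rw [dzb_congr (ci_eventually_zero hU hK h0 hz hzK), dzb_const]

theorem setIntegral_dz_mul (hU : IsOpen U) (hK : IsCompact K) (hKU : K ⊆ U)
    (hf : ContDiffOn ℝ 1 f U) (hg : ContDiffOn ℝ 1 g U) (h0 : ∀ z ∈ U, z ∉ K → f z = 0) (j : ι) :
    ∫ z in U, dz j f z * g z = - ∫ z in U, f z * dz j g z := by
  have h1 := setIntegral_dz_eq_zero (f := fun z => f z * g z) hU hK hKU (hf.mul hg)
    (fun z hz hzK => by rw [h0 z hz hzK, zero_mul]) j
  have h2 : ∫ z in U, dz j (fun z => f z * g z) z = ∫ z in U, (dz j f z * g z + f z * dz j g z) :=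
    setIntegral_congr_fun hU.measurableSet fun z hz =>
      dz_mul ((hf.contDiffAt (hU.mem_nhds hz)).differentiableAt one_ne_zero)
        ((hg.contDiffAt (hU.mem_nhds hz)).differentiableAt one_ne_zero)
  rw [h2, integral_add] at h1
  · exact eq_neg_of_add_eq_zero_left h1
  · exact integrableOn_of_continuousOn_of_compact hU hK hKU
      ((ci_continuousOn_dz hU hf j).mul hg.continuousOn)
      (fun z hz hzK => by rw [ci_dz_zero hU hK h0 j z hz hzK, zero_mul])
  · exact integrableOn_of_continuousOn_of_compact hU hK hKU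
      (hf.continuousOn.mul (ci_continuousOn_dz hU hg j))
      (fun z hz hzK => by rw [h0 z hz hzK, zero_mul])

theorem setIntegral_dzb_mul (hU : IsOpen U) (hK : IsCompact K) (hKU : K ⊆ U)
    (hf : ContDiffOn ℝ 1 f U) (hg : ContDiffOn ℝ 1 g U) (h0 : ∀ z ∈ U, z ∉ K → f z = 0) (j : ι) :
    ∫ z in U, dzb j f z * g z = - ∫ z in U, f z * dzb j g z := by
  have h1 := setIntegral_dzb_eq_zero (f := fun z => f z * g z) hU hK hKU (hf.mul hg)
    (fun z hz hzK => by rw [h0 z hz hzK, zero_mul]) j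
  have h2 : ∫ z in U, dzb j (fun z => f z * g z) z =
      ∫ z in U, (dzb j f z * g z + f z * dzb j g z) :=
    setIntegral_congr_fun hU.measurableSet fun z hz =>
      dzb_mul ((hf.contDiffAt (hU.mem_nhds hz)).differentiableAt one_ne_zero)
        ((hg.contDiffAt (hU.mem_nhds hz)).differentiableAt one_ne_zero)
  rw [h2, integral_add] at h1
  · exact eq_neg_of_add_eq_zero_left h1
  · exact integrableOn_of_continuousOn_of_compact hU hK hKU
      ((ci_continuousOn_dzb hU hf j).mul hg.continuousOn)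
      (fun z hz hzK => by rw [ci_dzb_zero hU hK h0 j z hz hzK, zero_mul])
  · exact integrableOn_of_continuousOn_of_compact hU hK hKU
      (hf.continuousOn.mul (ci_continuousOn_dzb hU hg j))
      (fun z hz hzK => by rw [h0 z hz hzK, zero_mul])

end ibp

/-! ### 4. Integration by parts, locally Lipschitz real factor -/

section lip

variable {U K : Set (CE ι)} {φ : CE ι → ℝ} {g : CE ι → ℂ}

/-- Rademacher on an open set. -/
theorem ae_differentiableAt_of_locallyLipschitzOn {E : Type} [NormedAddCommGroup E]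
    [NormedSpace ℝ E] [FiniteDimensional ℝ E] {f : CE ι → E} (hU : IsOpen U)
    (hf : LocallyLipschitzOn U f) : ∀ᵐ z ∂(volume.restrict U), DifferentiableAt ℝ f z := by
  choose! C t ht hC using fun x (hx : x ∈ U) => hf hx
  have hint : ∀ x ∈ U, interior (t x) ∈ 𝓝[U] x := fun x hx => by
    have h1 := ht x hx
    rw [hU.nhdsWithin_eq hx] at h1 ⊢
    exact interior_mem_nhds.2 h1
  obtain ⟨s, hsU, hsc, hcov⟩ := TopologicalSpace.countable_cover_nhdsWithin hint
  refine ae_restrict_of_ae_restrict_of_subset hcov ?_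
  rw [ae_restrict_biUnion_iff _ hsc]
  intro x hx
  have h1 := ((hC x (hsU hx)).mono interior_subset).ae_differentiableWithinAt
    (μ := (volume : Measure (CE ι))) isOpen_interior.measurableSet
  rw [ae_restrict_iff' isOpen_interior.measurableSet] at h1 ⊢
  filter_upwards [h1] with z hz hzi
  exact (hz hzi).differentiableAt (isOpen_interior.mem_nhds hzi)

/-- extension by zero of a locally Lipschitz function on `U` vanishing on `U \ K`. -/
theorem lipschitzWith_indicator_of_compact (hU : IsOpen U) (hK : IsCompact K) (hKU : K ⊆ U)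
    (hφ : LocallyLipschitzOn U φ) (h0 : ∀ z ∈ U, z ∉ K → φ z = 0) :
    (∃ C, LipschitzWith C (U.indicator φ)) ∧ HasCompactSupport (U.indicator φ) := by
  have hzero : ∀ z, z ∉ K → U.indicator φ z = 0 := by
    intro z hzK
    by_cases hzU : z ∈ U
    · rw [Set.indicator_of_mem hzU, h0 z hzU hzK]
    · exact Set.indicator_of_notMem hzU φ
  have hts : tsupport (U.indicator φ) ⊆ K :=
    closure_minimal (fun z hz => by
      by_contra hzK
      exact hz (hzero z hzK)) hK.isClosed
  have hcs : HasCompactSupport (U.indicator φ) := hK.of_isClosed_subset (isClosed_tsupport _) hts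
  have hloc : LocallyLipschitz (U.indicator φ) := by
    intro x
    by_cases hx : x ∈ U
    · obtain ⟨L, t, ht, hL⟩ := hφ hx
      rw [hU.nhdsWithin_eq hx] at ht
      refine ⟨L, t ∩ U, Filter.inter_mem ht (hU.mem_nhds hx), fun a ha b hb => ?_⟩
      rw [Set.indicator_of_mem ha.2, Set.indicator_of_mem hb.2]
      exact hL ha.1 hb.1
    · refine ⟨0, Kᶜ, hK.isClosed.isOpen_compl.mem_nhds fun h => hx (hKU h), fun a ha b hb => ?_⟩
      rw [hzero a ha, hzero b hb]
      simp
  obtain ⟨R, hR⟩ := hK.isBounded.subset_closedBall (0 : CE ι)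
  obtain ⟨C, hC⟩ := LocallyLipschitzOn.exists_lipschitzOnWith_of_compact
    (isCompact_closedBall (0 : CE ι) (R + 1)) hloc.locallyLipschitzOn
  obtain ⟨M, hM⟩ := hloc.continuous.bounded_above_of_compact_support hcs
  have key : ∀ x y, x ∉ Metric.closedBall (0 : CE ι) (R + 1) →
      dist (U.indicator φ x) (U.indicator φ y) ≤ (max C M.toNNReal : NNReal) * dist x y := by
    intro x y hx
    have hx0 : U.indicator φ x = 0 :=
      hzero x fun h => hx (Metric.closedBall_subset_closedBall (by linarith) (hR h))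
    by_cases hy : y ∈ K
    · have h1 : 1 ≤ dist x y := by
        have h2 : dist y 0 ≤ R := hR hy
        have h3 : R + 1 < dist x 0 := not_le.1 hx
        have := dist_triangle x y 0
        linarith
      rw [hx0, dist_zero_left]
      calc ‖U.indicator φ y‖ ≤ M := hM y
        _ ≤ M.toNNReal := Real.le_coe_toNNReal M
        _ ≤ (max C M.toNNReal : NNReal) := NNReal.coe_le_coe.2 (le_max_right _ _)
        _ ≤ (max C M.toNNReal : NNReal) * dist x y :=
          le_mul_of_one_le_right (NNReal.coe_nonneg _) h1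
    · rw [hx0, hzero y hy, dist_self]
      positivity
  refine ⟨⟨max C M.toNNReal, LipschitzWith.of_dist_le_mul fun x y => ?_⟩, hcs⟩
  by_cases hx : x ∈ Metric.closedBall (0 : CE ι) (R + 1)
  · by_cases hy : y ∈ Metric.closedBall (0 : CE ι) (R + 1)
    · calc dist (U.indicator φ x) (U.indicator φ y) ≤ C * dist x y := hC.dist_le_mul x hx y hy
        _ ≤ (max C M.toNNReal : NNReal) * dist x y :=
          mul_le_mul_of_nonneg_right (NNReal.coe_le_coe.2 (le_max_left _ _)) dist_nonneg
    · rw [dist_comm (U.indicator φ x), dist_comm x]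
      exact key y x hy
  · exact key x y hx

theorem ci_norm_eb (j : ι) : ‖(eb j : CE ι)‖ = 1 := by
  simp [eb]

theorem ci_norm_dz_le (F : CE ι → ℂ) (z : CE ι) (j : ι) : ‖dz j F z‖ ≤ ‖fderiv ℝ F z‖ := by
  have h1 : ‖fderiv ℝ F z (eb j)‖ ≤ ‖fderiv ℝ F z‖ := by
    have := (fderiv ℝ F z).le_opNorm (eb j)
    rwa [ci_norm_eb, mul_one] at this
  have h2 : ‖fderiv ℝ F z (Complex.I • eb j)‖ ≤ ‖fderiv ℝ F z‖ := by
    have := (fderiv ℝ F z).le_opNorm (Complex.I • eb j)
    rwa [norm_smul, ci_norm_eb, Complex.norm_I, mul_one, mul_one] at this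
  rw [dz_def, norm_mul]
  have h3 : ‖fderiv ℝ F z (eb j) - Complex.I * fderiv ℝ F z (Complex.I • eb j)‖ ≤
      ‖fderiv ℝ F z (eb j)‖ + ‖fderiv ℝ F z (Complex.I • eb j)‖ := by
    refine (norm_sub_le _ _).trans ?_
    rw [norm_mul, Complex.norm_I, one_mul]
  have h4 : ‖(1 / 2 : ℂ)‖ = 1 / 2 := by norm_num
  rw [h4]
  linarith

theorem ci_norm_dzb_le (F : CE ι → ℂ) (z : CE ι) (j : ι) : ‖dzb j F z‖ ≤ ‖fderiv ℝ F z‖ := by
  have h1 : ‖fderiv ℝ F z (eb j)‖ ≤ ‖fderiv ℝ F z‖ := by
    have := (fderiv ℝ F z).le_opNorm (eb j)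
    rwa [ci_norm_eb, mul_one] at this
  have h2 : ‖fderiv ℝ F z (Complex.I • eb j)‖ ≤ ‖fderiv ℝ F z‖ := by
    have := (fderiv ℝ F z).le_opNorm (Complex.I • eb j)
    rwa [norm_smul, ci_norm_eb, Complex.norm_I, mul_one, mul_one] at this
  rw [dzb_def, norm_mul]
  have h3 : ‖fderiv ℝ F z (eb j) + Complex.I * fderiv ℝ F z (Complex.I • eb j)‖ ≤
      ‖fderiv ℝ F z (eb j)‖ + ‖fderiv ℝ F z (Complex.I • eb j)‖ := by
    refine (norm_add_le _ _).trans ?_
    rw [norm_mul, Complex.norm_I, one_mul]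
  have h4 : ‖(1 / 2 : ℂ)‖ = 1 / 2 := by norm_num
  rw [h4]
  linarith

/-- the Wirtinger derivatives of a locally Lipschitz function are measurable and locally bounded:
on a compact subset of `U` they are bounded. -/
theorem exists_bound_dz_of_locallyLipschitzOn (hU : IsOpen U) (hK : IsCompact K) (hKU : K ⊆ U)
    (hφ : LocallyLipschitzOn U φ) :
    ∃ C : ℝ, ∀ z ∈ K, ∀ j, ‖dz j (fun w => ((φ w : ℝ) : ℂ)) z‖ ≤ C := by
  obtain ⟨K', hK', hKK', hK'U⟩ := exists_compact_between hK hU hKU
  obtain ⟨C, hC⟩ := LocallyLipschitzOn.exists_lipschitzOnWith_of_compact hK' (hφ.mono hK'U)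
  refine ⟨C, fun z hz j => (ci_norm_dz_le _ z j).trans ?_⟩
  have hl : LipschitzOnWith C (fun w => ((φ w : ℝ) : ℂ)) K' := by
    have := Complex.isometry_ofReal.lipschitz.comp_lipschitzOnWith hC
    rwa [one_mul] at this
  exact norm_fderiv_le_of_lipschitzOn ℝ (mem_interior_iff_mem_nhds.1 (hKK' hz)) hl

/-- `dz j f` is Borel measurable for EVERY function `f` (`measurable_fderiv_apply_const`). -/
theorem measurable_dz (f : CE ι → ℂ) (j : ι) : Measurable (dz j f) := by
  have e : dz j f = fun z => (1 / 2 : ℂ) *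
      (fderiv ℝ f z (eb j) - Complex.I * fderiv ℝ f z (Complex.I • eb j)) := rfl
  rw [e]
  exact measurable_const.mul ((measurable_fderiv_apply_const ℝ _ _).sub
    (measurable_const.mul (measurable_fderiv_apply_const ℝ _ _)))

theorem measurable_dzb (f : CE ι → ℂ) (j : ι) : Measurable (dzb j f) := by
  have e : dzb j f = fun z => (1 / 2 : ℂ) *
      (fderiv ℝ f z (eb j) + Complex.I * fderiv ℝ f z (Complex.I • eb j)) := rfl
  rw [e]
  exact measurable_const.mul ((measurable_fderiv_apply_const ℝ _ _).add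
    (measurable_const.mul (measurable_fderiv_apply_const ℝ _ _)))

theorem measurable_grad10 (u : CE ι → ℝ) (j : ι) : Measurable (fun z => grad10 u z j) := by
  exact measurable_dz _ j

theorem ci_lipschitz_ofReal {ψ : CE ι → ℝ} {C : NNReal} (hψ : LipschitzWith C ψ) :
    LipschitzWith C (fun w => ((ψ w : ℝ) : ℂ)) := by
  have := Complex.isometry_ofReal.lipschitz.comp hψ
  rwa [one_mul] at this

theorem ci_integrable_fderiv_lip_mul {ψ : CE ι → ℝ} {C : NNReal} (hψ : LipschitzWith C ψ)
    {G : CE ι → ℂ} (hG : Continuous G) (hGc : HasCompactSupport G) (v : CE ι) :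
    Integrable (fun z => fderiv ℝ (fun w => ((ψ w : ℝ) : ℂ)) z v * G z) := by
  have hGi : Integrable G := hG.integrable_of_hasCompactSupport hGc
  refine hGi.bdd_mul (c := C * ‖v‖) (measurable_fderiv_apply_const ℝ _ v).aestronglyMeasurable
    (Filter.Eventually.of_forall fun z => ?_)
  calc ‖fderiv ℝ (fun w => ((ψ w : ℝ) : ℂ)) z v‖
      ≤ ‖fderiv ℝ (fun w => ((ψ w : ℝ) : ℂ)) z‖ * ‖v‖ := ContinuousLinearMap.le_opNorm _ _
    _ ≤ C * ‖v‖ := mul_le_mul_of_nonneg_right
        (norm_fderiv_le_of_lipschitz ℝ (ci_lipschitz_ofReal hψ)) (norm_nonneg _)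

theorem ci_integrable_lip_mul_fderiv {ψ : CE ι → ℝ} (hψ : Continuous ψ)
    {G : CE ι → ℂ} (hG : ContDiff ℝ 1 G) (hGc : HasCompactSupport G) (v : CE ι) :
    Integrable (fun z => ((ψ z : ℝ) : ℂ) * fderiv ℝ G z v) :=
  ((Complex.continuous_ofReal.comp hψ).mul
    ((hG.continuous_fderiv one_ne_zero).clm_apply continuous_const)).integrable_of_hasCompactSupport
    (hGc.fderiv_apply (𝕜 := ℝ) v).mul_left

theorem ci_integral_lineDeriv_mul {ψ γ : CE ι → ℝ} {C : NNReal} (hψ : LipschitzWith C ψ)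
    (hγ : ContDiff ℝ 1 γ) (hγc : HasCompactSupport γ) (v : CE ι) :
    ∫ z, lineDeriv ℝ ψ z v * γ z = - ∫ z, ψ z * fderiv ℝ γ z v := by
  obtain ⟨D, hD⟩ := ContDiff.lipschitzWith_of_hasCompactSupport hγc hγ one_ne_zero
  rw [hψ.integral_lineDeriv_mul_eq hD hγc v, ← integral_neg]
  refine integral_congr_ae (Filter.Eventually.of_forall fun z => ?_)
  show lineDeriv ℝ γ z (-v) * ψ z = -(ψ z * fderiv ℝ γ z v)
  rw [(hγ.differentiable one_ne_zero z).lineDeriv_eq_fderiv, map_neg]
  ring

/-- integration by parts in the direction `v`: Lipschitz real factor, `C¹` compactly supported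
complex factor. -/
theorem ci_integral_fderiv_lip_mul {ψ : CE ι → ℝ} {C : NNReal} (hψ : LipschitzWith C ψ)
    {G : CE ι → ℂ} (hG : ContDiff ℝ 1 G) (hGc : HasCompactSupport G) (v : CE ι) :
    ∫ z, fderiv ℝ (fun w => ((ψ w : ℝ) : ℂ)) z v * G z
      = - ∫ z, ((ψ z : ℝ) : ℂ) * fderiv ℝ G z v := by
  have hae := hψ.ae_differentiableAt (μ := (volume : Measure (CE ι)))
  have hi1 := ci_integrable_fderiv_lip_mul hψ hG.continuous hGc v
  have hi2 := ci_integrable_lip_mul_fderiv hψ.continuous hG hGc v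
  have claim : ∀ L : ℂ →L[ℝ] ℝ, L (∫ z, fderiv ℝ (fun w => ((ψ w : ℝ) : ℂ)) z v * G z)
      = L (- ∫ z, ((ψ z : ℝ) : ℂ) * fderiv ℝ G z v) := by
    intro L
    rw [map_neg, ← L.integral_comp_comm hi1, ← L.integral_comp_comm hi2]
    have h1 := ci_integral_lineDeriv_mul hψ (L.contDiff.comp hG) (hGc.comp_left (map_zero L)) v
    calc ∫ z, L (fderiv ℝ (fun w => ((ψ w : ℝ) : ℂ)) z v * G z)
        = ∫ z, lineDeriv ℝ ψ z v * (L ∘ G) z := by
          refine integral_congr_ae ?_
          filter_upwards [hae] with z hz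
          rw [fderiv_ofReal_apply hz, ← hz.lineDeriv_eq_fderiv, ← Complex.real_smul, map_smul,
            smul_eq_mul]
          rfl
      _ = - ∫ z, ψ z * fderiv ℝ (L ∘ G) z v := h1
      _ = - ∫ z, L (((ψ z : ℝ) : ℂ) * fderiv ℝ G z v) := by
          congr 1
          refine integral_congr_ae (Filter.Eventually.of_forall fun z => ?_)
          show ψ z * fderiv ℝ (L ∘ G) z v = L (((ψ z : ℝ) : ℂ) * fderiv ℝ G z v)
          rw [(L.hasFDerivAt.comp z (hG.differentiable one_ne_zero z).hasFDerivAt).fderiv,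
            ← Complex.real_smul, map_smul, smul_eq_mul]
          rfl
  exact Complex.ext (claim Complex.reCLM) (claim Complex.imCLM)

theorem ci_integral_dz_lip_mul {ψ : CE ι → ℝ} {C : NNReal} (hψ : LipschitzWith C ψ)
    {G : CE ι → ℂ} (hG : ContDiff ℝ 1 G) (hGc : HasCompactSupport G) (j : ι) :
    ∫ z, dz j (fun w => ((ψ w : ℝ) : ℂ)) z * G z = - ∫ z, ((ψ z : ℝ) : ℂ) * dz j G z := by
  have e1 : ∀ z, dz j (fun w => ((ψ w : ℝ) : ℂ)) z * G z =
      (1 / 2 : ℂ) * (fderiv ℝ (fun w => ((ψ w : ℝ) : ℂ)) z (eb j) * G z) -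
        (1 / 2 * Complex.I) * (fderiv ℝ (fun w => ((ψ w : ℝ) : ℂ)) z (Complex.I • eb j) * G z) := by
    intro z
    rw [dz_def]
    ring
  have e2 : ∀ z, ((ψ z : ℝ) : ℂ) * dz j G z =
      (1 / 2 : ℂ) * (((ψ z : ℝ) : ℂ) * fderiv ℝ G z (eb j)) -
        (1 / 2 * Complex.I) * (((ψ z : ℝ) : ℂ) * fderiv ℝ G z (Complex.I • eb j)) := by
    intro z
    rw [dz_def]
    ring
  simp only [e1, e2]
  rw [integral_sub ((ci_integrable_fderiv_lip_mul hψ hG.continuous hGc _).const_mul _)
      ((ci_integrable_fderiv_lip_mul hψ hG.continuous hGc _).const_mul _),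
    integral_sub ((ci_integrable_lip_mul_fderiv hψ.continuous hG hGc _).const_mul _)
      ((ci_integrable_lip_mul_fderiv hψ.continuous hG hGc _).const_mul _),
    integral_const_mul, integral_const_mul, integral_const_mul, integral_const_mul,
    ci_integral_fderiv_lip_mul hψ hG hGc, ci_integral_fderiv_lip_mul hψ hG hGc]
  ring

theorem ci_integral_dzb_lip_mul {ψ : CE ι → ℝ} {C : NNReal} (hψ : LipschitzWith C ψ)
    {G : CE ι → ℂ} (hG : ContDiff ℝ 1 G) (hGc : HasCompactSupport G) (j : ι) :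
    ∫ z, dzb j (fun w => ((ψ w : ℝ) : ℂ)) z * G z = - ∫ z, ((ψ z : ℝ) : ℂ) * dzb j G z := by
  have e1 : ∀ z, dzb j (fun w => ((ψ w : ℝ) : ℂ)) z * G z =
      (1 / 2 : ℂ) * (fderiv ℝ (fun w => ((ψ w : ℝ) : ℂ)) z (eb j) * G z) +
        (1 / 2 * Complex.I) * (fderiv ℝ (fun w => ((ψ w : ℝ) : ℂ)) z (Complex.I • eb j) * G z) := by
    intro z
    rw [dzb_def]
    ring
  have e2 : ∀ z, ((ψ z : ℝ) : ℂ) * dzb j G z =
      (1 / 2 : ℂ) * (((ψ z : ℝ) : ℂ) * fderiv ℝ G z (eb j)) +
        (1 / 2 * Complex.I) * (((ψ z : ℝ) : ℂ) * fderiv ℝ G z (Complex.I • eb j)) := by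
    intro z
    rw [dzb_def]
    ring
  simp only [e1, e2]
  rw [integral_add ((ci_integrable_fderiv_lip_mul hψ hG.continuous hGc _).const_mul _)
      ((ci_integrable_fderiv_lip_mul hψ hG.continuous hGc _).const_mul _),
    integral_add ((ci_integrable_lip_mul_fderiv hψ.continuous hG hGc _).const_mul _)
      ((ci_integrable_lip_mul_fderiv hψ.continuous hG hGc _).const_mul _),
    integral_const_mul, integral_const_mul, integral_const_mul, integral_const_mul,
    ci_integral_fderiv_lip_mul hψ hG hGc, ci_integral_fderiv_lip_mul hψ hG hGc]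
  ring

/-- replace a `C¹` function on `U` by a compactly supported global one, equal to it near `K`. -/
theorem ci_exists_global (hU : IsOpen U) (hK : IsCompact K) (hKU : K ⊆ U)
    (hg : ContDiffOn ℝ 1 g U) :
    ∃ G : CE ι → ℂ, ContDiff ℝ 1 G ∧ HasCompactSupport G ∧ (∀ z ∉ U, G z = 0) ∧
      ∀ z ∈ K, G =ᶠ[𝓝 z] g := by
  obtain ⟨K', hK', hKK', hK'U⟩ := exists_compact_between hK hU hKU
  obtain ⟨θ, h1, h0, -⟩ := exists_contMDiffMap_one_nhds_of_subset_interior
    (n := (⊤ : ℕ∞)) (modelWithCornersSelf ℝ (CE ι)) hK.isClosed hKK'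
  have hθ : ContDiff ℝ 1 (fun z => ((θ z : ℝ) : ℂ)) :=
    Complex.ofRealCLM.contDiff.comp
      ((contMDiff_iff_contDiff.1 θ.contMDiff).of_le (WithTop.coe_le_coe.2 le_top))
  obtain ⟨a, b, -⟩ := contDiff_indicator_of_compact (f := fun z => ((θ z : ℝ) : ℂ) * g z) hU hK'
    hK'U (hθ.contDiffOn.mul hg) (fun z _ hzK => by rw [h0 z hzK]; simp)
  refine ⟨_, a, b, fun z hz => Set.indicator_of_notMem hz _, fun z hz => ?_⟩
  filter_upwards [hU.mem_nhds (hKU hz), h1.filter_mono (nhds_le_nhdsSet hz)] with w hw hw1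
  rw [Set.indicator_of_mem hw, hw1]
  simp

theorem setIntegral_dz_mul_of_lipschitz (hU : IsOpen U) (hK : IsCompact K) (hKU : K ⊆ U)
    (hφ : LocallyLipschitzOn U φ) (hg : ContDiffOn ℝ 1 g U) (h0 : ∀ z ∈ U, z ∉ K → φ z = 0)
    (j : ι) :
    ∫ z in U, dz j (fun w => ((φ w : ℝ) : ℂ)) z * g z
      = - ∫ z in U, ((φ z : ℝ) : ℂ) * dz j g z := by
  obtain ⟨⟨C, hC⟩, -⟩ := lipschitzWith_indicator_of_compact hU hK hKU hφ h0
  obtain ⟨G, hG, hGc, hG0, hGg⟩ := ci_exists_global hU hK hKU hg
  have hmain := ci_integral_dz_lip_mul hC hG hGc j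
  have h0' : ∀ z ∈ U, z ∉ K → (fun w => ((φ w : ℝ) : ℂ)) z = 0 := fun z hz hzK => by
    simp [h0 z hz hzK]
  have hL : ∫ z in U, dz j (fun w => ((φ w : ℝ) : ℂ)) z * g z =
      ∫ z, dz j (fun w => ((U.indicator φ w : ℝ) : ℂ)) z * G z := by
    rw [← setIntegral_eq_integral_of_forall_compl_eq_zero (μ := (volume : Measure (CE ι)))
      (s := U) (f := fun z => dz j (fun w => ((U.indicator φ w : ℝ) : ℂ)) z * G z)
      (fun z hz => by rw [hG0 z hz, mul_zero])]
    refine setIntegral_congr_fun hU.measurableSet fun z hz => ?_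
    show dz j (fun w => ((φ w : ℝ) : ℂ)) z * g z =
      dz j (fun w => ((U.indicator φ w : ℝ) : ℂ)) z * G z
    have e : dz j (fun w => ((U.indicator φ w : ℝ) : ℂ)) z = dz j (fun w => ((φ w : ℝ) : ℂ)) z :=
      dz_eqOn hU (fun w hw => by simp only [Set.indicator_of_mem hw]) hz
    rw [e]
    by_cases hzK : z ∈ K
    · rw [(hGg z hzK).eq_of_nhds]
    · rw [ci_dz_zero hU hK h0' j z hz hzK, zero_mul, zero_mul]
  have hR : ∫ z in U, ((φ z : ℝ) : ℂ) * dz j g z =
      ∫ z, ((U.indicator φ z : ℝ) : ℂ) * dz j G z := by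
    rw [← setIntegral_eq_integral_of_forall_compl_eq_zero (μ := (volume : Measure (CE ι)))
      (s := U) (f := fun z => ((U.indicator φ z : ℝ) : ℂ) * dz j G z)
      (fun z hz => by rw [Set.indicator_of_notMem hz]; simp)]
    refine setIntegral_congr_fun hU.measurableSet fun z hz => ?_
    show ((φ z : ℝ) : ℂ) * dz j g z = ((U.indicator φ z : ℝ) : ℂ) * dz j G z
    rw [Set.indicator_of_mem hz]
    by_cases hzK : z ∈ K
    · rw [dz_congr (hGg z hzK)]
    · rw [h0 z hz hzK]
      simp
  rw [hL, hR, hmain]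

theorem setIntegral_dzb_mul_of_lipschitz (hU : IsOpen U) (hK : IsCompact K) (hKU : K ⊆ U)
    (hφ : LocallyLipschitzOn U φ) (hg : ContDiffOn ℝ 1 g U) (h0 : ∀ z ∈ U, z ∉ K → φ z = 0)
    (j : ι) :
    ∫ z in U, dzb j (fun w => ((φ w : ℝ) : ℂ)) z * g z
      = - ∫ z in U, ((φ z : ℝ) : ℂ) * dzb j g z := by
  obtain ⟨⟨C, hC⟩, -⟩ := lipschitzWith_indicator_of_compact hU hK hKU hφ h0
  obtain ⟨G, hG, hGc, hG0, hGg⟩ := ci_exists_global hU hK hKU hg
  have hmain := ci_integral_dzb_lip_mul hC hG hGc j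
  have h0' : ∀ z ∈ U, z ∉ K → (fun w => ((φ w : ℝ) : ℂ)) z = 0 := fun z hz hzK => by
    simp [h0 z hz hzK]
  have hL : ∫ z in U, dzb j (fun w => ((φ w : ℝ) : ℂ)) z * g z =
      ∫ z, dzb j (fun w => ((U.indicator φ w : ℝ) : ℂ)) z * G z := by
    rw [← setIntegral_eq_integral_of_forall_compl_eq_zero (μ := (volume : Measure (CE ι)))
      (s := U) (f := fun z => dzb j (fun w => ((U.indicator φ w : ℝ) : ℂ)) z * G z)
      (fun z hz => by rw [hG0 z hz, mul_zero])]
    refine setIntegral_congr_fun hU.measurableSet fun z hz => ?_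
    show dzb j (fun w => ((φ w : ℝ) : ℂ)) z * g z =
      dzb j (fun w => ((U.indicator φ w : ℝ) : ℂ)) z * G z
    have e : dzb j (fun w => ((U.indicator φ w : ℝ) : ℂ)) z =
        dzb j (fun w => ((φ w : ℝ) : ℂ)) z :=
      dzb_eqOn hU (fun w hw => by simp only [Set.indicator_of_mem hw]) hz
    rw [e]
    by_cases hzK : z ∈ K
    · rw [(hGg z hzK).eq_of_nhds]
    · rw [ci_dzb_zero hU hK h0' j z hz hzK, zero_mul, zero_mul]
  have hR : ∫ z in U, ((φ z : ℝ) : ℂ) * dzb j g z =
      ∫ z, ((U.indicator φ z : ℝ) : ℂ) * dzb j G z := by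
    rw [← setIntegral_eq_integral_of_forall_compl_eq_zero (μ := (volume : Measure (CE ι)))
      (s := U) (f := fun z => ((U.indicator φ z : ℝ) : ℂ) * dzb j G z)
      (fun z hz => by rw [Set.indicator_of_notMem hz]; simp)]
    refine setIntegral_congr_fun hU.measurableSet fun z hz => ?_
    show ((φ z : ℝ) : ℂ) * dzb j g z = ((U.indicator φ z : ℝ) : ℂ) * dzb j G z
    rw [Set.indicator_of_mem hz]
    by_cases hzK : z ∈ K
    · rw [dzb_congr (hGg z hzK)]
    · rw [h0 z hz hzK]
      simp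
  rw [hL, hR, hmain]

end lip

end Claimed.Agent.R316
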